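import Vale.Agent.P277Z.Van.Defs
import Vale.Agent.P284Z.N.L2
import Vale.Agent.P299.H720.Montel

/-!
# P277Z, block VAN: limits of sections which are locally bounded in `L²`
-/

open scoped Manifold ContDiff ComplexOrder Topology ENNReal Matrix
open MeasureTheory Filter Set Metric

set_option linter.unusedSectionVars false

noncomputable section

namespace Vale.Agent.P277Z.Van

open Vale.Agent.P272.K Vale.Agent.P301.H599 Vale.Agent.P285Z Vale.Agent.P299.H720
open Vale.Agent.P301.H98 (IsSection nrm)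

namespace Lm

/-- the mean value inequality with a weight -/
theorem mean {n : ℕ} {G : Cm n → ℂ} {w : Cm n} {ρ m : ℝ} (hρ : 0 < ρ) (hm : 0 < m)
    (hG : DifferentiableOn ℂ G (ball w ρ)) {F : Cm n → ℝ≥0∞} {D : Set (Cm n)} (hD : ball w ρ ⊆ D)
    (hF : ∀ x ∈ ball w ρ, ENNReal.ofReal (‖G x‖ ^ 2 * m) ≤ F x) {B : ℝ≥0∞} (hB : B ≠ ⊤)
    (h : ∫⁻ x in D, F x ≤ B) :
    ‖G w‖ ≤ √(B.toReal / (m * (volume (ball (0 : Cm n) ρ)).toReal)) := by
  have : (volume : Measure (Cm n)).IsAddHaarMeasure := Measure.pi.isAddHaarMeasure _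
  have h1 := P284Z.N.mean_ball volume (fun c hc => volume_preserving_pi fun _ : Fin n =>
    (rotation (⟨c, mem_sphere_zero_iff_norm.2 hc⟩ : Circle)).measurePreserving) hG
  have e : ∀ x, ENNReal.ofReal (‖G x‖ ^ 2 * m) = ENNReal.ofReal m * ‖G x‖ₑ ^ 2 := fun x => by
    rw [mul_comm, ENNReal.ofReal_mul hm.le, ENNReal.ofReal_pow (norm_nonneg _), ofReal_norm]
  have h2 : ENNReal.ofReal m * (‖G w‖ₑ ^ 2 * volume (ball (0 : Cm n) ρ)) ≤ B := by
    refine (mul_le_mul_right h1 _).trans ?_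
    rw [← lintegral_const_mul' _ _ ENNReal.ofReal_ne_top]
    exact (setLIntegral_mono' measurableSet_ball fun x hx => e x ▸ hF x hx).trans
      ((lintegral_mono_set hD).trans h)
  have h3 := ENNReal.toReal_mono hB h2
  rw [← mul_assoc, ← e, ENNReal.toReal_mul, ENNReal.toReal_ofReal (by positivity), mul_assoc] at h3
  exact Real.le_sqrt_of_sq_le ((le_div_iff₀ (mul_pos hm (ENNReal.toReal_pos
    (measure_ball_pos volume _ hρ).ne' measure_ball_lt_top.ne))).2 h3)

variable {d : ℕ} {X : Type} [TopologicalSpace X] [ChartedSpace (Cm d) X] {κ : Type}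
  {M : LineBundle d X κ} {ρ : κ → X → ℝ} {e : Chart d X} {x : X}

theorem nrm_eq (hρ : IsMetric M ρ) {s : κ → X → ℂ}
    (hs : ∀ i j, x ∈ M.U i → x ∈ M.U j → s i x = M.g i j x * s j x) {i : κ} (hi : x ∈ M.U i) :
    nrm M ρ s x = ‖s i x‖ ^ 2 * Real.exp (-ρ i x) := by
  have hj : x ∈ M.U (M.cover x).choose := (M.cover x).choose_spec
  have hg := M.ne_zero i _ x hi hj
  rw [nrm, hs i _ hi hj, hρ.change i _ x hi hj, neg_add, Real.exp_add, Real.exp_neg (Real.log _),
    Real.exp_log (by positivity), norm_mul]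
  field_simp

theorem contAt {Y : Type} [TopologicalSpace Y] {f : X → Y} (hx : x ∈ e.source)
    (hf : ContinuousAt (fun z => f (e.symm z)) (e x)) : ContinuousAt f x := by
  have h1 : ContinuousAt (fun y => f (e.symm (e y))) x := hf.comp (f := e) (e.continuousAt hx)
  refine h1.congr ?_
  filter_upwards [e.open_source.mem_nhds hx] with y hy
  rw [e.left_inv hy]

theorem contAt_det {h : Fm d X} (hh : IsHermitian h) (hx : At e x) :
    ContinuousAt (fun z => (h e z).det.re) (e x) :=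
  Complex.continuous_re.continuousAt.comp ((continuous_id.matrix_det).continuousAt.comp
    (f := fun z => h e z) (continuousAt_pi.2 fun i => continuousAt_pi.2 fun j =>
      (hh.smooth e x hx i j).continuousAt))

variable [MeasurableSpace X] [BorelSpace X] {h : Fm d X} {μ : Measure X} {Ω : Set X}
  {G : ℕ → κ → X → ℂ}

theorem locBdd (hh : IsHermitian h) (hμ : IsVol h μ) (hρ : IsMetric M ρ)
    (hG : ∀ x ∈ Ω, ∃ V : Set X, IsOpen V ∧ x ∈ V ∧ ∃ C : ℝ≥0∞, C ≠ ⊤ ∧ ∀ᶠ k in atTop,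
      SecOn M V (G k) ∧ ∫⁻ y in V, ENNReal.ofReal (nrm M ρ (G k) y) ∂μ ≤ C)
    (he : e ∈ atlas (Cm d) X) (i : κ) :
    LocBdd atTop (fun k z => G k i (e.symm z)) (e.target ∩ e.symm ⁻¹' (M.U i ∩ Ω)) := by
  rintro z₀ ⟨hz, hi, hΩ⟩
  obtain ⟨V, hV, hxV, C, hC, hk⟩ := hG _ hΩ
  have hx : At e (e.symm z₀) := ⟨he, e.map_target hz⟩
  have a1 : ContinuousAt (fun z => Real.exp (-ρ i (e.symm z)) * (h e z).det.re) z₀ := by
    have := (Real.continuous_exp.continuousAt.comp (hρ.smooth i e _ hx hi).continuousAt.neg).mul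
      (contAt_det hh hx)
    rwa [e.right_inv hz] at this
  have a2 : 0 < Real.exp (-ρ i (e.symm z₀)) * (h e z₀).det.re := by
    have : 0 < (h e (e (e.symm z₀))).det.re := (Complex.lt_def.1 (hh.posDef e _ hx).det_pos).1
    rw [e.right_inv hz] at this
    positivity
  obtain ⟨m, hm, a3⟩ := exists_between a2
  obtain ⟨r, hr, hb⟩ := Metric.eventually_nhds_iff_ball.1 ((a1.eventually (lt_mem_nhds a3)).and
    ((e.isOpen_inter_preimage_symm ((M.isOpen i).inter hV)).mem_nhds ⟨hz, hi, hxV⟩))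
  refine ⟨r / 2, half_pos hr, √(C.toReal / (m * (volume (ball (0 : Cm d) (r / 2))).toReal)),
    hk.mono fun k ⟨hs, hI⟩ => ?_⟩
  have b1 : DifferentiableOn ℂ (fun z => G k i (e.symm z)) (ball z₀ r) := fun z hz => by
    obtain ⟨-, c1, c2, c3⟩ := hb z hz
    have := hs.holo i e _ ⟨he, e.map_target c1⟩ c2 c3
    rw [e.right_inv c1] at this
    exact this.differentiableAt.differentiableWithinAt
  have hO : IsOpen (e.source ∩ e ⁻¹' ball z₀ r) := e.isOpen_inter_preimage isOpen_ball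
  have b2 : ∀ y ∈ e.source ∩ e ⁻¹' ball z₀ r, y ∈ M.U i ∧ y ∈ V := fun y hy => by
    have := (hb _ hy.2).2.2
    rwa [mem_preimage, e.left_inv hy.1] at this
  have b3 : ∀ y ∈ e.source ∩ e ⁻¹' ball z₀ r, nrm M ρ (G k) y = ‖G k i y‖ ^ 2 * Real.exp (-ρ i y) :=
    fun y hy => nrm_eq hρ (fun a b ha hb => hs.change a b y ha hb (b2 y hy).2) (b2 y hy).1
  have b4 : Measurable ((e.source ∩ e ⁻¹' ball z₀ r).indicator
      fun y => ENNReal.ofReal (nrm M ρ (G k) y)) := by
    classical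
    rw [← piecewise_eq_indicator]
    refine ContinuousOn.measurable_piecewise (ENNReal.continuous_ofReal.comp_continuousOn
      (ContinuousOn.congr (fun y hy => ContinuousAt.continuousWithinAt ?_) b3)) continuousOn_const
      hO.measurableSet
    exact ((contAt hy.1 (hs.holo i e y ⟨he, hy.1⟩ (b2 y hy).1 (b2 y hy).2).continuousAt).norm.pow
      2).mul (Real.continuous_exp.continuousAt.comp
        (contAt hy.1 (hρ.smooth i e y ⟨he, hy.1⟩ (b2 y hy).1).continuousAt).neg)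
  have b5 := hμ e he _ b4 fun y hy => indicator_of_notMem (fun h => hy h.1) _
  rw [lintegral_indicator hO.measurableSet] at b5
  refine ⟨b1.mono (ball_subset_ball (half_le_self hr.le)), fun y hy => ?_⟩
  have b6 : ball y (r / 2) ⊆ ball z₀ r := ball_subset_ball' (by linarith [mem_ball.1 hy])
  refine mean (half_pos hr) hm (b1.mono b6) (fun z hz => (hb z (b6 hz)).2.1) (fun z hz => ?_) hC
    (b5 ▸ (lintegral_mono_set fun y hy => (b2 y hy).2).trans hI)
  obtain ⟨c0, c1, -⟩ := hb z (b6 hz)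
  have c2 : e.symm z ∈ e.source ∩ e ⁻¹' ball z₀ r :=
    ⟨e.map_target c1, by rw [mem_preimage, e.right_inv c1]; exact b6 hz⟩
  rw [indicator_of_mem c2, b3 _ c2, ← ENNReal.ofReal_mul (by positivity), mul_assoc]
  exact ENNReal.ofReal_le_ofReal (mul_le_mul_of_nonneg_left c0.le (by positivity))

end Lm

open Lm

theorem lim : LimStmt := by
  intro d X _ _ _ _ _ _ h μ hh hμ Ω hΩ hσ κ M ρ hρ G hG
  have hU : (hyperfilter ℕ : Filter ℕ) ≤ atTop := Nat.hyperfilter_le_atTop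
  obtain ⟨G₀, hG₀⟩ : ∃ G₀ : κ → X → ℂ,
    ∀ i x, G₀ i x = limUnder (hyperfilter ℕ) fun k => G k i x := ⟨_, fun _ _ => rfl⟩
  have hO : ∀ (e : Chart d X) i, IsOpen (e.target ∩ e.symm ⁻¹' (M.U i ∩ Ω)) := fun e i =>
    e.isOpen_inter_preimage_symm ((M.isOpen i).inter hΩ)
  have hm : ∀ (e : Chart d X) i x, At e x → x ∈ M.U i → x ∈ Ω →
      e x ∈ e.target ∩ e.symm ⁻¹' (M.U i ∩ Ω) := fun e i x hx hi h =>
    ⟨e.map_source hx.2, by rw [mem_preimage, e.left_inv hx.2]; exact ⟨hi, h⟩⟩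
  have key : ∀ e ∈ atlas (Cm d) X, ∀ i,
      DifferentiableOn ℂ (fun z => G₀ i (e.symm z)) (e.target ∩ e.symm ⁻¹' (M.U i ∩ Ω)) ∧
      TendstoLocallyUniformlyOn (fun k z => G k i (e.symm z)) (fun z => G₀ i (e.symm z))
        (hyperfilter ℕ) (e.target ∩ e.symm ⁻¹' (M.U i ∩ Ω)) := fun e he i => by
    obtain ⟨g, a1, a2, -⟩ := montel_full (hyperfilter ℕ) (hO e i) fun z hz => by
      obtain ⟨r, hr, C, hC⟩ := locBdd hh hμ hρ hG he i z hz
      exact ⟨r, hr, C, hC.filter_mono hU⟩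
    have a3 : EqOn g (fun z => G₀ i (e.symm z)) (e.target ∩ e.symm ⁻¹' (M.U i ∩ Ω)) :=
      fun z hz => ((hG₀ _ _).trans (a2.tendsto_at hz).limUnder_eq).symm
    exact ⟨a1.congr a3.symm, a2.congr_right a3⟩
  have hat : ∀ x : X, At (chartAt (Cm d) x) x := fun x =>
    ⟨chart_mem_atlas _ x, mem_chart_source _ x⟩
  have pt : ∀ i x, x ∈ M.U i → x ∈ Ω →
      Tendsto (fun k => G k i x) (hyperfilter ℕ) (𝓝 (G₀ i x)) := fun i x hi hx => by
    have := (key _ (hat x).1 i).2.tendsto_at (hm _ i x (hat x) hi hx)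
    simpa only [(chartAt (Cm d) x).left_inv (hat x).2] using this
  have hs : SecOn M Ω G₀ := by
    refine ⟨fun i e x hx hi h => P268.analyticAt_of_differentiableOn (hO e i) (key e hx.1 i).1
      (hm e i x hx hi h), fun i j x hi hj hx => ?_⟩
    obtain ⟨V, -, hV, C, -, hk⟩ := hG x hx
    refine tendsto_nhds_unique (pt i x hi hx) (((pt j x hj hx).const_mul _).congr' ?_)
    exact (hk.filter_mono hU).mono fun k hk => (hk.1.change i j x hi hj hV).symm
  have loc : ∀ ε > 0, ∀ K : Set X, IsCompact K → K ⊆ Ω → ∀ᶠ k in (hyperfilter ℕ : Filter ℕ),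
      ∀ y ∈ K, nrm M ρ (fun i y => G k i y - G₀ i y) y ≤ ε := fun ε hε K hK hKΩ => by
    refine hK.induction_on (p := fun K => ∀ᶠ k in (hyperfilter ℕ : Filter ℕ), ∀ y ∈ K,
      nrm M ρ (fun i y => G k i y - G₀ i y) y ≤ ε) (by simp) (fun s t hst ht => ht.mono fun k hk y hy => hk y (hst hy))
      (fun s t hs ht => (hs.and ht).mono fun k hk y hy => hy.elim (hk.1 y) (hk.2 y))
      fun x hxK => ?_
    have hx := hKΩ hxK
    obtain ⟨i, hi⟩ := M.cover x
    obtain ⟨V, hV, hxV, C, -, hk⟩ := hG x hx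
    obtain ⟨e, he⟩ : ∃ e, At e x := ⟨_, hat x⟩
    obtain ⟨B, hB⟩ := exists_gt (Real.exp (-ρ i x))
    have hB0 : 0 < B := (Real.exp_pos _).trans hB
    obtain ⟨t, ht, a1⟩ := Metric.tendstoLocallyUniformlyOn_iff.1 (key e he.1 i).2 (√(ε / B))
      (by positivity) _ (hm e i x he hi hx)
    rw [(hO e i).nhdsWithin_eq (hm e i x he hi hx)] at ht
    have a2 : ∀ᶠ y in 𝓝 x, e y ∈ t ∧ y ∈ e.source ∧ y ∈ M.U i ∧ y ∈ V ∧ y ∈ Ω ∧
        Real.exp (-ρ i y) < B := by
      filter_upwards [e.continuousAt he.2 ht, e.open_source.mem_nhds he.2,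
        (M.isOpen i).mem_nhds hi, hV.mem_nhds hxV, hΩ.mem_nhds hx,
        (Real.continuous_exp.continuousAt.comp (contAt he.2
          (hρ.smooth i e x he hi).continuousAt).neg).eventually (gt_mem_nhds hB)]
        with y b1 b2 b3 b4 b5 b6 using ⟨b1, b2, b3, b4, b5, b6⟩
    refine ⟨_, mem_nhdsWithin_of_mem_nhds a2, ?_⟩
    filter_upwards [a1, hk.filter_mono hU] with k c1 c2 y ⟨b1, b2, b3, b4, b5, b6⟩
    have c3 := c1 _ b1
    simp only [e.left_inv b2, dist_comm (G₀ i y), dist_eq_norm] at c3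
    rw [nrm_eq hρ (fun a b ha hb => by
      simp only [c2.1.change a b y ha hb b4, hs.change a b y ha hb b5, mul_sub]) b3]
    have c4 := pow_le_pow_left₀ (norm_nonneg _) c3.le 2
    rw [Real.sq_sqrt (by positivity)] at c4
    exact (mul_le_mul c4 b6.le (Real.exp_pos _).le (by positivity)).trans
      (div_mul_cancel₀ ε hB0.ne').le
  have := ChartedSpace.locallyCompactSpace (Cm d) X
  have := hΩ.locallyCompactSpace
  have := isSigmaCompact_iff_sigmaCompactSpace.1 hσ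
  let E := CompactExhaustion.choice Ω
  obtain ⟨n, hn, a1⟩ := extraction_forall_of_frequently fun m : ℕ =>
    (loc (1 / ((m : ℝ) + 1)) (by positivity) _ ((E.isCompact m).image continuous_subtype_val)
      (Subtype.coe_image_subset _ _)).frequently.filter_mono hU
  refine ⟨G₀, hs, n, hn, fun K hK hKΩ ε hε => ?_⟩
  obtain ⟨N, hN⟩ := E.exists_superset_of_isCompact
    (Topology.IsInducing.subtypeVal.isCompact_preimage' hK (by simpa using hKΩ))
  filter_upwards [eventually_ge_atTop N,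
    tendsto_one_div_add_atTop_nhds_zero_nat.eventually (ge_mem_nhds hε)] with k b1 b2 x hx
  exact (a1 k x ⟨⟨x, hKΩ hx⟩, E.subset b1 (hN hx), rfl⟩).trans b2

end Vale.Agent.P277Z.Van
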