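import Vale.Agent.P277Z.Van.Core
import Vale.Agent.P277Z.Van.Lim

/-!
# P277Z, block VAN: the `L²` estimate on weakly pseudoconvex open sets
-/

open scoped Manifold ContDiff ComplexOrder Topology ENNReal Matrix ComplexConjugate
open MeasureTheory Filter Set

set_option linter.unusedSectionVars false

noncomputable section

namespace Vale.Agent.P277Z.Van

open Vale.Agent.P272.K Vale.Agent.P301.H599 Vale.Agent.P285Z Vale.Agent.P285Z.Ch
open Vale.Agent.P301.H98 (IsSection nrm)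

variable {d : ℕ} {X : Type} [TopologicalSpace X] [ChartedSpace (Cm d) X] {κ : Type} {Ω : Set X}
  [IsManifold 𝓘(ℂ, Cm d) ω X] [T2Space X] [MeasurableSpace X] [BorelSpace X] {μ : Measure X}
  {h : Fm d X} {M : LineBundle d X κ} {ρ : κ → X → ℝ} {Ψ : X → ℝ} {s : κ → X → ℂ}

theorem IsVol.locFin (hμ : IsVol h μ) (hh : IsHermitian h) : IsLocallyFiniteMeasure μ := by
  refine ⟨fun x => ?_⟩
  have hx := atChart (d := d) x
  set e := chartAt (Cm d) x
  have c : ContinuousAt (fun z => (h e z).det.re) (e x) := Complex.continuous_re.continuousAt.comp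
    (INT.contDiffAt_det (k := ∞) (hh.smooth e x hx)).continuousAt
  obtain ⟨r, hr, hb⟩ := Metric.eventually_nhds_iff_ball.1
    (c.eventually (gt_mem_nhds (lt_add_one _)))
  have hO := e.isOpen_inter_preimage (Metric.isOpen_ball (x := e x) (ε := r))
  refine ⟨_, hO.mem_nhds ⟨hx.2, Metric.mem_ball_self hr⟩, ?_⟩
  rw [← lintegral_indicator_one hO.measurableSet, hμ e hx.1 _
    (measurable_one.indicator hO.measurableSet) fun y hy => indicator_of_notMem (fun h => hy h.1) _,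
    ← lintegral_indicator e.open_target.measurableSet]
  refine lt_of_le_of_lt (lintegral_mono (g := (Metric.ball (e x) r).indicator fun _ =>
    ENNReal.ofReal ((h e (e x)).det.re + 1)) fun z => ?_) ?_
  · refine indicator_apply_le' (fun hz => ?_) fun _ => zero_le
    by_cases h1 : z ∈ Metric.ball (e x) r
    · rw [indicator_of_mem h1]
      refine (mul_le_mul' (indicator_le_self _ _ _) (ENNReal.ofReal_le_ofReal (hb z h1).le)).trans ?_
      rw [Pi.one_apply, one_mul]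
    · rw [indicator_of_notMem (s := e.source ∩ _) fun h2 => h1 (by
        have := h2.2
        rwa [mem_preimage, e.right_inv hz] at this), zero_mul]
      exact zero_le
  · rw [lintegral_indicator measurableSet_ball, setLIntegral_const]
    exact ENNReal.mul_lt_top ENNReal.ofReal_lt_top measure_ball_lt_top

/-- the integral of a continuous function over a relatively compact set -/
theorem lint_cpt (hμ : IsVol h μ) (hh : IsHermitian h) {K V : Set X} (hK : IsCompact K)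
    (hV : MeasurableSet V) (hVK : V ⊆ K) {f : X → ℝ} (hf : ContinuousOn f K) :
    ∫⁻ x in V, ENNReal.ofReal (f x) ∂μ ≠ ⊤ := by
  have := hμ.locFin hh
  obtain ⟨C, hC⟩ := hK.bddAbove_image hf
  refine ne_top_of_le_ne_top ?_ (setLIntegral_mono' (g := fun _ => ENNReal.ofReal C) hV
    fun x hx => ENNReal.ofReal_le_ofReal (hC ⟨x, hVK hx, rfl⟩))
  rw [setLIntegral_const]
  exact ENNReal.mul_ne_top ENNReal.ofReal_ne_top
    ((measure_mono hVK).trans_lt hK.measure_lt_top).ne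

/-- passage to the limit in the `L²` estimates -/
theorem limit (hh : IsHermitian h) (hμ : IsVol h μ) (hO : IsOpen Ω) (hσ : IsSigmaCompact Ω)
    (hρ : IsMetric M ρ) (hs : ScOn M Ω s) {V : ℕ → Set X} (hV : ∀ k, IsOpen (V k))
    (hVΩ : ∀ k, V k ⊆ Ω) (ex : ∀ x ∈ Ω, ∃ U ∈ 𝓝 x, ∀ᶠ k in atTop, U ⊆ V k)
    {W : ℕ → X → ℝ≥0∞} {W₀ : X → ℝ≥0∞} (hW : ∀ k, AEMeasurable (W k) (μ.restrict (V k)))
    (lm : ∀ x ∈ Ω, Tendsto (fun k => W k x) atTop (𝓝 (W₀ x)))
    (low : ∀ x ∈ Ω, ∃ U ∈ 𝓝 x, ∃ m : ℝ, 0 < m ∧ ∀ k, ∀ y ∈ U, ENNReal.ofReal m ≤ W k y)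
    {R : ℝ≥0∞} (hR : R ≠ ⊤) (H : ∀ k, ∃ G, SecOn M (V k) G ∧
      ∫⁻ x in V k, ENNReal.ofReal (nrm M ρ (fun i y => G i y - s i y) x) * W k x ∂μ ≤ R) :
    ∃ G, SecOn M Ω G ∧
      ∫⁻ x in Ω, ENNReal.ofReal (nrm M ρ (fun i y => G i y - s i y) x) * W₀ x ∂μ ≤ R := by
  have := ChartedSpace.locallyCompactSpace (Cm d) X
  choose G hG hle using H
  obtain ⟨G₀, hG₀, n, hn, hlim⟩ := lim d X h μ hh hμ Ω hO hσ κ M ρ hρ G fun x hx => by
    obtain ⟨U, hU, h1⟩ := ex x hx
    obtain ⟨U', hU', m, hm, h2⟩ := low x hx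
    obtain ⟨K, hK, hKs, hKc⟩ := local_compact_nhds (inter_mem (hO.mem_nhds hx) (inter_mem hU hU'))
    have f1 := lint_cpt hμ hh hKc isOpen_interior.measurableSet interior_subset
      (f := fun y => 2 * nrm M ρ s y)
      (continuousOn_const.mul ((hs.smOn hρ hO).cont.mono fun _ h => (hKs h).1))
    have m0 : ENNReal.ofReal m ≠ 0 := (ENNReal.ofReal_pos.2 hm).ne'
    have m1 : 2 * (ENNReal.ofReal m)⁻¹ ≠ ⊤ :=
      ENNReal.mul_ne_top ENNReal.ofNat_ne_top (ENNReal.inv_ne_top.2 m0)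
    refine ⟨interior K, isOpen_interior, mem_interior_iff_mem_nhds.2 hK, _,
      ENNReal.add_ne_top.2 ⟨f1, ENNReal.mul_ne_top m1 hR⟩, h1.mono fun k hk => ?_⟩
    have hsub : interior K ⊆ V k := fun y hy => hk (hKs (interior_subset hy)).2.1
    refine ⟨(hG k).res hsub, le_trans (setLIntegral_mono' (g := fun y =>
      ENNReal.ofReal (2 * nrm M ρ s y) + 2 * (ENNReal.ofReal m)⁻¹ *
        (ENNReal.ofReal (nrm M ρ (fun i y => G k i y - s i y) y) * W k y))
      isOpen_interior.measurableSet fun y hy => ?_) ?_⟩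
    · have e1 := nrm_add_le M ρ (fun i y => G k i y - s i y) s y
      simp only [sub_add_cancel] at e1
      refine (ENNReal.ofReal_le_ofReal e1).trans (ENNReal.ofReal_add_le.trans ?_)
      rw [add_comm, ENNReal.ofReal_mul zero_le_two (q := nrm M ρ (fun i y => G k i y - s i y) y),
        ENNReal.ofReal_ofNat, mul_assoc]
      gcongr
      rw [mul_left_comm]
      refine le_mul_of_one_le_right' ?_
      rw [← ENNReal.inv_mul_cancel m0 ENNReal.ofReal_ne_top]
      gcongr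
      exact h2 k y (hKs (interior_subset hy)).2.2
    · have c : ContinuousOn (fun y => 2 * nrm M ρ s y) (interior K) := continuousOn_const.mul
        ((hs.smOn hρ hO).cont.mono fun _ h => (hKs (interior_subset h)).1)
      rw [lintegral_add_left' (c.aemeasurable isOpen_interior.measurableSet).ennreal_ofReal,
        lintegral_const_mul' _ _ m1]
      gcongr
      exact (lintegral_mono_set hsub).trans (hle k)
  refine ⟨G₀, hG₀, ?_⟩
  have hr : ∀ k, (μ.restrict Ω).restrict (V k) = μ.restrict (V k) := fun k => by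
    rw [Measure.restrict_restrict (hV k).measurableSet, inter_eq_left.2 (hVΩ k)]
  refine le_trans (setLIntegral_mono' hO.measurableSet fun x hx => ?_) ((lintegral_liminf_le'
    (u := atTop) (f := fun k => (V (n k)).indicator fun x =>
      ENNReal.ofReal (nrm M ρ (fun i y => G (n k) i y - s i y) x) * W (n k) x) fun k => ?_).trans
    (liminf_le_of_frequently_le' (Frequently.of_forall fun k => ?_)))
  · by_cases h0 : ENNReal.ofReal (nrm M ρ (fun i y => G₀ i y - s i y) x) = 0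
    · rw [h0, zero_mul]
      exact zero_le
    have t1 : Tendsto (fun k => G (n k) (M.cover x).choose x) atTop
        (𝓝 (G₀ (M.cover x).choose x)) := by
      refine Metric.tendsto_nhds.2 fun ε hε => ?_
      have p := Real.exp_pos (-ρ (M.cover x).choose x)
      filter_upwards [hlim {x} isCompact_singleton (singleton_subset_iff.2 hx)
        ((ε / 2) ^ 2 * Real.exp (-ρ (M.cover x).choose x)) (by positivity)] with k hk
      have h1 := le_of_mul_le_mul_right (hk x rfl) p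
      rw [dist_eq_norm]
      exact (le_of_sq_le_sq h1 (by positivity)).trans_lt (half_lt_self hε)
    have t2 : Tendsto (fun k => ENNReal.ofReal (nrm M ρ (fun i y => G (n k) i y - s i y) x)) atTop
        (𝓝 (ENNReal.ofReal (nrm M ρ (fun i y => G₀ i y - s i y) x))) :=
      ENNReal.tendsto_ofReal (((t1.sub_const _).norm.pow 2).mul_const _)
    refine ((ENNReal.Tendsto.mul t2 (Or.inl h0) ((lm x hx).comp hn.tendsto_atTop)
      (Or.inr ENNReal.ofReal_ne_top)).congr' ?_).liminf_eq.ge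
    obtain ⟨U, hU, h1⟩ := ex x hx
    filter_upwards [hn.tendsto_atTop.eventually h1] with k hk
    rw [indicator_of_mem (hk (mem_of_mem_nhds hU))]
    rfl
  · rw [aemeasurable_indicator_iff (hV _).measurableSet, hr]
    exact ((((hG _).toSc.sub' (hs.res (hVΩ _))).smOn hρ (hV _)).cont.aemeasurable
      (hV _).measurableSet).ennreal_ofReal.mul (hW _)
  · rw [lintegral_indicator (hV _).measurableSet, hr]
    exact hle _

/-- the estimate for square integrable sections -/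
theorem horm0 (hh : IsHermitian h) (hμ : IsVol h μ) (hΩ : WK d Ω) (hρ : IsMetric M ρ)
    (hΨ : SmOn (d := d) Ω Ψ)
    (hP : PSDOn Ω fun e z => curvature M ρ e z - kc h e z + ddc Ψ e z) (hs : ScOn M Ω s)
    (h2 : ∫⁻ x in Ω, ENNReal.ofReal (nrm M ρ s x * Real.exp (-Ψ x)) ∂μ ≠ ⊤) {a : X → ℝ}
    (ha : ∀ x ∈ Ω, 0 ≤ a x)
    (hd : DbarOn Ω M ρ s a fun e z => curvature M ρ e z - kc h e z + ddc Ψ e z)
    (h3 : ∫⁻ x in Ω, ENNReal.ofReal (a x * Real.exp (-Ψ x)) ∂μ ≠ ⊤) :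
    ∃ G : κ → X → ℂ, SecOn M Ω G ∧
      ∫⁻ x in Ω, ENNReal.ofReal (nrm M ρ (fun i y => G i y - s i y) x * Real.exp (-Ψ x)) ∂μ ≤
        ∫⁻ x in Ω, ENNReal.ofReal (a x * Real.exp (-Ψ x)) ∂μ := by
  obtain ⟨⟨ψ, H⟩, w, hw⟩ := hΩ
  rcases Ω.eq_empty_or_nonempty with rfl | ⟨x₀, hx₀⟩
  · exact ⟨_, sec_zero M ∅, by simp⟩
  rcases d with _ | d
  · refine ⟨s, ⟨fun i e x _ _ _ => ?_, hs.change⟩, by simp [nrm]⟩
    rw [show (fun z => s i (e.symm z)) = fun _ => s i (e.symm (e x)) from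
      funext fun z => by rw [Subsingleton.elim z (e x)]]
    exact analyticAt_const
  have ex : ∀ x ∈ Ω, ContDiffAt ℝ ∞ Real.exp (ψ x) := fun _ _ => Real.contDiff_exp.contDiffAt
  have e1 : ∀ (e : Chart (d + 1) X) x, At e x → x ∈ Ω → ddc (fun y => Real.exp (ψ y)) e (e x) =
      (Real.exp (ψ x) : ℂ) • ddc ψ e (e x) + (Real.exp (ψ x) : ℂ) • gmX ψ e (e x) :=
    fun e x hx hm => ddc_chain H.sm hx hm (Eventually.of_forall Real.hasDerivAt_exp)
      (Real.hasDerivAt_exp _)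
  let D : Ka.Dt Ω h (fun e z => w e z + ddc (fun y => Real.exp (ψ y)) e z) μ M ρ Ψ :=
    ⟨H.isOpen, ⟨x₀, hx₀⟩, hh, hμ, hw.add_ddc (H.sm.comp ex) fun e x hx hm => by
      rw [e1 e x hx hm]
      exact (P285Z.psd_smul (H.psh e x hx hm) (Real.exp_pos _).le).add
        (P285Z.psd_smul (gm_on H.sm e x hx hm) (Real.exp_pos _).le), hρ, hΨ⟩
  refine (Ka.cut D (η := fun x => 2 * Real.exp (ψ x / 2))
    (H.sm.comp (f := fun t => 2 * Real.exp (t / 2)) fun _ _ => by fun_prop)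
    (fun _ _ => by positivity) (fun c => ?_) fun e x hx hm => ?_).elim fun χ =>
      core D χ hP hs h2 ha hd h3
  · refine (H.cpt c).of_isClosed_subset ?_ fun x hx => ⟨hx.1, ?_⟩
    · have h1 : {x | x ∈ Ω ∧ 2 * Real.exp (ψ x / 2) ≤ c} =
          {x | x ∈ Ω ∧ ψ x ≤ c} ∩ (fun x => 2 * Real.exp (ψ x / 2)) ⁻¹' Iic c := by
        ext x
        exact ⟨fun hx => ⟨⟨hx.1, by linarith [hx.2, Real.add_one_le_exp (ψ x / 2)]⟩, hx.2⟩,
          fun hx => ⟨hx.1.1, hx.2⟩⟩
      rw [h1]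
      exact ContinuousOn.preimage_isClosed_of_isClosed (continuousOn_const.mul
        ((H.sm.cont.mono fun _ h => h.1).div_const 2).rexp) (H.cpt c).isClosed isClosed_Iic
    · linarith [hx.2, Real.add_one_le_exp (ψ x / 2)]
  · have hd := (H.sm.two hx hm).differentiableAt (by norm_num)
    have h1 : HasDerivAt (fun t : ℝ => 2 * Real.exp (t / 2)) (Real.exp (ψ x / 2))
        (ψ (e.symm (e x))) := by
      rw [hx.left_inv]
      exact (((hasDerivAt_id (ψ x)).div_const 2).exp.const_mul 2).congr_deriv (by simp; ring)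
    have e2 : P284.H650.gg (fun y => 2 * Real.exp (ψ (e.symm y) / 2))
        (fun y => 2 * Real.exp (ψ (e.symm y) / 2)) (e x) =
        (Real.exp (ψ x) : ℂ) • gmX ψ e (e x) := by
      ext j k
      change dz j _ _ * dzb k _ _ = _ * (dz j _ _ * dzb k _ _)
      rw [C2.dz_comp_real j h1 hd, C2.dzb_comp_real k h1 hd, mul_mul_mul_comm,
        ← Complex.ofReal_mul, ← Real.exp_add, add_halves]
    beta_reduce
    rw [e2, e1 e x hx hm, ← add_assoc, add_sub_cancel_right]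
    exact (hw.posDef e x hx hm).posSemidef.add
      (P285Z.psd_smul (H.psh e x hx hm) (Real.exp_pos _).le)

theorem Exh.ex {ψ : X → ℝ} (H : Exh d Ω ψ) : ∀ x ∈ Ω, ∃ U ∈ 𝓝 x, ∀ᶠ k : ℕ in atTop,
    U ⊆ {x | x ∈ Ω ∧ ψ x < k} := fun x hx =>
  ⟨_, (H.open_lt (ψ x + 1)).mem_nhds ⟨hx, lt_add_one _⟩,
    (tendsto_natCast_atTop_atTop.eventually_ge_atTop (ψ x + 1)).mono fun _ hk _ hy =>
      ⟨hy.1, hy.2.trans_le hk⟩⟩

theorem low_cont {f : X → ℝ} {x : X} (hf : ContinuousAt f x) (h0 : 0 < f x) :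
    ∃ U ∈ 𝓝 x, ∃ m : ℝ, 0 < m ∧ ∀ y ∈ U, m ≤ f y :=
  ⟨_, hf.eventually (lt_mem_nhds (half_lt_self h0)), f x / 2, half_pos h0, fun _ hy => hy.le⟩

/-- **(HORM)** -/
theorem horm : HormStmt := by
  intro d X _ _ _ _ _ _ h μ hh hμ Ω ⟨⟨ψ, H⟩, w, hw⟩ κ M ρ hρ Ψ hΨ hP s hs a _ ha hd
  by_cases h3 : ∫⁻ x in Ω, ENNReal.ofReal (a x * Real.exp (-Ψ x)) ∂μ = ⊤
  · exact ⟨_, sec_zero M Ω, h3 ▸ le_top⟩
  have c1 : ContinuousOn (fun x => Real.exp (-Ψ x)) Ω := hΨ.cont.neg.rexp
  simp only [fun s x => ENNReal.ofReal_mul (q := Real.exp (-Ψ x)) (nrm_nonneg' M ρ s x)]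
  refine limit hh hμ H.isOpen H.sigma hρ hs (fun k : ℕ => H.open_lt k) (fun _ _ h => h.1) H.ex
    (W := fun _ x => ENNReal.ofReal (Real.exp (-Ψ x)))
    (fun k => ((c1.mono fun _ h => h.1).aemeasurable (H.open_lt k).measurableSet).ennreal_ofReal)
    (fun _ _ => tendsto_const_nhds) (fun x hx => ?_) h3 fun k => ?_
  · obtain ⟨U, hU, m, hm, h⟩ := low_cont (hΨ.contAt hx).neg.rexp (Real.exp_pos _)
    exact ⟨U, hU, m, hm, fun _ y hy => ENNReal.ofReal_le_ofReal (h y hy)⟩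
  · have sb : {x | x ∈ Ω ∧ ψ x < k} ⊆ Ω := fun _ h => h.1
    have h4 := lintegral_mono_set (μ := μ)
      (f := fun x => ENNReal.ofReal (a x * Real.exp (-Ψ x))) sb
    obtain ⟨G, hG, h5⟩ := horm0 hh hμ (WK.sub H hw k) hρ (hΨ.mono sb) (hP.mono sb) (hs.res sb)
      (lint_cpt hμ hh (H.cpt k) (H.open_lt k).measurableSet (fun _ h => ⟨h.1, h.2.le⟩)
        (((hs.smOn hρ H.isOpen).cont.mul c1).mono fun _ h => h.1))
      (fun x hx => ha x hx.1) (hd.mono sb) (ne_top_of_le_ne_top h3 h4)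
    simp only [fun s x => ENNReal.ofReal_mul (q := Real.exp (-Ψ x)) (nrm_nonneg' M ρ s x)] at h5
    exact ⟨G, hG, h5.trans h4⟩

end Vale.Agent.P277Z.Van
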