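import Vale.Agent.P277Z.Van.Defs
import Vale.Agent.P284.H286.K.Meas
import Vale.Agent.P299.H167.VolChart
import Vale.Agent.P272.K.Inv.Chart

/-!
# P277Z, block VAN: Hermitian metrics, volume measures and metrics on line bundles exist
-/

open scoped Manifold ContDiff ComplexOrder Topology ENNReal Matrix
open MeasureTheory Filter Set

set_option linter.unusedSectionVars false

noncomputable section

namespace Vale.Agent.P277Z.Van

open Vale.Agent.P272.K Vale.Agent.P301.H599 Vale.Agent.P285Z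

variable {d : ℕ} {X : Type} [TopologicalSpace X] [ChartedSpace (Cm d) X]
  [IsManifold 𝓘(ℂ, Cm d) ω X] [T2Space X]

/-- a locally finite smooth partition of unity subordinate to an open cover -/
theorem exists_pou [SigmaCompactSpace X] {ι : Type} (U : ι → Set X) (hU : ∀ i, IsOpen (U i))
    (hc : ∀ x, ∃ i, x ∈ U i) :
    ∃ χ : ι → X → ℝ, (∀ a, Smooth (d := d) (χ a)) ∧ (∀ a, tsupport (χ a) ⊆ U a) ∧
      (∀ a x, 0 ≤ χ a x) ∧ (LocallyFinite fun a => Function.support (χ a)) ∧
      ∀ x, ∑ᶠ a, χ a x = 1 := by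
  have := INT.isManifold_real d X
  obtain ⟨f, hf⟩ := SmoothPartitionOfUnity.exists_isSubordinate 𝓘(ℝ, Cm d) (s := (univ : Set X))
    isClosed_univ U hU (fun x _ => mem_iUnion.2 (hc x))
  exact ⟨fun a x => f a x, fun a => INT.smoothFn_of_contMDiff (f a).contMDiff, hf,
    fun a x => f.nonneg a x, f.locallyFinite, fun x => f.sum_eq_one (mem_univ x)⟩

/-- near a point a locally finite sum is a finite sum -/
theorem finsum_loc {ι : Type} {χ : ι → X → ℝ}
    (hl : LocallyFinite fun a => Function.support (χ a)) (x : X) :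
    ∃ t : Finset ι, ∀ᶠ y in 𝓝 x, ∀ a, a ∉ t → χ a y = 0 := by
  obtain ⟨V, hV, hfin⟩ := hl x
  refine ⟨hfin.toFinset, ?_⟩
  filter_upwards [hV] with y hy a ha
  by_contra h
  exact ha (hfin.mem_toFinset.2 ⟨y, h, hy⟩)

/-- a patched function is smooth in the charts -/
theorem contDiffAt_patch {E : Type} [NormedAddCommGroup E] [NormedSpace ℝ E] {ι : Type}
    {U : ι → Set X} {χ : ι → X → ℝ} (hχ : ∀ a, Smooth (d := d) (χ a))
    (hs : ∀ a, tsupport (χ a) ⊆ U a) (hl : LocallyFinite fun a => Function.support (χ a))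
    {e : Chart d X} {x : X} (hx : At e x) {F : ι → Cm d → E}
    (hF : ∀ a, x ∈ U a → ContDiffAt ℝ ∞ (F a) (e x)) :
    ContDiffAt ℝ ∞ (fun z => ∑ᶠ a, χ a (e.symm z) • F a z) (e x) := by
  have hc : Tendsto e.symm (𝓝 (e x)) (𝓝 x) := by
    have h4 := (e.continuousAt_symm (e.map_source hx.2)).tendsto
    rwa [e.left_inv hx.2] at h4
  obtain ⟨t, ht⟩ := finsum_loc hl x
  have h1 : ContDiffAt ℝ ∞ (fun z => ∑ a ∈ t, χ a (e.symm z) • F a z) (e x) := by
    refine ContDiffAt.sum fun a _ => ?_
    by_cases hxa : x ∈ U a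
    · exact (hχ a e x hx).smul (hF a hxa)
    · have hn : x ∉ tsupport (χ a) := fun h => hxa (hs a h)
      have h2 : ∀ᶠ y in 𝓝 x, χ a y = 0 := by
        filter_upwards [(isClosed_tsupport (χ a)).isOpen_compl.mem_nhds hn] with y hy
        exact image_eq_zero_of_notMem_tsupport hy
      refine contDiffAt_const (c := (0 : E)) |>.congr_of_eventuallyEq ?_
      filter_upwards [hc.eventually h2] with z hz
      rw [hz, zero_smul]
  refine h1.congr_of_eventuallyEq ?_
  filter_upwards [hc.eventually ht] with z hz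
  refine finsum_eq_sum_of_support_subset _ fun a ha => ?_
  by_contra h
  exact ha (by show χ a (e.symm z) • F a z = 0; rw [hz a h, zero_smul])

/-- existence of a smooth metric on a line bundle -/
theorem exists_isMetric [SigmaCompactSpace X] {κ : Type} (L : LineBundle d X κ) :
    ∃ ρ : κ → X → ℝ, IsMetric L ρ := by
  obtain ⟨χ, hχ, hs, -, hl, h1⟩ := exists_pou (d := d) L.U L.isOpen L.cover
  refine ⟨fun i x => ∑ᶠ a, χ a x • Real.log (‖L.g i a x‖ ^ 2), ?_, ?_⟩
  · intro i e x hx hi
    refine contDiffAt_patch hχ hs hl hx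
      (F := fun a z => Real.log (‖L.g i a (e.symm z)‖ ^ 2)) fun a hxa => ?_
    have g1 : AnalyticAt ℂ (fun z => L.g i a (e.symm z)) (e x) := L.holo i a e x hx hi hxa
    have g2 : ContDiffAt ℝ ∞ (fun z => L.g i a (e.symm z)) (e x) :=
      (g1.contDiffAt (n := ∞)).restrict_scalars ℝ
    have g3 : L.g i a (e.symm (e x)) ≠ 0 := by
      rw [e.left_inv hx.2]; exact L.ne_zero i a x hi hxa
    have g4 : ContDiffAt ℝ ∞ (fun z => ‖L.g i a (e.symm z)‖ ^ 2) (e x) := (g2.norm ℝ g3).pow 2
    exact g4.log (pow_ne_zero 2 (norm_ne_zero_iff.2 g3))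
  · intro i j x hi hj
    obtain ⟨t, ht⟩ := finsum_loc hl x
    have ht' := ht.self_of_nhds
    have hf : ∀ G : κ → ℝ, ∑ᶠ a, χ a x • G a = ∑ a ∈ t, χ a x • G a := fun G =>
      finsum_eq_sum_of_support_subset _ fun a ha => by
        by_contra h
        exact ha (by show χ a x • G a = 0; rw [ht' a h, zero_smul])
    have h2 : ∑ a ∈ t, χ a x = 1 := by
      have := hf fun _ => 1
      simp only [smul_eq_mul, mul_one] at this
      rw [← this, h1 x]
    have key : ∀ a, χ a x • Real.log (‖L.g i a x‖ ^ 2) =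
        χ a x • Real.log (‖L.g j a x‖ ^ 2) + χ a x * Real.log (‖L.g i j x‖ ^ 2) := by
      intro a
      by_cases hz : χ a x = 0
      · rw [hz]; simp
      · have hxa : x ∈ L.U a := hs a (subset_tsupport _ hz)
        rw [smul_eq_mul, smul_eq_mul, ← mul_add, ← L.cocycle i j a x hi hj hxa, norm_mul, mul_pow,
          Real.log_mul, add_comm]
        · exact pow_ne_zero 2 (norm_ne_zero_iff.2 (L.ne_zero i j x hi hj))
        · exact pow_ne_zero 2 (norm_ne_zero_iff.2 (L.ne_zero j a x hj hxa))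
    show ∑ᶠ a, χ a x • Real.log (‖L.g i a x‖ ^ 2) = ∑ᶠ a, χ a x • Real.log (‖L.g j a x‖ ^ 2) + _
    rw [hf, hf]
    simp only [key, Finset.sum_add_distrib, ← Finset.sum_mul]
    rw [h2, one_mul]

theorem posDef_gram {J : Matrix (Fin d) (Fin d) ℂ} (hJ : J.det ≠ 0) :
    (J.transpose * J.map (starRingEnd ℂ)).PosDef := by
  have h1 : J.transpose = (J.map (starRingEnd ℂ))ᴴ := by
    ext i j; simp [Matrix.conjTranspose_apply]
  have h2 : (J.map (starRingEnd ℂ)).det ≠ 0 := by
    rw [← RingHom.mapMatrix_apply, ← RingHom.map_det]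
    exact (map_ne_zero _).2 hJ
  rw [h1]
  exact Matrix.PosDef.conjTranspose_mul_self _
    (Matrix.mulVec_injective_iff_isUnit.2 ((Matrix.isUnit_iff_isUnit_det _).2
      (isUnit_iff_ne_zero.2 h2)))

/-- existence of a Hermitian metric -/
theorem exists_isHermitian [SigmaCompactSpace X] : ∃ h : Fm d X, IsHermitian h := by
  obtain ⟨χ, hχ, hs, h0, hl, h1⟩ := exists_pou (d := d) (fun a : X => (chartAt (Cm d) a).source)
    (fun a => (chartAt (Cm d) a).open_source) fun x => ⟨x, mem_chart_source _ x⟩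
  have hat : ∀ a x : X, x ∈ (chartAt (Cm d) a).source → At (chartAt (Cm d) a) x := fun a x hx =>
    ⟨chart_mem_atlas _ a, hx⟩
  set Q : Chart d X → X → X → Matrix (Fin d) (Fin d) ℂ := fun e a x =>
    (jacM e (chartAt (Cm d) a) x).transpose * (jacM e (chartAt (Cm d) a) x).map (starRingEnd ℂ)
    with hQ
  have hfin : ∀ x : X, ∃ t : Finset X, (∀ a, a ∉ t → χ a x = 0) ∧ ∑ a ∈ t, χ a x = 1 ∧
      ∀ e : Chart d X, (Matrix.of fun i j => ∑ᶠ a, χ a x • Q e a x i j) =
        ∑ a ∈ t, (χ a x : ℂ) • Q e a x := by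
    intro x
    obtain ⟨t, ht⟩ := finsum_loc hl x
    have ht' := ht.self_of_nhds
    refine ⟨t, ht', ?_, fun e => ?_⟩
    · rw [← h1 x]
      refine (finsum_eq_sum_of_support_subset _ fun a ha => ?_).symm
      by_contra h
      exact ha (ht' a h)
    · ext i j
      rw [Matrix.of_apply, Matrix.sum_apply,
        finsum_eq_sum_of_support_subset (s := t) _ fun a ha => by
          by_contra h
          exact ha (by show χ a x • Q e a x i j = 0; rw [ht' a h, zero_smul])]
      exact Finset.sum_congr rfl fun a _ => by simp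
  refine ⟨fun e z => Matrix.of fun i j => ∑ᶠ a, χ a (e.symm z) • Q e a (e.symm z) i j, ?_, ?_, ?_⟩
  · intro e x hx i j
    refine contDiffAt_patch hχ hs hl hx (F := fun a z => Q e a (e.symm z) i j) fun a hxa => ?_
    have hj : ∀ p q, ContDiffAt ℝ ∞ (fun z => jacM e (chartAt (Cm d) a) (e.symm z) p q) (e x) :=
      fun p q => ((jacM_holo hx (hat a x hxa) p q).restrict_scalars ℝ).of_le le_top
    simp only [hQ, Matrix.mul_apply, Matrix.transpose_apply, Matrix.map_apply]
    exact ContDiffAt.sum fun p _ => (hj p i).mul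
      (Complex.conjCLE.contDiff.contDiffAt.comp (e x) (hj p j))
  · intro e x hx
    obtain ⟨t, ht, hs1, hsum⟩ := hfin x
    show (Matrix.of fun i j => ∑ᶠ a, χ a (e.symm (e x)) • Q e a (e.symm (e x)) i j).PosDef
    rw [hx.left_inv, hsum e]
    have hpos : ∀ a, χ a x ≠ 0 → ((χ a x : ℂ) • Q e a x).PosDef := fun a ha =>
      (posDef_gram (jacM_det_ne_zero hx (hat a x (hs a (subset_tsupport _ ha))))).smul
        (by exact_mod_cast lt_of_le_of_ne (h0 a x) (Ne.symm ha))
    have hsd : ∀ a, ((χ a x : ℂ) • Q e a x).PosSemidef := fun a => by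
      by_cases ha : χ a x = 0
      · rw [ha]; simpa using Matrix.PosSemidef.zero
      · exact (hpos a ha).posSemidef
    obtain ⟨a, hat', ha⟩ : ∃ a ∈ t, χ a x ≠ 0 := by
      by_contra h
      push Not at h
      rw [Finset.sum_eq_zero h] at hs1
      exact zero_ne_one hs1
    classical
    rw [← Finset.add_sum_erase t _ hat']
    exact (hpos a ha).add_posSemidef (Matrix.posSemidef_sum _ fun b _ => hsd b)
  · intro e e' x hx hx'
    obtain ⟨t, ht, hs1, hsum⟩ := hfin x
    show (Matrix.of fun i j => ∑ᶠ a, χ a (e.symm (e x)) • Q e a (e.symm (e x)) i j) =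
      _ * (Matrix.of fun i j => ∑ᶠ a, χ a (e'.symm (e' x)) • Q e' a (e'.symm (e' x)) i j) * _
    rw [hx.left_inv, hx'.left_inv, hsum e, hsum e', Matrix.mul_sum, Matrix.sum_mul]
    refine Finset.sum_congr rfl fun a _ => ?_
    by_cases ha : χ a x = 0
    · rw [ha]; simp
    · have hxa := hat a x (hs a (subset_tsupport _ ha))
      rw [Matrix.mul_smul, Matrix.smul_mul]
      congr 1
      simp only [hQ]
      rw [jacM_comp hx hx' hxa, Matrix.transpose_mul, Matrix.map_mul]
      simp only [Matrix.mul_assoc]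

/-- existence of the volume measure -/
theorem exists_isVol [SigmaCompactSpace X] [MeasurableSpace X] [BorelSpace X] {h : Fm d X}
    (hh : IsHermitian h) : ∃ μ : Measure X, IsVol h μ := by
  have hD := INT.isDensity_det hh.change hh.smooth
  obtain ⟨μ, hμ⟩ := Vale.Agent.P284.H286.K.measStmt d X {e : Chart d X // e ∈ atlas (Cm d) X}
    (fun e => e.1) (fun e z => (h e.1 z).det.re)
    (fun x => ⟨⟨_, chart_mem_atlas (Cm d) x⟩, mem_chart_source _ x⟩)
    (fun i j z hz hz' => by
      have := transition (At.of_target i.2 hz) (⟨j.2, hz'⟩ : At j.1 (i.1.symm z))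
      rw [i.1.right_inv hz] at this
      exact this.analyticAt)
    (fun i => hD.continuousOn i.2)
    (fun i z hz => by
      have := (Complex.lt_def.1 (hh.posDef i.1 _ (At.of_target i.2 hz)).det_pos).1
      rwa [i.1.right_inv hz] at this)
    (fun i j x hi hj => by
      rw [mul_comm]; exact hD.change i.1 j.1 x ⟨i.2, hi⟩ ⟨j.2, hj⟩)
  exact ⟨μ, fun e he => hμ ⟨e, he⟩⟩

theorem vol : VolStmt := fun _ _ _ _ _ _ _ _ _ =>
  ⟨exists_isHermitian, fun _ hh => exists_isVol hh, fun _ M => exists_isMetric M⟩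

theorem isVol_volX [CompactSpace X] [MeasurableSpace X] [BorelSpace X] {w : Fm d X}
    (hw : IsHermitian w) : IsVol w (AMP.volX w) := by
  intro e he f hf h0
  unfold AMP.volX
  rw [Vale.Agent.P299.H167.lintegral_volD (AMP.isDensity_det_metric hw)
    (fun e x hx => (AMP.det_metric_pos hw e x hx).le) he hf h0]
  exact lintegral_congr fun z => mul_comm _ _

end Vale.Agent.P277Z.Van
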