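import Vale.Agent.P277Z.Van.GG

/-!
# P277Z, block VAN: a section with a given jet at `x` which vanishes at `y`
-/

open scoped Manifold ContDiff ComplexOrder Topology ENNReal Matrix
open MeasureTheory Filter Set Metric Asymptotics

noncomputable section

namespace Vale.Agent.P277Z.Van

open Vale.Agent.P272.K Vale.Agent.P301.H599 Vale.Agent.P285Z
open Vale.Agent.P301.H862 (powL)

variable {d : ℕ} {X : Type} [TopologicalSpace X] [ChartedSpace (Cm d) X]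

theorem GG.littleO {e : Chart d X} {x : X} (hx : At e x) {f : X → ℂ} {n : ℕ}
    (h : f =O[𝓝 x] fun y => ‖e y - e x‖ ^ (n + 1)) :
    (fun z => f (e.symm z)) =o[𝓝 (e x)] fun z => ‖z - e x‖ ^ n := by
  have h1 : Tendsto e.symm (𝓝 (e x)) (𝓝 x) := by
    simpa only [ContinuousAt, hx.left_inv] using e.continuousAt_symm hx.mem_target
  have h2 : (fun z => f (e.symm z)) =O[𝓝 (e x)] fun z => ‖z - e x‖ ^ (n + 1) :=
    (h.comp_tendsto h1).congr' EventuallyEq.rfl (hx.nhds_target.mono fun z hz => by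
      simp only [Function.comp, e.right_inv hz])
  refine h2.trans_isLittleO ?_
  have h3 : Tendsto (fun z => ‖z - e x‖) (𝓝 (e x)) (𝓝 0) := tendsto_norm_sub_self (e x)
  exact (isLittleO_pow_pow (𝕜 := ℝ) n.lt_succ_self).comp_tendsto h3

theorem jet2 (hJ : JetStmt) [IsManifold 𝓘(ℂ, Cm d) ω X] [T2Space X] [MeasurableSpace X]
    [BorelSpace X] {h : Fm d X} {μ : Measure X} (hh : IsHermitian h) (hμ : IsVol h μ) {Ω : Set X}
    {ψ : X → ℝ} (H : Exh d Ω ψ) {η : Type} {A : LineBundle d X η} {σ : η → X → ℝ}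
    (hσ : IsMetric A σ) (hA : PDOn Ω (curvature A σ)) {κ : Type} {M : LineBundle d X κ}
    {ρ : κ → X → ℝ} (hρ : IsMetric M ρ) (c : ℝ) (n : ℕ) :
    ∃ k₀ : ℕ, ∀ k ≥ k₀, ∀ x ∈ Ω, ψ x < c → ∀ y ∈ Ω, ψ y < c → ∀ i, x ∈ (mulB M (powL A k)).U i →
      ∀ (a : X → ℂ) (e₀ : Chart d X), At e₀ x → AnalyticAt ℂ (fun z => a (e₀.symm z)) (e₀ x) →
      ∃ s, SecOn (mulB M (powL A k)) {x | x ∈ Ω ∧ ψ x < c} s ∧ (∀ e : Chart d X, At e x →
        (fun z => s i (e.symm z) - a (e.symm z)) =o[𝓝 (e x)] fun z => ‖z - e x‖ ^ n) ∧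
        (y ≠ x → ∀ j, y ∈ (mulB M (powL A k)).U j → s j y = 0) := by
  obtain ⟨k₁, hk₁⟩ := hJ d X h μ hh hμ Ω ψ H η A σ hσ hA κ M ρ hρ c 1 (n + 1)
  obtain ⟨k₂, hk₂⟩ := hJ d X h μ hh hμ Ω ψ H η A σ hσ hA κ M ρ hρ c 2 (n + 1)
  refine ⟨max k₁ k₂, fun k hk x hx hxc y hy hyc i hi a e₀ he₀ ha => ?_⟩
  obtain ⟨W, hW, hs, h1⟩ := GG.frame_sec hi he₀ ha
  have key : ∀ {F : κ × η → X → ℂ} {e : Chart d X}, At e x →
      ((fun z => F i z - (mulB M (powL A k)).g i i z * a z) =O[𝓝 x]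
        fun y => ‖e y - e x‖ ^ (n + 1)) →
      (fun z => F i (e.symm z) - a (e.symm z)) =o[𝓝 (e x)] fun z => ‖z - e x‖ ^ n :=
    fun {F} _ he hO => GG.littleO he (f := fun z => F i z - a z)
      (hO.congr' (mem_of_superset hW fun z hz => by simp [h1 z hz]) EventuallyEq.rfl)
  by_cases hyx : y = x
  · obtain ⟨F, hF, hO⟩ := hk₁ k (le_of_max_le_left hk) (fun _ => x) (fun _ => W) _
      (Function.injective_of_subsingleton _) fun _ => ⟨hx, hxc, hW, hs⟩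
    exact ⟨F, hF, fun e he => key he (hO 0 i e he hi), fun h2 => (h2 hyx).elim⟩
  · obtain ⟨F, hF, hO⟩ := hk₂ k (le_of_max_le_right hk) ![x, y] ![W, univ]
      ![fun p z => (mulB M (powL A k)).g p i z * a z, fun _ _ => 0]
      (injective_pair_iff_ne.2 (Ne.symm hyx)) (Fin.forall_fin_two.2
        ⟨⟨hx, hxc, hW, hs⟩, hy, hyc, univ_mem,
          ⟨fun _ _ _ _ _ _ => analyticAt_const, fun _ _ _ _ _ _ => (mul_zero _).symm⟩⟩)
    refine ⟨F, hF, fun e he => key he (hO 0 i e he hi), fun _ j hj => ?_⟩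
    simpa using (hO 1 j _ (atChart (d := d) y) hj).eq_zero_imp.self_of_nhds

end Vale.Agent.P277Z.Van
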