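import Vale.Agent.P277Z.Van.Defs

/-!
# P277Z, block VAN: a generic combination of sections is not zero near any point of a compact set
-/

open scoped Manifold ContDiff Topology
open Filter Set Metric

noncomputable section

namespace Vale.Agent.P277Z.Van

open Vale.Agent.P272.K Vale.Agent.P301.H599 Vale.Agent.P285Z
open Vale.Agent.P301.H98 (IsSection nrm)

namespace GenAux

variable {d : ℕ} {X : Type} [TopologicalSpace X] [ChartedSpace (Cm d) X] {κ : Type}
  {M : LineBundle d X κ} {ρ : κ → X → ℝ} {Ω : Set X}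

theorem nrm_ne_iff (s : κ → X → ℂ) (x : X) :
    nrm M ρ s x ≠ 0 ↔ s (M.cover x).choose x ≠ 0 := by
  unfold nrm
  simp [Real.exp_ne_zero]

theorem nrm_ne_iff' {s : κ → X → ℂ} (hs : SecOn M Ω s) {x : X} (hx : x ∈ Ω) {i : κ}
    (hi : x ∈ M.U i) : nrm M ρ s x ≠ 0 ↔ s i x ≠ 0 := by
  rw [nrm_ne_iff, hs.change i _ x hi (M.cover x).choose_spec hx]
  have := M.ne_zero i _ x hi (M.cover x).choose_spec
  simp [this]

theorem secOn_zero : SecOn M Ω fun _ _ => 0 :=
  ⟨fun _ _ _ _ _ _ => analyticAt_const, fun _ _ _ _ _ _ => by simp⟩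

theorem secOn_add_smul {r F : κ → X → ℂ} (hr : SecOn M Ω r) (hF : SecOn M Ω F) (t : ℂ) :
    SecOn M Ω fun i x => r i x + t * F i x :=
  ⟨fun i e x h1 h2 h3 => (hr.holo i e x h1 h2 h3).add
      (analyticAt_const.mul (hF.holo i e x h1 h2 h3)),
    fun i j x h1 h2 h3 => by rw [hr.change i j x h1 h2 h3, hF.change i j x h1 h2 h3]; ring⟩

/-- a section which does not vanish at finitely many given points -/
theorem exists_fin (T : Finset X) (h : ∀ y ∈ T, ∃ F, SecOn M Ω F ∧ nrm M ρ F y ≠ 0) :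
    ∃ r, SecOn M Ω r ∧ ∀ y ∈ T, nrm M ρ r y ≠ 0 := by
  classical
  induction T using Finset.induction_on with
  | empty => exact ⟨_, secOn_zero, by simp⟩
  | insert y T _ ih =>
    obtain ⟨r, hr, hrT⟩ := ih fun z hz => h z (Finset.mem_insert_of_mem hz)
    obtain ⟨F, hF, hFy⟩ := h y (Finset.mem_insert_self _ _)
    obtain ⟨t, ht⟩ := Infinite.exists_notMem_finset
      ((insert y T).image fun x => -r (M.cover x).choose x / F (M.cover x).choose x)
    refine ⟨_, secOn_add_smul hr hF t, fun x hx => ?_⟩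
    rw [nrm_ne_iff]
    intro h0
    have hFx : F (M.cover x).choose x ≠ 0 := by
      rcases Finset.mem_insert.1 hx with rfl | hx'
      · exact (nrm_ne_iff _ _).1 hFy
      · intro h1
        rw [h1, mul_zero, add_zero] at h0
        exact (nrm_ne_iff _ _).1 (hrT x hx') h0
    refine ht (Finset.mem_image.2 ⟨x, hx, ?_⟩)
    rw [div_eq_iff hFx]
    linear_combination -h0

/-- every point of `Ω` has a neighbourhood on which the identity theorem holds -/
theorem exists_nhds (hΩ : IsOpen Ω) {x : X} (hx : x ∈ Ω) : ∃ N ∈ 𝓝 x, ∀ r, SecOn M Ω r →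
    nrm M ρ r x ≠ 0 → ∀ y ∈ N, ∃ᶠ z in 𝓝 y, nrm M ρ r z ≠ 0 := by
  obtain ⟨i, hi⟩ := M.cover x
  set e := chartAt (Cm d) x with he
  have hea : e ∈ atlas (Cm d) X := chart_mem_atlas _ x
  have hxs : x ∈ e.source := mem_chart_source _ x
  have hO : IsOpen (e.target ∩ e.symm ⁻¹' (M.U i ∩ Ω)) :=
    e.isOpen_inter_preimage_symm ((M.isOpen i).inter hΩ)
  have hxO : e x ∈ e.target ∩ e.symm ⁻¹' (M.U i ∩ Ω) :=
    ⟨e.map_source hxs, by rw [mem_preimage, e.left_inv hxs]; exact ⟨hi, hx⟩⟩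
  obtain ⟨ε, hε, hb⟩ := Metric.isOpen_iff.1 hO _ hxO
  refine ⟨e.source ∩ e ⁻¹' ball (e x) ε,
    (e.isOpen_inter_preimage isOpen_ball).mem_nhds ⟨hxs, mem_ball_self hε⟩, ?_⟩
  rintro r hr hrx y ⟨hy1, hy2⟩ hy
  have han : AnalyticOnNhd ℂ (fun z => r i (e.symm z)) (ball (e x) ε) := by
    intro z hz
    obtain ⟨h1, h2, h3⟩ := hb hz
    have := hr.holo i e (e.symm z) ⟨hea, e.map_target h1⟩ h2 h3
    rwa [e.right_inv h1] at this
  have hy' : ∀ᶠ z in 𝓝 (e y), ¬ nrm M ρ r (e.symm z) ≠ 0 := by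
    have hc : ContinuousAt e.symm (e y) := e.continuousAt_symm (e.map_source hy1)
    have : Tendsto e.symm (𝓝 (e y)) (𝓝 y) := by
      have h := hc.tendsto
      rwa [e.left_inv hy1] at h
    exact this.eventually hy
  have hev : (fun z => r i (e.symm z)) =ᶠ[𝓝 (e y)] 0 := by
    filter_upwards [hy', isOpen_ball.mem_nhds hy2] with z h1 h2
    obtain ⟨_, h4, h5⟩ := hb h2
    by_contra h6
    exact h1 ((nrm_ne_iff' hr h5 h4).2 h6)
  have hzero := han.eqOn_zero_of_preconnected_of_eventuallyEq_zero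
    (convex_ball _ _).isPreconnected hy2 hev (mem_ball_self hε)
  simp only [e.left_inv hxs, Pi.zero_apply] at hzero
  exact (nrm_ne_iff' hr hx hi).1 hrx hzero

end GenAux

open GenAux in
theorem gen : GenStmt := by
  intro d X _ _ _ _ Ω K hΩ hK hKΩ κ M ρ _ h
  choose! N hN hN' using fun x (hx : x ∈ K) => exists_nhds (M := M) (ρ := ρ) hΩ (hKΩ hx)
  obtain ⟨T, hTK, hT⟩ := hK.elim_nhds_subcover N hN
  obtain ⟨r, hr, hrT⟩ := exists_fin T fun y hy => h y (hTK y hy)
  refine ⟨r, hr, fun x hx => ?_⟩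
  obtain ⟨y, hy, hxy⟩ := mem_iUnion₂.1 (hT hx)
  exact hN' y (hTK y hy) r hr (hrT y hy) x hxy

end Vale.Agent.P277Z.Van
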