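import Vale.Agent.P277Z.Van.Sk

/-!
# P277Z, block VAN: the multiplier ideal does not depend on the chart and the frames
-/

open scoped Manifold ContDiff ComplexOrder Topology ENNReal Matrix
open MeasureTheory Filter Set

noncomputable section

namespace Vale.Agent.P277Z.Van

open Vale.Agent.P272.K Vale.Agent.P301.H599 Vale.Agent.P285Z
open Vale.Agent.P301.H98 (IsSection nrm)

variable {d : ℕ} {X : Type} [TopologicalSpace X] [ChartedSpace (Cm d) X] {κ : Type} {m : ℕ}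
  {M : LineBundle d X κ} {ρ : κ → X → ℝ} {S : Fin m → Sys d X} {c : Fin m → ℝ} {W : Set X}
  {s s' : κ → X → ℂ} {x : X} {e : Chart d X} {i : κ} {k : ∀ j, (S j).ι}

/-- the norm in any frame -/
theorem ScOn.nrm_eq (hs : ScOn M W s) (hρ : IsMetric M ρ) (hx : x ∈ W) (hi : x ∈ M.U i) :
    nrm M ρ s x = ‖s i x‖ ^ 2 * Real.exp (-ρ i x) := by
  have h := nrm_eq_of_change (s := fun i => W.indicator (s i)) hρ (fun i j y hi hj => by
    by_cases hy : y ∈ W
    · simp only [indicator_of_mem hy, hs.change i j y hi hj hy]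
    · simp only [indicator_of_notMem hy, mul_zero]) hi
  rwa [nrm_congr (s' := s) fun _ _ => indicator_of_mem hx _, indicator_of_mem hx] at h

theorem contAt_of_chart {Y : Type} [TopologicalSpace Y] {f : X → Y} (hx : At e x)
    (h : ContinuousAt (fun z => f (e.symm z)) (e x)) : ContinuousAt f x :=
  (h.comp (f := e) (e.continuousAt hx.2)).congr
    (mem_of_superset (e.open_source.mem_nhds hx.2) fun _ hy => congrArg f (e.left_inv hy))

theorem ScOn.continuousOn_nrm (hs : ScOn M W s) (hρ : IsMetric M ρ) (hW : IsOpen W) :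
    ContinuousOn (nrm M ρ s) W := fun x hx => by
  obtain ⟨i, hi⟩ := M.cover x
  refine (((contAt_of_chart (atChart x) (hs.smooth i _ x (atChart x) hi hx).continuousAt).norm.pow
    2).mul (contAt_of_chart (atChart x)
      (hρ.smooth i _ x (atChart x) hi).continuousAt).neg.rexp).congr ?_ |>.continuousWithinAt
  filter_upwards [hW.mem_nhds hx, (M.isOpen i).mem_nhds hi] with y h1 h2
  exact (hs.nrm_eq hρ h1 h2).symm

theorem Fr.eventually (h : Fr M S e i k x) : ∀ᶠ y in 𝓝 x, Fr M S e i k y := by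
  filter_upwards [e.open_source.mem_nhds h.1.2, (M.isOpen i).mem_nhds h.2.1,
    eventually_all.2 fun j => ((S j).L.isOpen (k j)).mem_nhds (h.2.2 j)] with y h1 h2 h3
  exact ⟨⟨h.1.1, h1⟩, h2, h3⟩

theorem InJ.eventually (h : InJ M S c s x) : ∀ᶠ y in 𝓝 x, InJ M S c s y := by
  obtain ⟨e, i, k, h1, V, hV, h2⟩ := h
  filter_upwards [h1.eventually, (e.continuousAt h1.1.2).eventually (eventually_mem_nhds_iff.2 hV)]
    with y h3 h4
  exact ⟨e, i, k, h3, V, h4, h2⟩

theorem InJ'.ex (h : InJ' M S c s x) : InJ M S c s x := by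
  obtain ⟨i, hi⟩ := M.cover x
  choose k hk using fun j => (S j).L.cover x
  exact ⟨_, i, k, ⟨atChart x, hi, hk⟩, h _ i k ⟨atChart x, hi, hk⟩⟩

theorem sw_eq (h : ∀ j, x ∈ (S j).L.U (k j)) : sw S c x =
    (∏ j, ENNReal.ofReal (∑ a, ‖(S j).σ a (k j) x‖ ^ 2) ^ (-c j)) *
      ENNReal.ofReal (∏ j, Real.exp (-(S j).ρ (k j) x) ^ (-c j)) := by
  rw [ENNReal.ofReal_prod_of_nonneg fun _ _ => by positivity, ← Finset.prod_mul_distrib]
  refine Finset.prod_congr rfl fun j _ => ?_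
  rw [← ENNReal.ofReal_rpow_of_pos (Real.exp_pos _),
    ← ENNReal.mul_rpow_of_ne_top ENNReal.ofReal_ne_top ENNReal.ofReal_ne_top,
    ← ENNReal.ofReal_mul (by positivity), Finset.sum_mul]
  unfold Sys.N sumN
  rw [Finset.sum_congr rfl fun a _ => nrm_eq_of_change (S j).metric ((S j).sec a).change (h j)]

variable [MeasurableSpace X] [BorelSpace X] {ν : Measure X}

theorem measurable_sw (S : Fin m → Sys d X) (c : Fin m → ℝ) : Measurable (sw S c) := by
  unfold sw Sys.N sumN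
  exact Finset.measurable_prod _ fun j _ => (Finset.measurable_sum _ fun a _ => (continuous_nrm
    (S j).metric (isSc_of_section ((S j).sec a))).measurable).ennreal_ofReal.pow_const _

theorem LocL2.congr (h : LocL2 ν M ρ s x) (h' : ∀ᶠ y in 𝓝 x, ∀ i, y ∈ M.U i → s i y = s' i y) :
    LocL2 ν M ρ s' x := by
  obtain ⟨V, hV, h1⟩ := h
  obtain ⟨O, h2, h3, h4⟩ := eventually_nhds_iff.1 (h'.and hV)
  refine ⟨O, h3.mem_nhds h4, ne_top_of_le_ne_top h1 (le_trans (setLIntegral_mono'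
    h3.measurableSet fun y hy => ?_) (lintegral_mono_set fun y hy => (h2 y hy).2))⟩
  rw [nrm_congr (h2 y hy).1]

theorem LocL2.add (hs : ScOn M W s) (hρ : IsMetric M ρ) (hW : IsOpen W) (hx : x ∈ W)
    (h : LocL2 ν M ρ s x) (h' : LocL2 ν M ρ s' x) :
    LocL2 ν M ρ (fun i y => s i y + s' i y) x := by
  obtain ⟨V, hV, h1⟩ := h
  obtain ⟨V', hV', h2⟩ := h'
  obtain ⟨O, h3, h4, h5⟩ := mem_nhds_iff.1 (inter_mem (hW.mem_nhds hx) (inter_mem hV hV'))
  refine ⟨O, h4.mem_nhds h5, ne_top_of_le_ne_top ?_ (lintegral_mono (g := fun y =>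
    2 * (ENNReal.ofReal (nrm M ρ s y) + ENNReal.ofReal (nrm M ρ s' y))) fun y => ?_)⟩
  · rw [lintegral_const_mul' _ _ ENNReal.ofNat_ne_top, lintegral_add_left'
      (((hs.continuousOn_nrm hρ hW).mono fun y hy => (h3 hy).1).aemeasurable
        h4.measurableSet).ennreal_ofReal]
    exact ENNReal.mul_ne_top ENNReal.ofNat_ne_top (ENNReal.add_ne_top.2
      ⟨ne_top_of_le_ne_top h1 (lintegral_mono_set fun y hy => (h3 hy).2.1),
        ne_top_of_le_ne_top h2 (lintegral_mono_set fun y hy => (h3 hy).2.2)⟩)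
  · beta_reduce
    rw [← ENNReal.ofReal_add (nrm_nonneg' _ _ _ _) (nrm_nonneg' _ _ _ _), ← ENNReal.ofReal_ofNat,
      ← ENNReal.ofReal_mul zero_le_two, mul_add]
    exact ENNReal.ofReal_le_ofReal (nrm_add_le _ _ _ _ _)

omit [BorelSpace X] in
theorem LocL2.neg (h : LocL2 ν M ρ s x) : LocL2 ν M ρ (fun i y => -s i y) x := by
  simpa only [LocL2, nrm, norm_neg] using h

theorem LocL2.sub (hs : ScOn M W s) (hρ : IsMetric M ρ) (hW : IsOpen W) (hx : x ∈ W)
    (h : LocL2 ν M ρ s x) (h' : LocL2 ν M ρ s' x) :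
    LocL2 ν M ρ (fun i y => s i y - s' i y) x := by
  simpa only [sub_eq_add_neg] using h.add hs hρ hW hx h'.neg

theorem lint_two [IsManifold 𝓘(ℂ, Cm d) ω X] {h : Fm d X} {μ : Measure X} (hh : IsHermitian h)
    (hμ : IsVol h μ) (hs : ScOn M W s) (hρ : IsMetric M ρ) (hW : IsOpen W) (hx : x ∈ W)
    (hf : Fr M S e i k x) {N : Set (Cm d)} (hN : N ∈ 𝓝 (e x)) :
    ∃ V, IsOpen V ∧ e x ∈ V ∧ V ⊆ N ∧ ∃ a b : ℝ≥0∞, a ≠ 0 ∧ b ≠ ⊤ ∧
      ∫⁻ y in e.source ∩ e ⁻¹' V, ENNReal.ofReal (nrm M ρ s y) ∂(μ.withDensity (sw S c)) ∈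
        Icc (a * ∫⁻ z in V, jf S c s i k (e.symm z)) (b * ∫⁻ z in V, jf S c s i k (e.symm z)) := by
  classical
  let b : Cm d → ℝ := fun z => Real.exp (-ρ i (e.symm z)) *
    (∏ j, Real.exp (-(S j).ρ (k j) (e.symm z)) ^ (-c j)) * (h e z).det.re
  have h1 : ContinuousAt b (e x) :=
    ((hρ.smooth i e x hf.1 hf.2.1).continuousAt.neg.rexp.mul (tendsto_finsetProd _ fun j _ =>
      ((S j).metric.smooth _ e x hf.1 (hf.2.2 j)).continuousAt.neg.rexp.rpow_const
        (Or.inl (Real.exp_pos _).ne'))).mul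
      (contDiffAt_re (contDiffAt_det (hh.smooth e x hf.1))).continuousAt
  have h2 : 0 < b (e x) := mul_pos (by positivity) (hh.det_re_pos hf.1)
  obtain ⟨V, h3, h4, h5⟩ := eventually_nhds_iff.1 ((hf.1.nhds_target.and
    ((e.tendsto_symm hf.1.2).eventually (hf.eventually.and (hW.mem_nhds hx)))).and
      ((h1.eventually (Icc_mem_nhds (half_lt_self h2) (lt_add_one _))).and hN))
  have h6 := e.isOpen_inter_preimage h4
  have h7 : Measurable ((e.source ∩ e ⁻¹' V).indicator fun y => ENNReal.ofReal (nrm M ρ s y)) := by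
    rw [← piecewise_eq_indicator]
    refine ContinuousOn.measurable_piecewise (ENNReal.continuous_ofReal.comp_continuousOn
      ((hs.continuousOn_nrm hρ hW).mono fun y hy => ?_)) continuousOn_const h6.measurableSet
    exact e.left_inv hy.1 ▸ (h3 _ hy.2).1.2.2
  have h8 : ∫⁻ y in e.source ∩ e ⁻¹' V, ENNReal.ofReal (nrm M ρ s y) ∂(μ.withDensity (sw S c)) =
      ∫⁻ z in V, ENNReal.ofReal (b z) * jf S c s i k (e.symm z) := by
    rw [← lintegral_indicator h6.measurableSet,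
      lintegral_withDensity_eq_lintegral_mul _ (measurable_sw S c) h7,
      hμ e hf.1.1 _ ((measurable_sw S c).mul h7) fun y hy => by
        rw [Pi.mul_apply, indicator_of_notMem fun k => hy k.1, mul_zero],
      ← inter_eq_left.2 (fun z hz => (h3 z hz).1.1 : V ⊆ e.target),
      ← Measure.restrict_restrict h4.measurableSet, ← lintegral_indicator h4.measurableSet,
      inter_eq_left.2 (fun z hz => (h3 z hz).1.1 : V ⊆ e.target)]
    refine setLIntegral_congr_fun e.open_target.measurableSet fun z hz => ?_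
    by_cases hz' : z ∈ V
    · obtain ⟨⟨-, k1, k2⟩, -⟩ := h3 z hz'
      rw [Pi.mul_apply, indicator_of_mem hz', indicator_of_mem
        (show _ ∈ e.source ∩ e ⁻¹' V from ⟨k1.1.2, by rwa [mem_preimage, e.right_inv hz]⟩),
        hs.nrm_eq hρ k2 k1.2.1, sw_eq k1.2.2, jf, ENNReal.ofReal_mul (by positivity),
        ENNReal.ofReal_mul (by positivity), ENNReal.ofReal_mul (by positivity)]
      ring
    · rw [Pi.mul_apply, indicator_of_notMem hz', indicator_of_notMem fun k =>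
        hz' (e.right_inv hz ▸ k.2), mul_zero, zero_mul]
  refine ⟨V, h4, h5, fun z hz => (h3 z hz).2.2, ENNReal.ofReal (b (e x) / 2),
    ENNReal.ofReal (b (e x) + 1), (ENNReal.ofReal_pos.2 (half_pos h2)).ne', ENNReal.ofReal_ne_top,
    ?_⟩
  rw [h8, ← lintegral_const_mul' _ _ ENNReal.ofReal_ne_top,
    ← lintegral_const_mul' _ _ ENNReal.ofReal_ne_top]
  exact ⟨setLIntegral_mono' h4.measurableSet fun z hz =>
      mul_le_mul_left (ENNReal.ofReal_le_ofReal (h3 z hz).2.1.1) _,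
    setLIntegral_mono' h4.measurableSet fun z hz =>
      mul_le_mul_left (ENNReal.ofReal_le_ofReal (h3 z hz).2.1.2) _⟩

theorem jeq : JeqStmt := by
  intro d X _ _ _ _ _ _ h μ hh hμ κ M ρ hρ m S c W s x hW hx hs
  constructor
  · rintro ⟨e, i, k, hf, N, hN, h1⟩
    obtain ⟨V, h2, h3, h4, a, b, -, hb, -, h5⟩ := lint_two (c := c) hh hμ hs hρ hW hx hf hN
    exact ⟨_, (e.isOpen_inter_preimage h2).mem_nhds ⟨hf.1.2, h3⟩, ne_top_of_le_ne_top
      (ENNReal.mul_ne_top hb (ne_top_of_le_ne_top h1 (lintegral_mono_set h4))) h5⟩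
  · rintro ⟨N, hN, h1⟩ e i k hf
    obtain ⟨V, h2, h3, h4, a, b, ha, -, h5, -⟩ :=
      lint_two (c := c) hh hμ hs hρ hW hx hf (e.tendsto_symm hf.1.2 hN)
    refine ⟨V, h2.mem_nhds h3, fun h6 => h1 (top_le_iff.1 ?_)⟩
    rw [h6, ENNReal.mul_top ha] at h5
    exact h5.trans (lintegral_mono_set fun y hy => e.left_inv hy.1 ▸ h4 hy.2)

end Vale.Agent.P277Z.Van
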