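import Vale.Agent.P277Z.Van.Sk
import Vale.Agent.P285Z.Res
import Vale.Agent.P271.H408.Ext
import Mathlib.Analysis.SpecialFunctions.Pow.Integral

/-!
# P277Z, block VAN: the rows SKL and VANS
-/

open scoped Topology ENNReal
open MeasureTheory Filter Set Metric

noncomputable section

namespace Vale.Agent.P277Z.Van

open Vale.Agent.P272.K
open Vale.Agent.P281.H511.Gen (straighten)

namespace SklH

theorem disc_fin {β : ℝ} (hβ : β < 1) (r : ℝ) :
    ∫⁻ t in ball (0 : ℂ) r, ENNReal.ofReal (‖t‖ ^ 2) ^ (-β) ≠ ⊤ := by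
  have h1 : IntegrableOn (fun t : ℂ => ‖t‖ ^ (-(2 * β))) (ball 0 r) :=
    integrableOn_ball_of_norm_le_rpow (C := 1) (α := 2 * β)
      (by rw [Complex.finrank_real_complex]; norm_num)
      (by rw [Complex.finrank_real_complex]; push_cast; linarith)
      (Eventually.of_forall fun t => by
        rw [one_mul, Real.norm_of_nonneg (Real.rpow_nonneg (norm_nonneg _) _)])
      (Measurable.aestronglyMeasurable (by fun_prop))
  refine ne_of_eq_of_ne (lintegral_congr_ae ?_) h1.lintegral_lt_top.ne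
  filter_upwards [ae_restrict_of_ae (Measure.ae_ne volume (0 : ℂ))] with t ht
  have h2 : 0 < ‖t‖ := norm_pos_iff.2 ht
  rw [ENNReal.ofReal_rpow_of_pos (by positivity), ← Real.rpow_natCast, ← Real.rpow_mul h2.le]
  congr 2
  push_cast
  ring

theorem coord_fin {n : ℕ} (σ : Fin n) {β : ℝ} (hβ : β < 1) {r : ℝ} (hr : 0 < r) (z : Fin n → ℂ)
    (hz : z σ = 0) : ∫⁻ w in ball z r, ENNReal.ofReal (‖w σ‖ ^ 2) ^ (-β) ≠ ⊤ := by
  have hF : Measurable fun t : ℂ => ENNReal.ofReal (‖t‖ ^ 2) ^ (-β) := by fun_prop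
  rw [← (measurePreserving_add_left volume z).setLIntegral_comp_preimage_emb
    (measurableEmbedding_addLeft z) _ (ball z r)]
  have h4 : (fun x => z + x) ⁻¹' ball z r = ball (0 : Fin n → ℂ) r := by
    ext x
    simp
  simp only [h4, Pi.add_apply, hz, zero_add]
  rw [Vale.Agent.P285Z.Res.lint_coord σ hr hF]
  exact ENNReal.mul_ne_top (ENNReal.prod_ne_top fun _ _ => measure_ball_lt_top.ne) (disc_fin hβ r)

theorem bdd_fin {n : ℕ} {G : (Fin n → ℂ) → ℝ≥0∞} {y : Fin n → ℂ} (hG : ContinuousAt G y)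
    (hy : G y ≠ ⊤) : ∃ V ∈ 𝓝 y, ∫⁻ z in V, G z ≠ ⊤ := by
  obtain ⟨r, hr, hb⟩ := Metric.eventually_nhds_iff_ball.1
    (hG.eventually (gt_mem_nhds (ENNReal.lt_add_right hy one_ne_zero)))
  refine ⟨ball y r, ball_mem_nhds y hr, ne_top_of_le_ne_top ?_
    (setLIntegral_mono' measurableSet_ball fun z hz => (hb z hz).le)⟩
  rw [setLIntegral_const]
  exact ENNReal.mul_ne_top (ENNReal.add_ne_top.2 ⟨hy, ENNReal.one_ne_top⟩) measure_ball_lt_top.ne

end SklH

/-- (SKL) -/
theorem skl : SklStmt := by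
  intro d g y hg hdg β hβ
  by_cases hg0 : g y = 0
  swap
  · refine SklH.bdd_fin (ENNReal.continuous_rpow_const.continuousAt.comp
      (ENNReal.continuous_ofReal.continuousAt.comp (hg.continuousAt.norm.pow 2))) ?_
    rw [ENNReal.ofReal_rpow_of_pos (pow_pos (norm_pos_iff.2 hg0) 2)]
    exact ENNReal.ofReal_ne_top
  obtain ⟨σ, Φ, hy, hΦσ, hΦ, hΨ⟩ := straighten hg hdg
  have hy0 : Φ y σ = 0 := by rw [hΦσ, hg0]
  have hdet : ContinuousAt (fun w => |(fderiv ℝ Φ.symm w).det|) (Φ y) :=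
    (ContinuousLinearMap.continuous_det.continuousAt.comp
      (((hΨ.contDiffAt (n := 1)).restrict_scalars ℝ).continuousAt_fderiv one_ne_zero)).abs
  set K : ℝ := |(fderiv ℝ Φ.symm (Φ y)).det| + 1 with hK
  have e2 := (hdet.eventually (gt_mem_nhds (lt_add_one _))).and (hΨ.eventually_analyticAt.and
    (show ∀ᶠ w in 𝓝 (Φ y), w ∈ Φ.target from Φ.open_target.mem_nhds (Φ.map_source hy)))
  obtain ⟨r, hr, hb⟩ := Metric.eventually_nhds_iff_ball.1 e2
  refine ⟨Φ.symm '' ball (Φ y) r, ?_, ?_⟩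
  · have h1 := Φ.symm.image_mem_nhds (Φ.map_source hy) (ball_mem_nhds _ hr)
    rwa [Φ.left_inv hy] at h1
  · rw [lintegral_image_eq_lintegral_abs_det_fderiv_mul volume measurableSet_ball
      (f' := fderiv ℝ Φ.symm) (fun w hw =>
        ((hb w hw).2.1.differentiableAt.restrictScalars ℝ).hasFDerivAt.hasFDerivWithinAt)
      (Φ.symm.injOn.mono fun w hw => (hb w hw).2.2)]
    refine ne_top_of_le_ne_top (ENNReal.mul_ne_top (a := ENNReal.ofReal K) ENNReal.ofReal_ne_top
      (SklH.coord_fin σ hβ hr (Φ y) hy0)) ?_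
    rw [← lintegral_const_mul' _ _ ENNReal.ofReal_ne_top]
    refine setLIntegral_mono' measurableSet_ball fun w hw => ?_
    rw [← hΦσ, Φ.right_inv (hb w hw).2.2]
    exact mul_le_mul_left (ENNReal.ofReal_le_ofReal (hb w hw).1.le) _

/-- (VANS) -/
theorem vans : VansStmt := by
  rintro d f g y hf hg hg0 ⟨V, hV, hfin⟩
  by_contra hf0
  obtain ⟨r, hr, hb⟩ := Metric.eventually_nhds_iff_ball.1
    ((show ∀ᶠ z in 𝓝 y, z ∈ V from hV).and (hf.eventually_analyticAt.and
      (hg.eventually_analyticAt.and (hf.continuousAt.eventually_ne hf0))))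
  have hne : ∀ p ∈ ball y r, ∃ᶠ z in 𝓝 p, g z ≠ 0 := by
    intro p hp hcon
    obtain ⟨s, hs, hc⟩ := Metric.eventually_nhds_iff_ball.1
      (hcon.and (show ∀ᶠ z in 𝓝 p, z ∈ ball y r from isOpen_ball.mem_nhds hp))
    refine hfin (top_unique (le_trans (le_of_eq ?_)
      (lintegral_mono_set fun z (hz : z ∈ ball p s) => (hb z (hc z hz).2).1)))
    rw [setLIntegral_congr_fun measurableSet_ball (g := fun _ => ⊤) fun z hz => ?_,
      setLIntegral_const, ENNReal.top_mul (measure_ball_pos volume p hs).ne']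
    have h1 := (hb z (hc z hz).2).2.2.2
    simp only [not_not.1 (hc z hz).1, norm_zero]
    rw [zero_pow two_ne_zero, ENNReal.ofReal_zero, ENNReal.rpow_neg_one, ENNReal.inv_zero,
      ENNReal.mul_top (ENNReal.ofReal_pos.2 (pow_pos (norm_pos_iff.2 h1) 2)).ne']
  obtain ⟨F, hF, hFe⟩ := Vale.Agent.P271.H408.ext_L2 (U := ball y r) (h := g)
    (f := fun z => f z / g z) isOpen_ball
    (fun z hz => (hb z hz).2.2.1.differentiableAt.differentiableWithinAt) hne
    (fun z hz => ((hb z hz.1).2.1.div (hb z hz.1).2.2.1 hz.2).differentiableAt.differentiableWithinAt)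
    fun p hp => by
      obtain ⟨s, hs, hc⟩ := Metric.isOpen_iff.1 isOpen_ball p hp
      have hm : MeasurableSet (ball p s ∩ {z | g z ≠ 0}) :=
        (ContinuousOn.isOpen_inter_preimage (s := ball p s) (f := g) (t := {0}ᶜ)
          (fun z hz => (hb z (hc hz)).2.2.1.continuousAt.continuousWithinAt) isOpen_ball
          isOpen_compl_singleton).measurableSet
      refine ⟨s, hs, ne_top_of_le_ne_top hfin (le_trans
        (setLIntegral_mono' hm fun z hz => le_of_eq ?_)
        (lintegral_mono_set fun z hz => (hb z (hc hz.1)).1))⟩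
      have h1 : 0 < ‖g z‖ ^ 2 := pow_pos (norm_pos_iff.2 hz.2) 2
      rw [ENNReal.rpow_neg_one, ← ENNReal.ofReal_inv_of_pos h1,
        ← ENNReal.ofReal_mul (by positivity), ← ofReal_norm, ← ENNReal.ofReal_pow (norm_nonneg _),
        norm_div, div_pow, div_eq_mul_inv]
  have hy := mem_ball_self (x := y) hr
  have h1 : ContinuousAt (fun z => F z * g z) y :=
    ((hF y hy).differentiableAt (ball_mem_nhds y hr)).continuousAt.mul hg.continuousAt
  have h2 : ∃ᶠ z in 𝓝 y, F z * g z = f z :=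
    ((hne y hy).and_eventually (ball_mem_nhds y hr)).mono fun z hz => by
      rw [hFe z hz.2 hz.1, div_mul_cancel₀ _ hz.1]
  have h3 : F y * g y = f y := tendsto_nhds_unique_of_frequently_eq h1 hf.continuousAt h2
  exact hf0 (by rw [← h3, hg0, mul_zero])

end Vale.Agent.P277Z.Van
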