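import Vale.Agent.P277Z.Van.Nad0
import Vale.Agent.P277Z.Van.Jeq
import Vale.Agent.P277Z.Van.Vol
import Vale.Agent.P277Z.Van.Skl
import Vale.Agent.P285Z.Res

/-!
# P277Z, block VAN: the theorem of Nadel, prescribed germs, extension from a hypersurface
-/

open scoped Manifold ContDiff ComplexOrder Topology ENNReal Matrix
open MeasureTheory Filter Set

noncomputable section

namespace Vale.Agent.P277Z.Van

open Vale.Agent.P272.K Vale.Agent.P301.H599 Vale.Agent.P285Z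
open Vale.Agent.P301.H98 (IsSection nrm)

section

variable {d : ℕ} {X : Type} [TopologicalSpace X] [ChartedSpace (Cm d) X] {ι κ : Type} {m : ℕ}
  {M : LineBundle d X κ} {ρ : κ → X → ℝ} {S : Fin m → Sys d X} {c : Fin m → ℝ} {W : Set X}
  {s t : κ → X → ℂ} {x : X} {e : Chart d X}

theorem inJ_zero : InJ' M S c (fun _ _ => 0) x := fun _ _ _ _ =>
  ⟨univ, univ_mem, by simp [jf]⟩

theorem jf_cons (S₀ : Sys d X) (c₀ : ℝ) (i : κ) (k₀ : S₀.ι) (k : ∀ j, (S j).ι) (y : X) :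
    jf (Fin.cons S₀ S : Fin (m + 1) → Sys d X) (Fin.cons c₀ c) s i (Fin.cons k₀ k) y =
      ENNReal.ofReal (‖s i y‖ ^ 2) * (ENNReal.ofReal (∑ a, ‖S₀.σ a k₀ y‖ ^ 2) ^ (-c₀) *
        ∏ j, ENNReal.ofReal (∑ a, ‖(S j).σ a (k j) y‖ ^ 2) ^ (-c j)) := by
  rw [jf, Fin.prod_univ_succ]
  rfl

theorem ex_one {L : LineBundle d X ι} {ρL : ι → X → ℝ} {σ : ι → X → ℂ} {hL : IsMetric L ρL}
    {hσ : IsSection L σ} {c₀ : ℝ} {i : κ} {k₀ : ι} {k : ∀ j, (S j).ι} {p : Cm d} :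
    (∃ V ∈ 𝓝 p, ∫⁻ z in V, jf (Fin.cons (Sys.one L ρL σ hL hσ) S : Fin (m + 1) → Sys d X)
      (Fin.cons c₀ c) s i (Fin.cons k₀ k) (e.symm z) ≠ ⊤) ↔
    ∃ V ∈ 𝓝 p, ∫⁻ z in V, ENNReal.ofReal (‖s i (e.symm z)‖ ^ 2) *
      (ENNReal.ofReal (‖σ k₀ (e.symm z)‖ ^ 2) ^ (-c₀) *
        ∏ j, ENNReal.ofReal (∑ a, ‖(S j).σ a (k j) (e.symm z)‖ ^ 2) ^ (-c j)) ≠ ⊤ := by
  refine exists_congr fun V => and_congr_right fun _ => iff_of_eq (congrArg (· ≠ ⊤)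
    (lintegral_congr fun z => (jf_cons (Sys.one L ρL σ hL hσ) c₀ i k₀ k _).trans ?_))
  exact congrArg (fun t => _ * (ENNReal.ofReal t ^ (-c₀) * _))
    (Fin.sum_univ_one fun _ => ‖σ k₀ (e.symm z)‖ ^ 2)

theorem fr_cons {S₀ : Sys d X} {i : κ} {k₀ : S₀.ι} {k : ∀ j, (S j).ι} (h : Fr M S e i k x)
    (h₀ : x ∈ S₀.L.U k₀) : Fr M (Fin.cons S₀ S : Fin (m + 1) → Sys d X) e i (Fin.cons k₀ k) x :=
  ⟨h.1, h.2.1, Fin.cases h₀ h.2.2⟩

theorem sc_cons (S₀ : Sys d X) (c₀ : ℝ) (z : Cm d) :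
    sc (Fin.cons S₀ S : Fin (m + 1) → Sys d X) (Fin.cons c₀ c) e z =
      (c₀ : ℂ) • curvature S₀.L S₀.ρ e z + sc S c e z := by
  rw [sc, Fin.sum_univ_succ]
  rfl

theorem exists_fr (M : LineBundle d X κ) (S : Fin m → Sys d X) (x : X) :
    ∃ e i k, Fr M S e i k x := by
  obtain ⟨i, hi⟩ := M.cover x
  choose k hk using fun j => (S j).L.cover x
  exact ⟨_, i, k, atChart x, hi, hk⟩

/-- the weight is bounded below -/
theorem wt_low {i : κ} {k : ∀ j, (S j).ι} (h : Fr M S e i k x) (hc : ∀ j, 0 ≤ c j) :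
    ∃ b : ℝ≥0∞, b ≠ 0 ∧ ∀ᶠ z in 𝓝 (e x),
      b ≤ ∏ j, ENNReal.ofReal (∑ a, ‖(S j).σ a (k j) (e.symm z)‖ ^ 2) ^ (-c j) := by
  have h1 : ∀ j, ContinuousAt (fun z => ∑ a, ‖(S j).σ a (k j) (e.symm z)‖ ^ 2) (e x) := fun j =>
    tendsto_finsetSum _ fun a _ =>
      ((((S j).sec a).holo (k j) e x h.1 (h.2.2 j)).continuousAt.norm.pow 2)
  refine ⟨∏ j, ENNReal.ofReal (∑ a, ‖(S j).σ a (k j) (e.symm (e x))‖ ^ 2 + 1) ^ (-c j),
    Finset.prod_ne_zero_iff.2 fun j _ => (ENNReal.rpow_pos (ENNReal.ofReal_pos.2 (by positivity))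
      ENNReal.ofReal_ne_top).ne', ?_⟩
  filter_upwards [eventually_all.2 fun j => (h1 j).eventually (gt_mem_nhds (lt_add_one _))]
    with z hz
  refine Finset.prod_le_prod' fun j _ => ?_
  rw [ENNReal.rpow_neg, ENNReal.rpow_neg]
  exact ENNReal.inv_le_inv.2 (ENNReal.rpow_le_rpow (ENNReal.ofReal_le_ofReal (hz j).le) (hc j))

variable [IsManifold 𝓘(ℂ, Cm d) ω X] [T2Space X] [SigmaCompactSpace X]

theorem InJ.all (h : InJ M S c s x) (hW : IsOpen W) (hx : x ∈ W) (hs : ScOn M W s) :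
    InJ' M S c s x := by
  borelize X
  obtain ⟨⟨w, hw⟩, h2, h3⟩ := vol d X
  obtain ⟨μ, hμ⟩ := h2 w hw
  obtain ⟨ρ, hρ⟩ := h3 κ M
  have := jeq d X w μ hw hμ κ M ρ hρ m S c W s x hW hx hs
  exact this.2 (this.1 h)

theorem InJ.sub (h : InJ M S c s x) (h' : InJ M S c t x) (hW : IsOpen W) (hx : x ∈ W)
    (hs : ScOn M W s) (ht : ScOn M W t) : InJ' M S c (fun i y => s i y - t i y) x := by
  borelize X
  obtain ⟨⟨w, hw⟩, h2, h3⟩ := vol d X
  obtain ⟨μ, hμ⟩ := h2 w hw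
  obtain ⟨ρ, hρ⟩ := h3 κ M
  have J := fun s => jeq d X w μ hw hμ κ M ρ hρ m S c W s x hW hx
  exact (J _ (hs.sub ht)).2 (((J s hs).1 h).sub hs hρ hW hx ((J t ht).1 h'))

end

theorem nadel_of (hS : SingStmt) : NadelStmt := by
  intro d X _ _ _ _ _ h hh Ω K hD κ M ρ hρ m S c hc hp α W f hW hK hf hJ
  borelize X
  obtain ⟨μ, hμ⟩ := (vol d X).2.1 h hh
  obtain ⟨ψ, η, A, σ, hψ, hA, hA'⟩ := hD.pos
  have J := jeq d X h μ hh hμ κ M ρ hρ m S c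
  obtain ⟨F, hF, H⟩ := nad0 d X _ Ω K hψ.isOpen hD.cpt hD.sub κ M ρ _ hρ
    (((cform_curv hρ).sub (cform_kc hh)).sub (cform_sc S c)) hp
    (hS d X h μ hh hμ Ω ψ hψ η A σ hA hA' κ M ρ hρ m S c hc) α W f hW hK hf
    fun a b x hx ha hb => (J _ _ x ((hW a).inter (hW b)) ⟨ha, hb⟩
      (((hf a).mono inter_subset_left).sub ((hf b).mono inter_subset_right)).sc).1
      (hJ a b x hx ha hb)
  exact ⟨F, hF, fun a x hx ha => (J _ _ x (hψ.isOpen.inter (hW a)) ⟨hx, ha⟩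
    ((hF.mono inter_subset_left).sub ((hf a).mono inter_subset_right)).sc).2 (H a x hx ha)⟩

theorem pt_of (hN : NadelStmt) : PtStmt := by
  intro d X _ _ _ _ _ h hh Ω K hD κ M ρ hρ m S c hc hp n y W f hy H
  have o : ∀ T : Set (Fin n), IsOpen (y '' T)ᶜ := fun T => (T.toFinite.image y).isClosed.isOpen_compl
  set W' : Option (Fin n) → Set X := fun a => a.elim (y '' univ)ᶜ fun a => W a ∩ (y '' {a}ᶜ)ᶜ
  set f' : Option (Fin n) → κ → X → ℂ := fun a => a.elim (fun _ _ => 0) f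
  have h1 : ∀ a, IsOpen (W' a) := by
    rintro (_ | a)
    exacts [o _, (H a).1.inter (o _)]
  have h2 : ∀ a, y a ∈ W' (some a) := fun a => ⟨(H a).2.1, fun ⟨b, hb, h⟩ => hb (hy h)⟩
  have h3 : ∀ a, SecOn M (W' a) (f' a) := by
    rintro (_ | a)
    exacts [secOn_zero, (H a).2.2.1.mono inter_subset_left]
  have h4 : ∀ a x, x ∈ W' a → (∀ b, x ≠ y b) → InJ M S c (f' a) x := by
    rintro (_ | a) x hx h
    exacts [inJ_zero.ex, (H a).2.2.2 x hx.1 (h a)]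
  have h5 : ∀ a b, y b ∈ W' a → a = some b := by
    rintro (_ | a) b hb
    · exact (hb ⟨b, trivial, rfl⟩).elim
    · by_contra h
      exact hb.2 ⟨b, fun h' => h (congrArg some h'.symm), rfl⟩
  obtain ⟨F, hF, HF⟩ := hN d X h hh Ω K hD κ M ρ hρ m S c hc hp _ W' f' h1 (fun x _ => by
      by_cases hx : x ∈ y '' univ
      · obtain ⟨a, -, rfl⟩ := hx
        exact ⟨_, h2 a⟩
      · exact ⟨none, hx⟩) h3 fun a b x _ ha hb => by
      by_cases hx : ∃ j, x = y j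
      · obtain ⟨j, rfl⟩ := hx
        rw [h5 a j ha, h5 b j hb]
        simpa only [sub_self] using inJ_zero.ex
      · push Not at hx
        exact ((h4 a x ha hx).sub (h4 b x hb hx) ((h1 a).inter (h1 b)) ⟨ha, hb⟩
          ((h3 a).mono inter_subset_left).sc ((h3 b).mono inter_subset_right).sc).ex
  refine ⟨F, hF, fun a ha => HF (some a) _ ha (h2 a), fun x hx h => ?_⟩
  simpa only [f', Option.elim, sub_zero] using HF none x hx fun ⟨a, _, h'⟩ => h a h'.symm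

theorem young (a b : ℝ≥0∞) {η : ℝ} (h0 : 0 ≤ η) (h1 : η ≤ 1) : a ^ (1 - η) * b ^ η ≤ a + b := by
  calc _ ≤ (a + b) ^ (1 - η) * (a + b) ^ η := by
        exact mul_le_mul' (ENNReal.rpow_le_rpow le_self_add (sub_nonneg.2 h1))
          (ENNReal.rpow_le_rpow le_add_self h0)
    _ = _ := by rw [← ENNReal.rpow_add_of_nonneg _ _ (sub_nonneg.2 h1) h0, sub_add_cancel,
        ENNReal.rpow_one]

/-- from the weight `|s|^{-2(1-η/2)} w` to the weight `|s|^{-2} w^{1-η}` -/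
theorem yg {d : ℕ} {g s : Cm d → ℂ} {p : Cm d} {w : Cm d → ℝ≥0∞} {η : ℝ} (h0 : 0 < η) (h1 : η < 1)
    (hg : AnalyticAt ℂ g p) (hs : AnalyticAt ℂ s p) (hd : s p = 0 → fderiv ℂ s p ≠ 0)
    (hz : ∀ᶠ z in 𝓝 p, s z = 0 → g z = 0)
    (h : ∃ V ∈ 𝓝 p, ∫⁻ z in V, ENNReal.ofReal (‖g z‖ ^ 2) *
      (ENNReal.ofReal (‖s z‖ ^ 2) ^ (-(1 - η / 2)) * w z) ≠ ⊤) :
    ∃ V ∈ 𝓝 p, ∫⁻ z in V, ENNReal.ofReal (‖g z‖ ^ 2) *
      (ENNReal.ofReal (‖s z‖ ^ 2) ^ (-(1 : ℝ)) * w z ^ (1 - η)) ≠ ⊤ := by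
  obtain ⟨V, hV, h⟩ := h
  obtain ⟨q, hq, hgq⟩ : ∃ q : Cm d → ℂ, AnalyticAt ℂ q p ∧ ∀ᶠ z in 𝓝 p, g z = q z * s z := by
    by_cases h2 : s p = 0
    · exact (res d s p hs h2 (hd h2)).2 g hg hz
    · refine ⟨fun z => g z / s z, hg.div hs h2, ?_⟩
      filter_upwards [hs.continuousAt.eventually_ne h2] with z h3
      rw [div_mul_cancel₀ _ h3]
  obtain ⟨V', hV', h'⟩ : ∃ V ∈ 𝓝 p,
      ∫⁻ z in V, ENNReal.ofReal (‖s z‖ ^ 2) ^ (-((1 - η) / 2)) ≠ ⊤ := by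
    by_cases h2 : s p = 0
    · exact skl d s p hs (hd h2) _ (by linarith)
    · have h3 : ENNReal.ofReal (‖s p‖ ^ 2) ≠ 0 := (ENNReal.ofReal_pos.2 (by positivity)).ne'
      exact SklH.bdd_fin (ENNReal.continuous_rpow_const.continuousAt.comp
        (ENNReal.continuous_ofReal.continuousAt.comp (hs.continuousAt.norm.pow 2)))
        (ENNReal.rpow_ne_top_of_ne_zero h3 ENNReal.ofReal_ne_top)
  obtain ⟨O, o1, o2, o3⟩ := eventually_nhds_iff.1 ((hgq.and hs.eventually_analyticAt).and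
    (((hq.continuousAt.norm.pow 2).eventually (gt_mem_nhds (lt_add_one _))).and (inter_mem hV hV')))
  set B := ENNReal.ofReal (‖q p‖ ^ 2 + 1)
  have m1 : AEMeasurable (fun z => B * ENNReal.ofReal (‖s z‖ ^ 2) ^ (-((1 - η) / 2)))
      (volume.restrict O) := (((ContinuousOn.aemeasurable (fun z hz =>
    (o1 z hz).1.2.continuousAt.continuousWithinAt) o2.measurableSet).norm.pow_const
      2).ennreal_ofReal.pow_const _).const_mul _
  refine ⟨O, o2.mem_nhds o3, ne_top_of_le_ne_top (ENNReal.add_ne_top.2 ⟨h, ENNReal.mul_ne_top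
    (ENNReal.ofReal_ne_top (r := ‖q p‖ ^ 2 + 1)) h'⟩) ?_⟩
  refine le_trans ?_ (add_le_add (lintegral_mono_set fun z hz => (o1 z hz).2.2.1)
    (mul_le_mul_right (lintegral_mono_set fun z hz => (o1 z hz).2.2.2) _))
  rw [← lintegral_const_mul' _ _ ENNReal.ofReal_ne_top, ← lintegral_add_right' _ m1]
  refine setLIntegral_mono' o2.measurableSet fun z hz => ?_
  by_cases h2 : s z = 0
  · simp [(o1 z hz).1.1, h2]
  have t0 : ENNReal.ofReal (‖s z‖ ^ 2) ≠ 0 := (ENNReal.ofReal_pos.2 (by positivity)).ne'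
  have t1 : ENNReal.ofReal (‖s z‖ ^ 2) ≠ ⊤ := ENNReal.ofReal_ne_top
  have e1 : ENNReal.ofReal (‖g z‖ ^ 2) = ENNReal.ofReal (‖q z‖ ^ 2) * ENNReal.ofReal (‖s z‖ ^ 2) := by
    rw [(o1 z hz).1.1, norm_mul, mul_pow, ENNReal.ofReal_mul (by positivity)]
  have e2 : ENNReal.ofReal (‖q z‖ ^ 2) ≤ B := ENNReal.ofReal_le_ofReal (o1 z hz).2.1.le
  rw [e1]
  generalize ENNReal.ofReal (‖s z‖ ^ 2) = t at t0 t1
  generalize ENNReal.ofReal (‖q z‖ ^ 2) = H at e2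
  have e3 : ∀ a : ℝ, t * t ^ a = t ^ (1 + a) := fun a => by
    rw [ENNReal.rpow_add _ _ t0 t1, ENNReal.rpow_one]
  have e4 := young (t ^ (η / 2) * w z) (t ^ (-((1 - η) / 2))) h0.le h1.le
  rw [ENNReal.mul_rpow_of_nonneg _ _ (sub_nonneg.2 h1.le), ← ENNReal.rpow_mul, ← ENNReal.rpow_mul,
    mul_right_comm, ← ENNReal.rpow_add _ _ t0 t1,
    show η / 2 * (1 - η) + -((1 - η) / 2) * η = 0 by ring, ENNReal.rpow_zero, one_mul] at e4
  rw [mul_assoc H, mul_assoc H, ← mul_assoc t, ← mul_assoc t, e3, e3, add_neg_cancel,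
    ENNReal.rpow_zero, one_mul, show 1 + -(1 - η / 2) = η / 2 by ring]
  refine (mul_le_mul_right e4 H).trans ?_
  rw [mul_add]
  gcongr

section

variable {d : ℕ} {X : Type} [TopologicalSpace X] [ChartedSpace (Cm d) X] {ι κ : Type} {m : ℕ}
  {M : LineBundle d X κ} {S : Fin m → Sys d X} {c : Fin m → ℝ} {W K : Set X} {g : κ → X → ℂ}
  {x : X} {L : LineBundle d X ι} {ρL : ι → X → ℝ} {σ : ι → X → ℂ} {hL : IsMetric L ρL}
  {hσ : IsSection L σ}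

theorem inJ_div {η : ℝ} (h0 : 0 < η) (h1 : η < 1) (hz : SmZ K L σ) (hx : x ∈ K) (hW : IsOpen W)
    (hw : x ∈ W) (hg : SecOn M W g) (h2 : AgreeOn W L σ M g fun _ _ => 0)
    (h : InJ' M (Fin.cons (Sys.one L ρL σ hL hσ) S) (Fin.cons (1 - η / 2) c) g x) :
    InJ M (Fin.cons (Sys.one L ρL σ hL hσ) S) (Fin.cons 1 fun j => c j * (1 - η)) g x := by
  obtain ⟨e, i, k, hf⟩ := exists_fr M S x
  obtain ⟨k₀, hk₀⟩ := L.cover x
  have hf' := fr_cons (S₀ := Sys.one L ρL σ hL hσ) hf hk₀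
  refine ⟨e, i, _, hf', ex_one.2 ?_⟩
  have q4 := yg (s := fun z => σ k₀ (e.symm z)) h0 h1 (hg.holo i e x hf.1 hf.2.1 hw)
    (hσ.holo k₀ e x hf.1 hk₀) (fun h => hz k₀ e x hf.1 hk₀ hx (by rwa [hf.1.left_inv] at h))
    ((Gl.ev_chart hf.1 ((((M.isOpen i).eventually_mem hf.2.1).and ((L.isOpen k₀).eventually_mem
      hk₀)).and (hW.eventually_mem hw))).mono fun z hz h => h2 i k₀ _ hz.1.1 hz.1.2 hz.2 h)
    (ex_one.1 (h e i _ hf'))
  simpa only [← neg_mul, ENNReal.rpow_mul, ENNReal.prod_rpow_of_nonneg (sub_nonneg.2 h1.le)]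
    using q4

/-- a section in the multiplier ideal of `|σ|^{-2}` vanishes at the zeros of `σ` -/
theorem inJ_van (hc : ∀ j, 0 ≤ c j) (hw : x ∈ W) (hg : SecOn M W g) {i : κ} {k : ι}
    (hi : x ∈ M.U i) (hk : x ∈ L.U k) (h0 : σ k x = 0)
    (h : InJ' M (Fin.cons (Sys.one L ρL σ hL hσ) S) (Fin.cons 1 c) g x) : g i x = 0 := by
  choose kk hkk using fun j => (S j).L.cover x
  have hf : Fr M S (chartAt (Cm d) x) i kk x := ⟨atChart x, hi, hkk⟩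
  generalize chartAt (Cm d) x = e at hf
  obtain ⟨V, hV, q1⟩ := ex_one.1 (h _ i _ (fr_cons (S₀ := Sys.one L ρL σ hL hσ) hf hk))
  obtain ⟨b, hb, q2⟩ := wt_low hf hc
  obtain ⟨O, p1, p2, p3⟩ := eventually_nhds_iff.1 (q2.and hV)
  have q3 := vans d (fun z => g i (e.symm z)) (fun z => σ k (e.symm z)) _
    (hg.holo i _ x hf.1 hi hw) (hσ.holo k _ x hf.1 hk) (by rwa [hf.1.left_inv])
    ⟨O, p2.mem_nhds p3, fun q4 => q1 (top_unique ?_)⟩
  · rwa [hf.1.left_inv] at q3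
  refine le_trans ?_ (lintegral_mono_set fun z hz => (p1 z hz).2)
  refine le_trans ?_ (setLIntegral_mono' p2.measurableSet fun z hz =>
    mul_le_mul_right (mul_le_mul_right (p1 z hz).1 _) _)
  simp only [← mul_assoc]
  rcases eq_or_ne b ⊤ with rfl | hb'
  · exact q4.ge.trans (lintegral_mono fun z => le_mul_of_one_le_right' le_top)
  · rw [lintegral_mul_const' _ _ hb', q4, ENNReal.top_mul hb]

end

theorem ext_of (hN : NadelStmt) : ExtStmt := by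
  intro d X _ _ _ _ _ h hh Ω K hD κ M ρ hρ ι L ρL σ hL hσ hz m S c hc hp u H
  obtain ⟨η₀, hη₀, hη⟩ := exists_pd_sub ((((cform_curv hρ).sub (cform_kc hh)).sub
    (cform_curv hL)).sub (cform_sc S c)) ((cform_sc S c).smul (-1)) hD.cpt hp
  obtain ⟨η, h0, h1, h2⟩ : ∃ η : ℝ, 0 < η ∧ η < 1 ∧ η ≤ η₀ :=
    ⟨min η₀ (1 / 2), lt_min hη₀ one_half_pos, (min_le_right _ _).trans_lt one_half_lt_one,
      min_le_left _ _⟩
  choose W f o1 o2 o3 o4 o5 using fun p : {p : ι × X // p.2 ∈ K ∧ p.2 ∈ L.U p.1 ∧ σ p.1 p.2 = 0} =>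
    H (η / 2) (half_pos h0) (by linarith) p.1.1 p.1.2 p.2.1 p.2.2.1 p.2.2.2
  have z : ∀ {k k' x}, x ∈ L.U k → x ∈ L.U k' → σ k' x = 0 → σ k x = 0 := fun hk hk' h => by
    rw [hσ.change _ _ _ hk hk', h, mul_zero]
  choose O p1 p2 p3 using fun a => eventually_nhds_iff.1
    ((o5 a).eventually.and ((o1 a).eventually_mem (o2 a)))
  obtain ⟨W', f', h3, h4, h5, h6, h7⟩ : ∃ (W' : Option {p : ι × X // p.2 ∈ K ∧ p.2 ∈ L.U p.1 ∧
      σ p.1 p.2 = 0} → Set X) (f' : _ → κ → X → ℂ), (∀ a, IsOpen (W' a)) ∧ (∀ x ∈ K, ∃ a, x ∈ W' a) ∧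
      (∀ a, SecOn M (W' a) (f' a)) ∧ (∀ a x, x ∈ W' a → InJ M (Fin.cons (Sys.one L ρL σ hL hσ) S)
        (Fin.cons (1 - η / 2) c) (f' a) x) ∧ ∀ a, AgreeOn (W' a) L σ M (f' a) u := by
    refine ⟨fun a => a.elim {x | ∃ k, x ∈ L.U k ∧ σ k x ≠ 0} O, fun a => a.elim (fun _ _ => 0) f,
      ?_, fun x hx => ?_, ?_, ?_, ?_⟩
    · rintro (_ | a)
      · refine isOpen_iff_mem_nhds.2 fun x ⟨k, hk, h0⟩ => ?_
        filter_upwards [(contAt_of_chart (atChart x)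
          (hσ.holo k _ x (atChart x) hk).continuousAt).eventually_ne h0, (L.isOpen k).mem_nhds hk]
          with y h2 h3 using ⟨k, h3, h2⟩
      · exact p2 a
    · obtain ⟨k, hk⟩ := L.cover x
      by_cases h0 : σ k x = 0
      · exact ⟨some ⟨(k, x), hx, hk, h0⟩, p3 _⟩
      · exact ⟨none, k, hk, h0⟩
    · rintro (_ | a)
      exacts [secOn_zero, (o3 a).mono fun y hy => (p1 a y hy).2]
    · rintro (_ | a) x hx
      exacts [inJ_zero.ex, (p1 a x hx).1]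
    · rintro (_ | a) i k x hi hk hx h
      · obtain ⟨k', hk', h'⟩ := hx
        exact (h' (z hk' hk h)).elim
      · exact o4 a i k x hi hk (p1 a x hx).2 h
  have hc' : ∀ j, 0 ≤ c j * (1 - η) := fun j => mul_nonneg (hc j) (by linarith)
  obtain ⟨F, hF, HF⟩ := hN d X h hh Ω K hD κ M ρ hρ _ (Fin.cons (Sys.one L ρL σ hL hσ) S)
    (Fin.cons 1 fun j => c j * (1 - η)) (Fin.cases zero_le_one hc') (fun e x hx hk => by
      have := hη η h0.le h2 e x hx hk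
      beta_reduce at this ⊢
      convert this using 1
      rw [sc_cons]
      simp only [sc, Complex.ofReal_mul, Complex.ofReal_sub, Complex.ofReal_one, mul_comm (c _ : ℂ),
        mul_smul, ← Finset.smul_sum, Complex.ofReal_neg]
      show _ - (_ • curvature L ρL e (e x) + _) = _
      module) _ W' f' h3 h4 h5 fun a b x hx ha hb => by
      have q1 := (h5 a).mono (inter_subset_left (t := W' b))
      have q2 := (h5 b).mono (inter_subset_right (s := W' a))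
      exact inJ_div h0 h1 hz hx ((h3 a).inter (h3 b)) ⟨ha, hb⟩ (q1.sub q2)
        (fun i k y hi hk hy h => by
          show f' a i y - f' b i y = 0
          rw [h7 a i k y hi hk hy.1 h, h7 b i k y hi hk hy.2 h, sub_self])
        ((h6 a x ha).sub (h6 b x hb) ((h3 a).inter (h3 b)) ⟨ha, hb⟩ q1.sc q2.sc)
  refine ⟨F, hF, fun i k x hi hk hx h => ?_⟩
  obtain ⟨a, ha⟩ := h4 x (hD.sub hx)
  exact (sub_eq_zero.1 (inJ_van hc' (W := Ω ∩ W' a) ⟨hx, ha⟩ ((hF.mono inter_subset_left).sub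
    ((h5 a).mono inter_subset_right)) hi hk h (HF a x hx ha))).trans (h7 a i k x hi hk ha h)

end Vale.Agent.P277Z.Van
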