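import Vale.Agent.P277Z.Van.Defs
import Vale.Agent.P285Z.Div

/-! P277Z, block VAN: the zero set of a section is null, `L²` sections extend across it. -/

open scoped Manifold ContDiff ComplexOrder Topology ENNReal Matrix
open MeasureTheory Filter Set Metric

set_option linter.unusedSectionVars false

noncomputable section

namespace Vale.Agent.P277Z.Van

open Vale.Agent.P272.K Vale.Agent.P301.H599 Vale.Agent.P285Z
open Vale.Agent.P301.H98 (nrm ev_mem)

namespace RiemH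

variable {d : ℕ} {X : Type} [TopologicalSpace X] [ChartedSpace (Cm d) X] {ι κ : Type}
  {e : Chart d X} {x : X} {Ω : Set X} {L : LineBundle d X ι} {σ : ι → X → ℝ} {r : ι → X → ℂ}

theorem nrm_on (hσ : IsMetric L σ) (hr : SecOn L Ω r) {i : ι} (hi : x ∈ L.U i) (hx : x ∈ Ω) :
    nrm L σ r x = ‖r i x‖ ^ 2 * Real.exp (-σ i x) := by
  have hj : x ∈ L.U (L.cover x).choose := (L.cover x).choose_spec
  unfold nrm
  rw [hr.change i _ x hi hj hx, hσ.change i _ x hi hj]
  have hg := L.ne_zero i _ x hi hj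
  rw [neg_add, Real.exp_add, Real.exp_neg (Real.log _), Real.exp_log (by positivity), norm_mul]
  field_simp

theorem nrm_ne (hσ : IsMetric L σ) (hr : SecOn L Ω r) {i : ι} (hi : x ∈ L.U i) (hx : x ∈ Ω) :
    nrm L σ r x ≠ 0 ↔ r i x ≠ 0 := by
  rw [nrm_on hσ hr hi hx, Ne, mul_eq_zero, pow_eq_zero_iff two_ne_zero, norm_eq_zero,
    or_iff_left (Real.exp_pos _).ne']

theorem holo_on (hr : SecOn L Ω r) (he : e ∈ atlas (Cm d) X) {i : ι} {z : Cm d}
    (hz : z ∈ e.target) (hi : e.symm z ∈ L.U i) (hx : e.symm z ∈ Ω) :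
    AnalyticAt ℂ (fun z => r i (e.symm z)) z := by
  have := hr.holo i e (e.symm z) (At.of_target he hz) hi hx
  rwa [e.right_inv hz] at this

theorem at_self (x : X) : At (chartAt (Cm d) x) x := ⟨chart_mem_atlas _ x, mem_chart_source _ x⟩

theorem freq (hΩ : IsOpen Ω) (hσ : IsMetric L σ) (hr : SecOn L Ω r) (hx : At e x) {i : ι}
    (hi : x ∈ L.U i) (hxΩ : x ∈ Ω) (h0 : ∃ᶠ y in 𝓝 x, nrm L σ r y ≠ 0) :
    ∃ᶠ z in 𝓝 (e x), r i (e.symm z) ≠ 0 := fun h => h0 (ev_of_chart hx (by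
  filter_upwards [h, ev_mem hx hi, ev_chart hx (hΩ.eventually_mem hxΩ)] with z h1 h2 h3 h4
  exact h1 ((nrm_ne hσ hr h2.2 h3).1 h4)))

theorem open_ne {f : Cm d → ℂ} {W : Set (Cm d)} (hW : IsOpen W) (hf : AnalyticOnNhd ℂ f W) :
    IsOpen (W ∩ {z | f z ≠ 0}) :=
  hf.continuousOn.isOpen_inter_preimage hW isOpen_ne

variable [MeasurableSpace X] [BorelSpace X] {h : Fm d X} {μ : Measure X}

theorem lint (hμ : IsVol h μ) (he : e ∈ atlas (Cm d) X) {S : Set (Cm d)} (hS : MeasurableSet S)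
    (hSt : S ⊆ e.target) (hO : MeasurableSet (e.source ∩ e ⁻¹' S)) {f : X → ℝ≥0∞}
    (hf : ContinuousOn f (e.source ∩ e ⁻¹' S)) :
    ∫⁻ x in e.source ∩ e ⁻¹' S, f x ∂μ =
      ∫⁻ z in S, f (e.symm z) * ENNReal.ofReal (h e z).det.re := by
  classical
  have hm : Measurable ((e.source ∩ e ⁻¹' S).indicator f) := by
    rw [← piecewise_eq_indicator]
    exact hf.measurable_piecewise continuousOn_const hO
  rw [← lintegral_indicator hO, hμ e he _ hm fun x hx => indicator_of_notMem (fun h => hx h.1) _,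
    ← inter_eq_self_of_subset_left hSt, ← Measure.restrict_restrict hS, ← lintegral_indicator hS,
    inter_eq_self_of_subset_left hSt]
  refine setLIntegral_congr_fun e.open_target.measurableSet fun z hz => ?_
  by_cases hz' : z ∈ S
  · rw [indicator_of_mem hz', indicator_of_mem]
    exact ⟨e.map_target hz, by rwa [mem_preimage, e.right_inv hz]⟩
  · rw [indicator_of_notMem hz', indicator_of_notMem, zero_mul]
    exact fun h => hz' (by simpa only [mem_preimage, e.right_inv hz] using h.2)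

theorem null (hμ : IsVol h μ) (hΩ : IsOpen Ω) (hc : IsSigmaCompact Ω) (hσ : IsMetric L σ)
    (hr : SecOn L Ω r) (h0 : ∀ x ∈ Ω, ∃ᶠ y in 𝓝 x, nrm L σ r y ≠ 0) :
    ∀ᵐ x ∂(μ.restrict Ω), nrm L σ r x ≠ 0 := by
  have h1 : Ωᶜ ∈ ae (μ.restrict {x | ¬ nrm L σ r x ≠ 0}) := by
    refine hc.isLindelof.compl_mem_sets_of_nhdsWithin fun x hx => ?_
    obtain ⟨i, hi⟩ := L.cover x
    set e := chartAt (Cm d) x
    have hxe : At e x := at_self x
    obtain ⟨s, hs, hb⟩ := Metric.eventually_nhds_iff_ball.1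
      ((ev_mem hxe hi).and (ev_chart hxe (hΩ.eventually_mem hx)))
    have han : AnalyticOnNhd ℂ (fun z => r i (e.symm z)) (ball (e x) s) := fun z hz =>
      holo_on hr hxe.1 (hb z hz).1.1 (hb z hz).1.2 (hb z hz).2
    obtain ⟨z₀, hz₀, hz₁⟩ :=
      ((freq hΩ hσ hr hxe hi hx (h0 x hx)).and_eventually (ball_mem_nhds (e x) hs)).exists
    have hnull := Vale.Agent.P285.H16.null_zero isOpen_ball (convex_ball _ _) han ⟨z₀, hz₁, hz₀⟩
    have hO := e.isOpen_inter_preimage (isOpen_ball (x := e x) (ε := s))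
    refine ⟨_, mem_nhdsWithin_of_mem_nhds (hO.mem_nhds ⟨hxe.2, mem_ball_self hs⟩), ?_⟩
    have e1 : {z ∈ ball (e x) s | r i (e.symm z) = 0} =
        ball (e x) s \ (ball (e x) s ∩ {z | r i (e.symm z) ≠ 0}) := by
      ext z
      simp only [mem_ofPred_eq, Set.mem_sdiff, mem_inter_iff]
      tauto
    have h2 := lint (S := {z ∈ ball (e x) s | r i (e.symm z) = 0}) hμ hxe.1
      (e1 ▸ measurableSet_ball.diff (open_ne isOpen_ball han).measurableSet)
      (fun z hz => (hb z hz.1).1.1) (by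
        rw [e1, preimage_sdiff, inter_sdiff_distrib_left]
        exact hO.measurableSet.diff
          (e.isOpen_inter_preimage (open_ne isOpen_ball han)).measurableSet)
      (f := fun _ => 1) continuousOn_const
    rw [setLIntegral_measure_zero _ _ hnull, setLIntegral_one] at h2
    rw [compl_mem_ae_iff, Measure.restrict_apply hO.measurableSet]
    refine measure_mono_null (fun y hy => ?_) h2
    refine ⟨hy.1.1, hy.1.2, ?_⟩
    have h3 := hb _ hy.1.2
    exact not_not.1 fun h4 => hy.2 (by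
      rw [e.left_inv hy.1.1] at h3 h4
      exact (nrm_ne hσ hr h3.1.2 h3.2).2 h4)
  rw [compl_mem_ae_iff, Measure.restrict_apply hΩ.measurableSet, inter_comm] at h1
  rwa [ae_iff, Measure.restrict_apply' hΩ.measurableSet]

variable {M : LineBundle d X κ} {ρ : κ → X → ℝ} {G : κ → X → ℂ}

theorem chart (hh : IsHermitian h) (hμ : IsVol h μ) (hΩ : IsOpen Ω) (hσ : IsMetric L σ)
    (hr : SecOn L Ω r) (h0 : ∀ x ∈ Ω, ∃ᶠ y in 𝓝 x, nrm L σ r y ≠ 0) (hρ : IsMetric M ρ)
    (hG : SecOn M {x | x ∈ Ω ∧ nrm L σ r x ≠ 0} G)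
    (hfin : ∀ x ∈ Ω, ∃ V ∈ 𝓝 x, ∫⁻ y in V ∩ {x | x ∈ Ω ∧ nrm L σ r x ≠ 0},
      ENNReal.ofReal (nrm M ρ G y) ∂μ ≠ ⊤) (he : e ∈ atlas (Cm d) X) (k : κ) (i : ι) :
    ∃ Φ : Cm d → ℂ, AnalyticOnNhd ℂ Φ (e.target ∩ e.symm ⁻¹' (Ω ∩ (M.U k ∩ L.U i))) ∧
      ∀ z ∈ e.target ∩ e.symm ⁻¹' (Ω ∩ (M.U k ∩ L.U i)), r i (e.symm z) ≠ 0 →
        Φ z = G k (e.symm z) := by
  set W := e.target ∩ e.symm ⁻¹' (Ω ∩ (M.U k ∩ L.U i))
  have hW : IsOpen W :=
    e.isOpen_inter_preimage_symm (hΩ.inter ((M.isOpen k).inter (L.isOpen i)))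
  have hra : AnalyticOnNhd ℂ (fun z => r i (e.symm z)) W := fun z hz =>
    holo_on hr he hz.1 hz.2.2.2 hz.2.1
  have hmem : ∀ z ∈ W, r i (e.symm z) ≠ 0 → e.symm z ∈ {x | x ∈ Ω ∧ nrm L σ r x ≠ 0} :=
    fun z hz h1 => ⟨hz.2.1, (nrm_ne hσ hr hz.2.2.2 hz.2.1).2 h1⟩
  have hGa : ∀ z ∈ W, r i (e.symm z) ≠ 0 → AnalyticAt ℂ (fun z => G k (e.symm z)) z :=
    fun z hz h1 => holo_on hG he hz.1 hz.2.2.1 (hmem z hz h1)
  obtain ⟨Φ, hΦ, hΦe⟩ := Vale.Agent.P271.H408.ext_L2 hW (h := fun z => r i (e.symm z))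
    (f := fun z => G k (e.symm z)) hra.differentiableOn
    (fun p hp => by
      have := freq hΩ hσ hr (At.of_target he hp.1) hp.2.2.2 hp.2.1 (h0 _ hp.2.1)
      rwa [e.right_inv hp.1] at this)
    (fun z hz => (hGa z hz.1 hz.2).differentiableAt.differentiableWithinAt)
    (fun p hp => by
      have hy : At e (e.symm p) := At.of_target he hp.1
      have hc1 : ContinuousAt (fun z => Real.exp (-ρ k (e.symm z)) * (h e z).det.re) p := by
        have h1 : ContinuousAt (h e) (e (e.symm p)) := continuousAt_pi.2 fun a =>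
          continuousAt_pi.2 fun b => (hh.smooth e _ hy a b).continuousAt
        have h2 := (hρ.smooth k e _ hy hp.2.2.1).continuousAt
        rw [e.right_inv hp.1] at h1 h2
        exact h2.neg.rexp.mul (Complex.continuous_re.continuousAt.comp
          ((continuous_id.matrix_det).continuousAt.comp h1))
      have hpos : 0 < Real.exp (-ρ k (e.symm p)) * (h e p).det.re := by
        have h1 := (Complex.lt_def.1 (hh.posDef e _ hy).det_pos).1
        rw [e.right_inv hp.1] at h1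
        exact mul_pos (Real.exp_pos _) h1
      obtain ⟨c, hc0, hc⟩ := exists_between hpos
      obtain ⟨V, hV, hfV⟩ := hfin _ hp.2.1
      have hV' := ev_chart hy (P := fun y => y ∈ V) hV
      rw [e.right_inv hp.1] at hV'
      obtain ⟨s, hs, hb⟩ := Metric.eventually_nhds_iff_ball.1
        ((hc1.eventually (lt_mem_nhds hc)).and (hV'.and (hW.eventually_mem hp)))
      have hS := open_ne isOpen_ball (hra.mono fun z hz => (hb z hz).2.2 :
        AnalyticOnNhd ℂ _ (ball p s))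
      have hy' : ∀ y ∈ e.source ∩ e ⁻¹' (ball p s ∩ {z | r i (e.symm z) ≠ 0}),
          y ∈ V ∧ y ∈ M.U k ∧ y ∈ {x | x ∈ Ω ∧ nrm L σ r x ≠ 0} := fun y hy => by
        have := And.intro (hb _ hy.2.1).2.1
          (And.intro (hb _ hy.2.1).2.2.2.2.1 (hmem _ (hb _ hy.2.1).2.2 hy.2.2))
        rwa [e.left_inv hy.1] at this
      refine ⟨s, hs, ne_top_of_le_ne_top (ENNReal.mul_ne_top (ENNReal.ofReal_ne_top (r := c⁻¹))
        hfV) (le_trans ?_ (mul_le_mul_right (lintegral_mono_set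
          (s := e.source ∩ e ⁻¹' (ball p s ∩ {z | r i (e.symm z) ≠ 0}))
          fun y hy => mem_inter (hy' y hy).1 (hy' y hy).2.2) _))⟩
      rw [setLIntegral_congr_fun (e.isOpen_inter_preimage hS).measurableSet fun y hy =>
          congrArg ENNReal.ofReal (nrm_on hρ hG (hy' y hy).2.1 (hy' y hy).2.2),
        lint hμ he hS.measurableSet (fun z hz => (hb z hz.1).2.2.1)
          (e.isOpen_inter_preimage hS).measurableSet fun y hy => ?_,
        ← lintegral_const_mul' _ _ ENNReal.ofReal_ne_top]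
      · refine setLIntegral_mono' hS.measurableSet fun z hz => ?_
        rw [← ENNReal.ofReal_mul (by positivity), ← ENNReal.ofReal_mul (inv_nonneg.2 hc0.le),
          ← ofReal_norm, ← ENNReal.ofReal_pow (norm_nonneg _)]
        refine ENNReal.ofReal_le_ofReal ?_
        rw [le_inv_mul_iff₀ hc0, mul_assoc, mul_comm]
        exact mul_le_mul_of_nonneg_left (hb z hz.1).1.le (by positivity)
      · have a1 : At e y := ⟨he, hy.1⟩
        exact (ENNReal.continuous_ofReal.continuousAt.comp (((contAt_of_chart a1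
          (hG.holo k e y a1 (hy' y hy).2.1 (hy' y hy).2.2).continuousAt).norm.pow 2).mul
          (contAt_of_chart a1
            (hρ.smooth k e y a1 (hy' y hy).2.1).continuousAt).neg.rexp)).continuousWithinAt)
  exact ⟨Φ, Vale.Agent.P268.analyticOnNhd_of_differentiableOn hW hΦ, hΦe⟩

end RiemH

open RiemH in
theorem riem : RiemStmt := by
  intro d X _ _ _ _ _ _ h μ hh hμ Ω hΩ hc ι L σ r hσ hr h0
  refine ⟨null hμ hΩ hc hσ hr h0, fun κ M ρ hρ G hG hfin => ?_⟩
  set O : Set X := {x | x ∈ Ω ∧ nrm L σ r x ≠ 0}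
  have hfr : ∀ x ∈ Ω, ∃ᶠ y in 𝓝 x, y ∈ O := fun x hx =>
    ((h0 x hx).and_eventually (hΩ.eventually_mem hx)).mono fun y hy => ⟨hy.2, hy.1⟩
  set F : κ → X → ℂ := fun k x => limUnder (𝓝[O] x) (G k)
  have hloc : ∀ e ∈ atlas (Cm d) X, ∀ k i, ∃ Φ : Cm d → ℂ,
      AnalyticOnNhd ℂ Φ (e.target ∩ e.symm ⁻¹' (Ω ∩ (M.U k ∩ L.U i))) ∧
      ∀ y ∈ e.source, y ∈ Ω → y ∈ M.U k → y ∈ L.U i →
        F k y = Φ (e y) ∧ (y ∈ O → Φ (e y) = G k y) := by
    intro e he k i
    obtain ⟨Φ, hΦ, hΦe⟩ := chart hh hμ hΩ hσ hr h0 hρ hG hfin he k i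
    have hmem : ∀ y ∈ e.source, y ∈ Ω → y ∈ M.U k → y ∈ L.U i →
        e y ∈ e.target ∩ e.symm ⁻¹' (Ω ∩ (M.U k ∩ L.U i)) := fun y hy hx hk hi =>
      ⟨e.map_source hy, by rw [mem_preimage, e.left_inv hy]; exact ⟨hx, hk, hi⟩⟩
    have hval : ∀ y ∈ e.source, y ∈ M.U k → y ∈ L.U i → y ∈ O → Φ (e y) = G k y := by
      intro y hy hk hi hx
      have := hΦe (e y) (hmem y hy hx.1 hk hi)
      rw [e.left_inv hy] at this
      exact this ((nrm_ne hσ hr hi hx.1).1 hx.2)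
    refine ⟨Φ, hΦ, fun y hy hx hk hi => ⟨?_, hval y hy hk hi⟩⟩
    have := mem_closure_iff_nhdsWithin_neBot.1 (mem_closure_iff_frequently.2 (hfr y hx))
    refine Tendsto.limUnder_eq ?_
    have h1 : ContinuousAt (fun y => Φ (e y)) y :=
      (hΦ _ (hmem y hy hx hk hi)).continuousAt.comp (f := e) (e.continuousAt hy)
    refine (h1.tendsto.mono_left nhdsWithin_le_nhds).congr' ?_
    filter_upwards [self_mem_nhdsWithin, mem_nhdsWithin_of_mem_nhds (e.open_source.mem_nhds hy),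
      mem_nhdsWithin_of_mem_nhds ((M.isOpen k).mem_nhds hk),
      mem_nhdsWithin_of_mem_nhds ((L.isOpen i).mem_nhds hi)] with u h2 h3 h4 h5
    exact hval u h3 h4 h5 h2
  have hholo : ∀ k (e : Chart d X) x, At e x → x ∈ M.U k → x ∈ Ω →
      AnalyticAt ℂ (fun z => F k (e.symm z)) (e x) := by
    intro k e x hx hk hxΩ
    obtain ⟨i, hi⟩ := L.cover x
    obtain ⟨Φ, hΦ, hΦe⟩ := hloc e hx.1 k i
    refine (hΦ _ ⟨hx.mem_target, by rw [mem_preimage, hx.left_inv]; exact ⟨hxΩ, hk, hi⟩⟩).congr ?_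
    filter_upwards [ev_mem hx hk, ev_mem hx hi, ev_chart hx (hΩ.eventually_mem hxΩ)]
      with z h2 h3 h4
    rw [(hΦe _ (e.map_target h2.1) h4 h2.2 h3.2).1, e.right_inv h2.1]
  have hoff : ∀ k y, y ∈ M.U k → y ∈ O → F k y = G k y := by
    intro k y hk hy
    obtain ⟨i, hi⟩ := L.cover y
    obtain ⟨Φ, -, hΦe⟩ := hloc _ (at_self (d := d) y).1 k i
    obtain ⟨h1, h2⟩ := hΦe y (at_self (d := d) y).2 hy.1 hk hi
    rw [h1, h2 hy]
  have hFc : ∀ k x, x ∈ M.U k → x ∈ Ω → ContinuousAt (F k) x := fun k x hk hx =>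
    contAt_of_chart (at_self x) (hholo k _ x (at_self x) hk hx).continuousAt
  refine ⟨F, ⟨hholo, fun k l x hk hl hx => ?_⟩, fun k x hk hx h1 => hoff k x hk ⟨hx, h1⟩⟩
  have hg : ContinuousAt (M.g k l) x :=
    contAt_of_chart (at_self x) (M.holo k l _ x (at_self x) hk hl).continuousAt
  refine tendsto_nhds_unique_of_frequently_eq (hFc k x hk hx) (hg.mul (hFc l x hl hx)) ?_
  refine ((hfr x hx).and_eventually (((M.isOpen k).eventually_mem hk).and
    ((M.isOpen l).eventually_mem hl))).mono ?_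
  rintro y ⟨h1, h2, h3⟩
  rw [hoff k y h2 h1, hG.change k l y h2 h3 h1, ← hoff l y h3 h1]
  rfl

end Vale.Agent.P277Z.Van
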