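import Vale.Agent.P277Z.Van.Horm
import Vale.Agent.P277Z.Van.GG2
import Vale.Agent.P277Z.Van.Gen
import Vale.Agent.P277Z.Van.Riem
import Vale.Agent.P277Z.Van.Nadel

/-!
# P277Z, block VAN: the `L²` estimate for singular weights; Nadel vanishing and extension
-/

open scoped Manifold ContDiff ComplexOrder Topology ENNReal Matrix
open MeasureTheory Filter Set

set_option linter.unusedSectionVars false

noncomputable section

namespace Vale.Agent.P277Z.Van

open Vale.Agent.P272.K Vale.Agent.P301.H599 Vale.Agent.P285Z Vale.Agent.P285Z.Ch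
open Vale.Agent.P301.H98 (IsSection nrm)
open Vale.Agent.P301.H862 (IsSc powL)

namespace Sing

variable {d : ℕ} {X : Type} [TopologicalSpace X] [ChartedSpace (Cm d) X] {κ ι : Type} {m : ℕ}
  {S : Fin m → Sys d X} {c : Fin m → ℝ} {Ψ p q φ a : X → ℝ} {x : X} {U O : Set X}
  {M : LineBundle d X κ} {ρ : κ → X → ℝ} {s : κ → X → ℂ}
  {L : LineBundle d X ι} {σ : ι → X → ℝ} {r : ι → X → ℂ} {h : Fm d X}

theorem tendsto_prod {α β : Type} {l : Filter α} (s : Finset β) {f : β → α → ℝ≥0∞}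
    {a : β → ℝ≥0∞} (h : ∀ i, Tendsto (f i) l (𝓝 (a i))) (h0 : ∀ i, a i ≠ 0) :
    Tendsto (fun x => ∏ i ∈ s, f i x) l (𝓝 (∏ i ∈ s, a i)) := by
  classical
  induction s using Finset.induction_on with
  | empty => simpa using tendsto_const_nhds
  | insert i s hi ih =>
    simp only [Finset.prod_insert hi]
    exact ENNReal.Tendsto.mul (h i) (Or.inl (h0 i)) ih
      (Or.inl (Finset.prod_ne_zero_iff.2 fun j _ => h0 j))

/-- the regularized weight -/
def wt (S : Fin m → Sys d X) (c : Fin m → ℝ) (Ψ p : X → ℝ) (x : X) : ℝ :=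
  Ψ x + ∑ j, c j * Real.log ((S j).N x + Real.exp (p x))

theorem N_pos (S : Sys d X) (x : X) (t : ℝ) : 0 < S.N x + Real.exp t :=
  add_pos_of_nonneg_of_pos (sumN_nonneg x) (Real.exp_pos _)

theorem wt_eq : ENNReal.ofReal (Real.exp (-wt S c Ψ p x)) = ENNReal.ofReal (Real.exp (-Ψ x)) *
    ∏ j, ENNReal.ofReal ((S j).N x + Real.exp (p x)) ^ (-c j) := by
  rw [wt, neg_add, Real.exp_add, ENNReal.ofReal_mul (Real.exp_pos _).le, ← Finset.sum_neg_distrib,
    Real.exp_sum, ENNReal.ofReal_prod_of_nonneg fun _ _ => (Real.exp_pos _).le]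
  refine congrArg _ (Finset.prod_congr rfl fun j _ => ?_)
  rw [ENNReal.ofReal_rpow_of_pos (N_pos _ _ _), Real.rpow_def_of_pos (N_pos _ _ _)]
  congr 2
  ring

theorem wt_le (hc : ∀ j, 0 ≤ c j) : ENNReal.ofReal (Real.exp (-wt S c Ψ p x)) ≤
    ENNReal.ofReal (Real.exp (-Ψ x)) * sw S c x := by
  rw [wt_eq]
  refine mul_le_mul_right (Finset.prod_le_prod' fun j _ => ?_) _
  rw [ENNReal.rpow_neg, ENNReal.rpow_neg]
  exact ENNReal.inv_le_inv.2 (ENNReal.rpow_le_rpow (ENNReal.ofReal_le_ofReal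
    (le_add_of_nonneg_right (Real.exp_pos _).le)) (hc j))

theorem wt_mono (hc : ∀ j, 0 ≤ c j) (h : p x ≤ q x) : wt S c Ψ p x ≤ wt S c Ψ q x :=
  add_le_add_right (Finset.sum_le_sum fun j _ => mul_le_mul_of_nonneg_left
    (Real.log_le_log (N_pos _ _ _) (add_le_add_right (Real.exp_le_exp.2 h) _)) (hc j)) _

theorem log_sm (S : Sys d X) (hp : SmOn (d := d) O p) :
    SmOn (d := d) O fun x => Real.log (S.N x + Real.exp (p x)) :=
  ((smOn_of (sumN_smooth S.metric S.sec) O).add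
    (hp.comp fun _ _ => Real.contDiff_exp.contDiffAt)).comp (f := Real.log) fun x _ =>
      Real.contDiffAt_log.2 (N_pos S x _).ne'

theorem wt_sm (hΨ : SmOn (d := d) O Ψ) (hp : SmOn (d := d) O p) : SmOn (d := d) O (wt S c Ψ p) :=
  hΨ.add (smOn_sum _ fun j _ => (smOn_const O _).mul (log_sm (S j) hp))

theorem wt_lim (hc : ∀ j, 0 ≤ c j) {p : ℕ → X → ℝ} (hp : Tendsto (fun k => p k x) atTop atBot) :
    Tendsto (fun k => ENNReal.ofReal (Real.exp (-wt S c Ψ (p k) x))) atTop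
      (𝓝 (ENNReal.ofReal (Real.exp (-Ψ x)) * sw S c x)) := by
  simp only [wt_eq]
  refine ENNReal.Tendsto.const_mul (tendsto_prod _ (fun j => ?_) fun j => ?_)
    (Or.inr ENNReal.ofReal_ne_top)
  · refine (ENNReal.tendsto_ofReal ?_).ennrpow_const _
    simpa using (Real.tendsto_exp_atBot.comp hp).const_add ((S j).N x)
  · rw [ENNReal.rpow_neg]
    exact ENNReal.inv_ne_zero.2 (ENNReal.rpow_ne_top_of_nonneg (hc j) ENNReal.ofReal_ne_top)

theorem low_wt [T2Space X] [IsManifold 𝓘(ℂ, Cm d) ω X] [MeasurableSpace X] [BorelSpace X] (hΨ : SmOn (d := d) O Ψ) (hp : SmOn (d := d) O p) (hx : x ∈ O) :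
    ∃ V ∈ 𝓝 x, ∃ t : ℝ, 0 < t ∧ ∀ y ∈ V, t ≤ Real.exp (-wt S c Ψ p y) :=
  low_cont ((wt_sm hΨ hp).contAt hx).neg.rexp (Real.exp_pos _)

variable [IsManifold 𝓘(ℂ, Cm d) ω X]

theorem wt_psd (hc : ∀ j, 0 ≤ c j) (hΨ : SmOn (d := d) O Ψ) (hp : SmOn (d := d) O p)
    (H : ∀ j, PSDOn O fun e z => curvature (S j).L (S j).ρ e z + ddc p e z) (Θ : Fm d X) :
    PSDOn O fun e z => Θ e z + ddc (wt S c Ψ p) e z - (Θ e z - sc S c e z + ddc Ψ e z) := by
  intro e x hx hm
  have h1 : ∀ j, SmOn (d := d) O fun y => c j * Real.log ((S j).N y + Real.exp (p y)) :=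
    fun j => (smOn_const O _).mul (log_sm (S j) hp)
  have h2 : ddc (wt S c Ψ p) e (e x) = ddc Ψ e (e x) +
      ∑ j, (c j : ℂ) • ddc (fun y => Real.log ((S j).N y + Real.exp (p y))) e (e x) := by
    rw [← Finset.sum_congr rfl fun j _ => ddc_mul_on (c j) (log_sm (S j) hp) hx hm,
      ← ddc_sum_on _ (fun j _ => h1 j) hx hm]
    exact ddc_add_on hΨ (smOn_sum _ fun j _ => h1 j) hx hm
  have h3 : Θ e (e x) + ddc (wt S c Ψ p) e (e x) - (Θ e (e x) - sc S c e (e x) + ddc Ψ e (e x)) =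
      ∑ j, (c j : ℂ) • (curvature (S j).L (S j).ρ e (e x) +
        ddc (fun y => Real.log ((S j).N y + Real.exp (p y))) e (e x)) := by
    simp only [h2, sc, smul_add, Finset.sum_add_distrib]
    abel
  beta_reduce
  rw [h3]
  refine Matrix.posSemidef_sum _ fun j _ => P285Z.psd_smul ?_ (hc j)
  exact ((good_sumN (S j).metric (S j).sec hx).add (good_exp (hp.two hx hm) (H j e x hx hm))).psd
    (N_pos (S j) _ _) (curv_herm (S j).metric hx)

variable [T2Space X]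

/-- the complement of the zeros of a section of a semipositive line bundle -/
theorem exh_ne (H : Exh d U φ) (hσ : IsMetric L σ) (hr : SecOn L U r)
    (hp : PSDOn U (curvature L σ)) {C : ℝ} (hC : ∀ x ∈ U, nrm L σ r x ≤ C) :
    Exh d {x | x ∈ U ∧ nrm L σ r x ≠ 0} fun x => φ x - Real.log (nrm L σ r x) := by
  have h1 := hr.toSc.smOn hσ H.isOpen
  have h2 : SmOn (d := d) {x | x ∈ U ∧ nrm L σ r x ≠ 0} fun x => Real.log (nrm L σ r x) :=
    (h1.mono fun _ h => h.1).comp fun x hx => Real.contDiffAt_log.2 hx.2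
  refine ⟨h1.cont.isOpen_inter_preimage H.isOpen isOpen_ne, (H.sm.mono fun _ h => h.1).sub h2,
    fun e x hx hm => ?_, fun b => ?_⟩
  · rw [ddc_sub_on (H.sm.mono fun _ h => h.1) h2 hx hm, ddc_log_nrm hσ H.isOpen hr hx hm.1 hm.2,
      sub_neg_eq_add]
    exact (H.psh e x hx hm.1).add (hp e x hx hm.1)
  · have h3 : {x | x ∈ {x | x ∈ U ∧ nrm L σ r x ≠ 0} ∧ φ x - Real.log (nrm L σ r x) ≤ b} =
        {x | x ∈ U ∧ φ x ≤ b + C} ∩ (fun x => nrm L σ r x - Real.exp (φ x - b)) ⁻¹' Ici 0 := by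
      ext x
      refine ⟨fun hx => ?_, fun hx => ?_⟩
      · have h4 := (nrm_nonneg' L σ r x).lt_of_ne' hx.1.2
        refine ⟨⟨hx.1.1, by linarith [hx.2, hC x hx.1.1, Real.log_le_self h4.le]⟩,
          sub_nonneg.2 ((Real.le_log_iff_exp_le h4).1 (by linarith [hx.2]))⟩
      · have h4 : Real.exp (φ x - b) ≤ nrm L σ r x := sub_nonneg.1 hx.2
        have h5 := (Real.exp_pos _).trans_le h4
        exact ⟨⟨hx.1.1, h5.ne'⟩, by linarith [(Real.le_log_iff_exp_le h5).2 h4]⟩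
    rw [h3]
    exact (H.cpt _).of_isClosed_subset (ContinuousOn.preimage_isClosed_of_isClosed
      ((h1.cont.sub (H.sm.cont.sub continuousOn_const).rexp).mono fun _ h => h.1)
      (H.cpt _).isClosed isClosed_Ici) inter_subset_left

variable [MeasurableSpace X] [BorelSpace X] {μ : Measure X}

theorem loc_fin (hh : IsHermitian h) (hμ : IsVol h μ) (hU : IsOpen U) (hO : IsOpen O)
    (hρ : IsMetric M ρ) (hs : ScOn M U s) {G : κ → X → ℂ} {W : X → ℝ≥0∞} (hx : x ∈ U)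
    (low : ∃ V ∈ 𝓝 x, ∃ t : ℝ, 0 < t ∧ ∀ y ∈ V, ENNReal.ofReal t ≤ W y)
    (hR : ∫⁻ y in O, ENNReal.ofReal (nrm M ρ (fun i y => G i y - s i y) y) * W y ∂μ ≠ ⊤) :
    ∃ V ∈ 𝓝 x, ∫⁻ y in V ∩ O, ENNReal.ofReal (nrm M ρ G y) ∂μ ≠ ⊤ := by
  have := ChartedSpace.locallyCompactSpace (Cm d) X
  obtain ⟨V, hV, t, ht, h2⟩ := low
  obtain ⟨K, hK, hKs, hKc⟩ := local_compact_nhds (inter_mem (hU.mem_nhds hx) hV)
  have hm := (isOpen_interior (s := K).inter hO).measurableSet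
  have c : ContinuousOn (fun y => 2 * nrm M ρ s y) K :=
    continuousOn_const.mul ((hs.smOn hρ hU).cont.mono fun _ h => (hKs h).1)
  have sb : interior K ∩ O ⊆ K := fun _ h => interior_subset h.1
  have m0 : ENNReal.ofReal t ≠ 0 := (ENNReal.ofReal_pos.2 ht).ne'
  have m1 : 2 * (ENNReal.ofReal t)⁻¹ ≠ ⊤ :=
    ENNReal.mul_ne_top ENNReal.ofNat_ne_top (ENNReal.inv_ne_top.2 m0)
  refine ⟨interior K, interior_mem_nhds.2 hK, ne_top_of_le_ne_top (ENNReal.add_ne_top.2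
    ⟨lint_cpt hμ hh hKc hm sb c, ENNReal.mul_ne_top m1 hR⟩) (le_trans (setLIntegral_mono'
      (g := fun y => ENNReal.ofReal (2 * nrm M ρ s y) + 2 * (ENNReal.ofReal t)⁻¹ *
        (ENNReal.ofReal (nrm M ρ (fun i y => G i y - s i y) y) * W y)) hm fun y hy => ?_) ?_)⟩
  · have e1 := nrm_add_le M ρ (fun i y => G i y - s i y) s y
    simp only [sub_add_cancel] at e1
    refine (ENNReal.ofReal_le_ofReal e1).trans (ENNReal.ofReal_add_le.trans ?_)
    rw [add_comm, ENNReal.ofReal_mul zero_le_two (q := nrm M ρ (fun i y => G i y - s i y) y),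
      ENNReal.ofReal_ofNat, mul_assoc]
    gcongr
    rw [mul_left_comm]
    refine le_mul_of_one_le_right' ?_
    rw [← ENNReal.inv_mul_cancel m0 ENNReal.ofReal_ne_top]
    gcongr
    exact h2 y (hKs (sb hy)).2
  · rw [lintegral_add_left' ((c.mono sb).aemeasurable hm).ennreal_ofReal,
      lintegral_const_mul' _ _ m1]
    gcongr
    exact inter_subset_right

/-- the estimate on a set where there is a section `r` of a sufficiently positive line bundle -/
theorem step (hh : IsHermitian h) (hμ : IsVol h μ) (H : Exh d U φ) {w : Fm d X} (hw : KahOn U w)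
    (hρ : IsMetric M ρ) (hc : ∀ j, 0 ≤ c j) (hσ : IsMetric L σ) (hr : SecOn L U r)
    (hr0 : ∀ x ∈ U, ∃ᶠ y in 𝓝 x, nrm L σ r y ≠ 0) (hp : PSDOn U (curvature L σ))
    (hpj : ∀ j, PSDOn U fun e z => curvature (S j).L (S j).ρ e z + curvature L σ e z)
    {C : ℝ} (hC : ∀ x ∈ U, nrm L σ r x ≤ C) (hΨ : SmOn (d := d) U Ψ)
    (hP : PSDOn U fun e z => curvature M ρ e z - kc h e z - sc S c e z + ddc Ψ e z)
    (hs : ScOn M U s) (ha : ContinuousOn a U) (ha0 : ∀ x ∈ U, 0 ≤ a x)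
    (hd : DbarOn U M ρ s a fun e z => curvature M ρ e z - kc h e z - sc S c e z + ddc Ψ e z)
    {R : ℝ≥0∞} (hR : R ≠ ⊤)
    (hle : ∫⁻ x in U, ENNReal.ofReal (a x) * (ENNReal.ofReal (Real.exp (-Ψ x)) * sw S c x) ∂μ ≤ R) :
    ∃ G, SecOn M U G ∧ ∫⁻ x in U, ENNReal.ofReal (nrm M ρ (fun i y => G i y - s i y) x) *
      (ENNReal.ofReal (Real.exp (-Ψ x)) * sw S c x) ∂μ ≤ R := by
  have H' := exh_ne H hσ hr hp hC
  obtain ⟨ae, ext⟩ := riem d X h μ hh hμ U H.isOpen H.sigma ι L σ r hσ hr hr0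
  set O := {x | x ∈ U ∧ nrm L σ r x ≠ 0}
  have sb : O ⊆ U := fun _ h => h.1
  have h2 : SmOn (d := d) O fun x => Real.log (nrm L σ r x) :=
    ((hr.toSc.smOn hσ H.isOpen).mono sb).comp fun x hx => Real.contDiffAt_log.2 hx.2
  have h3 : ∀ k : ℕ, SmOn (d := d) O fun x => -(k : ℝ) - Real.log (nrm L σ r x) :=
    fun k => (smOn_const O _).sub h2
  obtain ⟨G, hG, h4⟩ := limit hh hμ H'.isOpen H'.sigma hρ (hs.res sb) (V := fun _ => O)
    (fun _ => H'.isOpen) (fun _ => subset_rfl)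
    (fun x hx => ⟨O, H'.isOpen.mem_nhds hx, Eventually.of_forall fun _ => subset_rfl⟩)
    (W := fun k x => ENNReal.ofReal
      (Real.exp (-wt S c Ψ (fun x => -(k : ℝ) - Real.log (nrm L σ r x)) x)))
    (fun k => ((wt_sm (hΨ.mono sb) (h3 k)).cont.neg.rexp.aemeasurable
      H'.isOpen.measurableSet).ennreal_ofReal)
    (fun x _ => wt_lim hc (tendsto_atBot_add_const_right _ _
      (tendsto_neg_atTop_atBot.comp tendsto_natCast_atTop_atTop)))
    (fun x hx => (low_wt (S := S) (c := c) (hΨ.mono sb) (h3 0) hx).imp fun V hV =>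
      ⟨hV.1, hV.2.imp fun t ht => ⟨ht.1, fun k y hy => ENNReal.ofReal_le_ofReal ((ht.2 y hy).trans
        (Real.exp_le_exp.2 (neg_le_neg (wt_mono hc (by simp)))))⟩⟩) hR fun k => by
      have h5 := wt_psd hc (hΨ.mono sb) (h3 k) (fun j e x hx hm => by
        beta_reduce
        rw [ddc_sub_on (smOn_const O _) h2 hx hm, ddc_log_nrm hσ H.isOpen hr hx hm.1 hm.2,
          show ddc (fun _ : X => -(k : ℝ)) e (e x) = 0 from C2.cHess_const _, zero_sub, neg_neg]
        exact hpj j e x hx hm.1) fun e z => curvature M ρ e z - kc h e z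
      obtain ⟨G, hG, h6⟩ := horm d X h μ hh hμ O ⟨⟨_, H'⟩, w, hw.mono sb⟩ κ M ρ hρ _
        (wt_sm (hΨ.mono sb) (h3 k)) (fun e x hx hm => by
          simpa only [sub_add_cancel] using (h5 e x hx hm).add (hP e x hx hm.1)) s (hs.res sb) a
        (ha.mono sb) (fun x hx => ha0 x hx.1) ((hd.mono sb).le (fun x hx => ha0 x hx.1) h5)
      simp only [fun s x t => ENNReal.ofReal_mul (q := t) (nrm_nonneg' M ρ s x)] at h6
      refine ⟨G, hG, h6.trans (le_trans (setLIntegral_mono' H'.isOpen.measurableSet fun x hx => ?_)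
        ((lintegral_mono_set sb).trans hle))⟩
      rw [ENNReal.ofReal_mul (ha0 x hx.1)]
      exact mul_le_mul_right (wt_le hc) _
  obtain ⟨F, hF, h5⟩ := ext κ M ρ hρ G hG fun x hx => loc_fin hh hμ H.isOpen H'.isOpen hρ hs hx
    ((low_wt (S := S) (c := c) hΨ (smOn_const U 0) hx).imp fun V hV => ⟨hV.1,
      hV.2.imp fun t ht => ⟨ht.1, fun y hy =>
        (ENNReal.ofReal_le_ofReal (ht.2 y hy)).trans (wt_le hc)⟩⟩) (ne_top_of_le_ne_top hR h4)
  refine ⟨F, hF, le_trans (le_of_eq ?_) h4⟩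
  have e1 : μ.restrict U = μ.restrict O := by
    rw [← Measure.restrict_eq_self_of_ae_mem (μ := μ.restrict U) (s := O)
      (((ae_restrict_mem H.isOpen.measurableSet).and ae).mono fun _ h => h),
      Measure.restrict_restrict H'.isOpen.measurableSet, inter_eq_left.2 sb]
  rw [e1]
  refine setLIntegral_congr_fun H'.isOpen.measurableSet fun x hx => ?_
  unfold nrm
  beta_reduce
  rw [h5 _ x (M.cover x).choose_spec hx.1 hx.2]

end Sing

open Sing

/-- **(SING)** -/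
theorem sing : SingStmt := by
  intro d X _ _ _ _ _ _ h μ hh hμ Ω ψ H η A σ hσ hA κ M ρ hρ m S c hc Ψ hΨ hP s hs a ha ha0 hd
  have hm := H.isOpen.measurableSet
  have c1 : ContinuousOn (fun x => Real.exp (-Ψ x)) Ω := hΨ.cont.neg.rexp
  have e1 : ∀ f : X → ℝ, ContinuousOn f Ω → (∀ x ∈ Ω, 0 ≤ f x) →
      ∫⁻ x in Ω, ENNReal.ofReal (f x * Real.exp (-Ψ x)) ∂μ.withDensity (sw S c) =
      ∫⁻ x in Ω, ENNReal.ofReal (f x) * (ENNReal.ofReal (Real.exp (-Ψ x)) * sw S c x) ∂μ :=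
    fun f hf h0 => by
      rw [restrict_withDensity hm]
      refine (lintegral_withDensity_eq_lintegral_mul₀ (measurable_sw S c).aemeasurable
        ((hf.mul c1).aemeasurable hm).ennreal_ofReal).trans
        (setLIntegral_congr_fun hm fun x hx => ?_)
      rw [Pi.mul_apply, Pi.mul_apply, ENNReal.ofReal_mul (h0 x hx), mul_comm, mul_assoc]
  rw [e1 a ha ha0]
  by_cases hR : ∫⁻ x in Ω, ENNReal.ofReal (a x) *
      (ENNReal.ofReal (Real.exp (-Ψ x)) * sw S c x) ∂μ = ⊤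
  · exact ⟨_, sec_zero M Ω, hR ▸ le_top⟩
  have hw := kahOn_curv hσ hA
  obtain ⟨G, hG, h1⟩ := limit hh hμ H.isOpen H.sigma hρ hs (fun k : ℕ => H.open_lt k)
    (fun _ _ h => h.1) H.ex (W := fun _ x => ENNReal.ofReal (Real.exp (-Ψ x)) * sw S c x)
    (fun k => ((c1.mono fun _ h => h.1).aemeasurable
      (H.open_lt k).measurableSet).ennreal_ofReal.mul (measurable_sw S c).aemeasurable)
    (fun _ _ => tendsto_const_nhds)
    (fun x hx => (low_wt (S := S) (c := c) hΨ (smOn_const Ω 0) hx).imp fun V hV => ⟨hV.1,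
      hV.2.imp fun t ht => ⟨ht.1, fun _ y hy =>
        (ENNReal.ofReal_le_ofReal (ht.2 y hy)).trans (wt_le hc)⟩⟩) hR fun n => by
      have sb : {x | x ∈ Ω ∧ ψ x < n} ⊆ Ω := fun _ h => h.1
      have sK : {x | x ∈ Ω ∧ ψ x < n} ⊆ {x | x ∈ Ω ∧ ψ x ≤ n} := fun _ h => ⟨h.1, h.2.le⟩
      have sK' : {x | x ∈ Ω ∧ ψ x ≤ n} ⊆ {x | x ∈ Ω ∧ ψ x < n + 1} :=
        fun _ h => ⟨h.1, h.2.trans_lt (lt_add_one _)⟩
      obtain ⟨k₀, hk₀⟩ := gg_of horm lim d X h μ hh hμ Ω ψ H η A σ hσ hA η A σ hσ (n + 1)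
      choose C _ hC using fun j =>
        exists_curv_on H.isOpen hw (S j).metric (H.cpt n) fun _ h => h.1
      obtain ⟨k, hk⟩ := ((eventually_ge_atTop k₀).and (eventually_all.2 fun j =>
        (tendsto_natCast_atTop_atTop (R := ℝ)).eventually_ge_atTop (C j))).exists
      have hB := isMetric_mulB hσ (isMetric_pow hσ k)
      obtain ⟨r, hr, hr0⟩ := gen d X _ _ (H.open_lt (n + 1)) (H.cpt n) sK' _ _ _ hB fun y hy =>
        hk₀ k hk.1 y hy.1 (sK' hy).2
      obtain ⟨B, hb⟩ := (H.cpt n).bddAbove_image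
        ((hr.toSc.smOn hB (H.open_lt (n + 1))).cont.mono sK')
      have e2 : ∀ e x, At e x → curvature (mulB A (powL A k)) (mulM σ (powM σ k)) e (e x) =
          curvature A σ e (e x) + ((k : ℝ) : ℂ) • curvature A σ e (e x) := fun e x hx =>
        (curvature_mulB hσ (isMetric_pow hσ k) e x hx).trans
          (congrArg _ (curvature_pow hσ k e x hx))
      refine step hh hμ (exh_sub H n) (hw.mono sb) hρ hc hB (hr.res (sK.trans sK'))
        (fun x hx => hr0 x (sK hx)) (fun e x hx hm => ?_) (fun j e x hx hm => ?_)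
        (fun x hx => hb ⟨x, sK hx, rfl⟩) (hΨ.mono sb) (hP.mono sb) (hs.res sb) (ha.mono sb)
        (fun x hx => ha0 x hx.1) (hd.mono sb) hR (lintegral_mono_set sb)
      · rw [e2 e x hx]
        exact (hA e x hx hm.1).posSemidef.add
          (P285Z.psd_smul (hA e x hx hm.1).posSemidef k.cast_nonneg)
      · beta_reduce
        rw [e2 e x hx, add_left_comm, add_comm (curvature (S j).L _ _ _)]
        exact (hA e x hx hm.1).posSemidef.add (hC j k (hk.2 j) e x hx (sK hm))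
  refine ⟨G, hG, le_trans (le_of_eq (e1 _ ?_ fun x _ => nrm_nonneg' _ _ _ x)) h1⟩
  exact ((hG.toSc.sub' hs).smOn hρ H.isOpen).cont

/-- **(NADEL)** -/
theorem nadel : NadelStmt := nadel_of sing

/-- **(PT)** -/
theorem pt : PtStmt := pt_of nadel

/-- **(EXT)** -/
theorem ext : ExtStmt := ext_of nadel

/-- **(JET)** -/
theorem jet : JetStmt := jet_of horm

/-- **(GG)** -/
theorem gg : GGStmt := gg_of horm lim

end Vale.Agent.P277Z.Van
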