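import Vale.Agent.P285Z.Alg

/-!
# P277Z, block VAN: definitions for the `L²` theory on an open subset `Ω` of a complex manifold
-/

open scoped Manifold ContDiff ComplexOrder Topology ENNReal Matrix
open MeasureTheory Filter Set

noncomputable section

namespace Vale.Agent.P277Z.Van

open Vale.Agent.P272.K Vale.Agent.P301.H599 Vale.Agent.P285Z
open Vale.Agent.P301.H98 (IsSection nrm)
open Vale.Agent.P301.H862 (IsSc powL)

variable {d : ℕ} {X : Type} [TopologicalSpace X] [ChartedSpace (Cm d) X] {ι κ : Type}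

/-- `u` is smooth on `Ω` -/
def SmOn (Ω : Set X) (u : X → ℝ) : Prop :=
  ∀ (e : Chart d X) x, At e x → x ∈ Ω → ContDiffAt ℝ ∞ (fun z => u (e.symm z)) (e x)

/-- the form `a` is semipositive on `Ω` -/
def PSDOn (Ω : Set X) (a : Fm d X) : Prop := ∀ e x, At e x → x ∈ Ω → (a e (e x)).PosSemidef

/-- the form `a` is positive on `Ω` -/
def PDOn (Ω : Set X) (a : Fm d X) : Prop := ∀ e x, At e x → x ∈ Ω → (a e (e x)).PosDef

/-- `w` is a Kähler metric on `Ω` -/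
structure KahOn (Ω : Set X) (w : Fm d X) : Prop where
  smooth : ∀ e x, At e x → x ∈ Ω → ∀ i j, ContDiffAt ℝ ∞ (fun z => w e z i j) (e x)
  posDef : PDOn Ω w
  change : ∀ e e' x, At e x → At e' x → x ∈ Ω →
    w e (e x) = (jacM e e' x).transpose * w e' (e' x) * (jacM e e' x).map (starRingEnd ℂ)
  closed : ∀ e x, At e x → x ∈ Ω → ∀ i j k,
    dz k (fun z => w e z i j) (e x) = dz i (fun z => w e z k j) (e x)

/-- `s` is a smooth section of `M` on `Ω` -/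
structure ScOn (M : LineBundle d X κ) (Ω : Set X) (s : κ → X → ℂ) : Prop where
  smooth : ∀ i (e : Chart d X) x, At e x → x ∈ M.U i → x ∈ Ω →
    ContDiffAt ℝ ∞ (fun z => s i (e.symm z)) (e x)
  change : ∀ i j x, x ∈ M.U i → x ∈ M.U j → x ∈ Ω → s i x = M.g i j x * s j x

/-- `s` is a holomorphic section of `M` on `Ω` -/
structure SecOn (M : LineBundle d X κ) (Ω : Set X) (s : κ → X → ℂ) : Prop where
  holo : ∀ i (e : Chart d X) x, At e x → x ∈ M.U i → x ∈ Ω →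
    AnalyticAt ℂ (fun z => s i (e.symm z)) (e x)
  change : ∀ i j x, x ∈ M.U i → x ∈ M.U j → x ∈ Ω → s i x = M.g i j x * s j x

variable (d) in
/-- `Ω` is open and `ψ` is a smooth plurisubharmonic exhaustion function of `Ω` -/
structure Exh (Ω : Set X) (ψ : X → ℝ) : Prop where
  isOpen : IsOpen Ω
  sm : SmOn (d := d) Ω ψ
  psh : PSDOn Ω (ddc (d := d) ψ)
  cpt : ∀ c : ℝ, IsCompact {x | x ∈ Ω ∧ ψ x ≤ c}

variable (d) in
/-- `Ω` is a weakly pseudoconvex open set which carries a Kähler metric -/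
def WK (Ω : Set X) : Prop := (∃ ψ, Exh d Ω ψ) ∧ ∃ w : Fm d X, KahOn Ω w

/-- `μ` is the volume measure of `h` -/
def IsVol [MeasurableSpace X] (h : Fm d X) (μ : Measure X) : Prop :=
  ∀ e ∈ atlas (Cm d) X, ∀ f : X → ℝ≥0∞, Measurable f → (∀ x, x ∉ e.source → f x = 0) →
    ∫⁻ x, f x ∂μ = ∫⁻ z in e.target, f (e.symm z) * ENNReal.ofReal (h e z).det.re

/-- `|∂̄ s|²_Θ ≤ a` on `Ω` -/
def DbarOn (Ω : Set X) (M : LineBundle d X κ) (ρ : κ → X → ℝ) (s : κ → X → ℂ) (a : X → ℝ)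
    (Θ : Fm d X) : Prop :=
  ∀ i (e : Chart d X) x, At e x → x ∈ M.U i → x ∈ Ω → ∀ v : Fin d → ℂ,
    ‖∑ b, dzb b (fun z => s i (e.symm z)) (e x) * v b‖ ^ 2 * Real.exp (-ρ i x) ≤
      a x * Qf (Θ e (e x)) v

/-- the `L²` estimate on `Ω` for `M`, the measure `μ` and the reference form `Θ` -/
def HormOn [MeasurableSpace X] (Ω : Set X) (μ : Measure X) (M : LineBundle d X κ)
    (ρ : κ → X → ℝ) (Θ : Fm d X) : Prop :=
  ∀ Ψ : X → ℝ, SmOn (d := d) Ω Ψ → (PSDOn Ω fun e z => Θ e z + ddc Ψ e z) →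
    ∀ s : κ → X → ℂ, ScOn M Ω s → ∀ a : X → ℝ, ContinuousOn a Ω → (∀ x ∈ Ω, 0 ≤ a x) →
      DbarOn Ω M ρ s a (fun e z => Θ e z + ddc Ψ e z) →
      ∃ G : κ → X → ℂ, SecOn M Ω G ∧
        ∫⁻ x in Ω, ENNReal.ofReal (nrm M ρ (fun i y => G i y - s i y) x * Real.exp (-Ψ x)) ∂μ ≤
          ∫⁻ x in Ω, ENNReal.ofReal (a x * Real.exp (-Ψ x)) ∂μ

/-- a line bundle with a metric and finitely many holomorphic sections -/
structure Sys (d : ℕ) (X : Type) [TopologicalSpace X] [ChartedSpace (Cm d) X] where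
  ι : Type
  L : LineBundle d X ι
  ρ : ι → X → ℝ
  n : ℕ
  σ : Fin n → ι → X → ℂ
  metric : IsMetric L ρ
  sec : ∀ a, IsSection L (σ a)

/-- `Σ |σ a|²` -/
def Sys.N (S : Sys d X) (x : X) : ℝ := sumN S.L S.ρ S.σ x

/-- the singular weight `Π (Σ_a |σ_{j,a}|²)^{-c_j}`, with the value `∞` on the common zeros -/
def sw {m : ℕ} (S : Fin m → Sys d X) (c : Fin m → ℝ) (x : X) : ℝ≥0∞ :=
  ∏ j, ENNReal.ofReal ((S j).N x) ^ (-c j)

/-- the form `Σ c_j curvature (L_j)` -/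
def sc {m : ℕ} (S : Fin m → Sys d X) (c : Fin m → ℝ) : Fm d X :=
  fun e z => ∑ j, (c j : ℂ) • curvature (S j).L (S j).ρ e z

/-- (HORM) the `L²` estimate for smooth weights -/
def HormStmt : Prop :=
  ∀ (d : ℕ) (X : Type) [TopologicalSpace X] [ChartedSpace (Cm d) X] [IsManifold 𝓘(ℂ, Cm d) ω X]
    [T2Space X] [MeasurableSpace X] [BorelSpace X] (h : Fm d X) (μ : Measure X),
    IsHermitian h → IsVol h μ → ∀ Ω : Set X, WK d Ω →
    ∀ (κ : Type) (M : LineBundle d X κ) (ρ : κ → X → ℝ), IsMetric M ρ →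
    HormOn Ω μ M ρ fun e z => curvature M ρ e z - kc h e z

/-- (LIM) Montel: sections which are defined and bounded in `L²` near the points of `Ω` -/
def LimStmt : Prop :=
  ∀ (d : ℕ) (X : Type) [TopologicalSpace X] [ChartedSpace (Cm d) X] [IsManifold 𝓘(ℂ, Cm d) ω X]
    [T2Space X] [MeasurableSpace X] [BorelSpace X] (h : Fm d X) (μ : Measure X),
    IsHermitian h → IsVol h μ → ∀ Ω : Set X, IsOpen Ω → IsSigmaCompact Ω →
    ∀ (κ : Type) (M : LineBundle d X κ) (ρ : κ → X → ℝ), IsMetric M ρ →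
    ∀ G : ℕ → κ → X → ℂ,
    (∀ x ∈ Ω, ∃ V : Set X, IsOpen V ∧ x ∈ V ∧ ∃ C : ℝ≥0∞, C ≠ ⊤ ∧ ∀ᶠ k in atTop,
      SecOn M V (G k) ∧ ∫⁻ y in V, ENNReal.ofReal (nrm M ρ (G k) y) ∂μ ≤ C) →
    ∃ G₀, SecOn M Ω G₀ ∧ ∃ n : ℕ → ℕ, StrictMono n ∧ ∀ K : Set X, IsCompact K → K ⊆ Ω →
      ∀ ε : ℝ, 0 < ε → ∀ᶠ k in atTop, ∀ x ∈ K, nrm M ρ (fun i y => G (n k) i y - G₀ i y) x ≤ ε

/-- (RIEM) the zero set of a section `r` which is not zero near any point of `Ω` is null, and a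
section on `Ω - {r = 0}` which is square integrable near the points of `Ω` extends to `Ω` -/
def RiemStmt : Prop :=
  ∀ (d : ℕ) (X : Type) [TopologicalSpace X] [ChartedSpace (Cm d) X] [IsManifold 𝓘(ℂ, Cm d) ω X]
    [T2Space X] [MeasurableSpace X] [BorelSpace X] (h : Fm d X) (μ : Measure X),
    IsHermitian h → IsVol h μ → ∀ Ω : Set X, IsOpen Ω → IsSigmaCompact Ω →
    ∀ (ι : Type) (L : LineBundle d X ι) (σ : ι → X → ℝ) (r : ι → X → ℂ), IsMetric L σ →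
    SecOn L Ω r → (∀ x ∈ Ω, ∃ᶠ y in 𝓝 x, nrm L σ r y ≠ 0) →
    (∀ᵐ x ∂(μ.restrict Ω), nrm L σ r x ≠ 0) ∧
    ∀ (κ : Type) (M : LineBundle d X κ) (ρ : κ → X → ℝ), IsMetric M ρ →
    ∀ G : κ → X → ℂ, SecOn M {x | x ∈ Ω ∧ nrm L σ r x ≠ 0} G →
    (∀ x ∈ Ω, ∃ V ∈ 𝓝 x, ∫⁻ y in V ∩ {x | x ∈ Ω ∧ nrm L σ r x ≠ 0},
      ENNReal.ofReal (nrm M ρ G y) ∂μ ≠ ⊤) →
    ∃ F, SecOn M Ω F ∧ ∀ i x, x ∈ M.U i → x ∈ Ω → nrm L σ r x ≠ 0 → F i x = G i x

/-- (GG) sections of `M + k A` on `{ψ < c}` which do not vanish at a given point -/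
def GGStmt : Prop :=
  ∀ (d : ℕ) (X : Type) [TopologicalSpace X] [ChartedSpace (Cm d) X] [IsManifold 𝓘(ℂ, Cm d) ω X]
    [T2Space X] [MeasurableSpace X] [BorelSpace X] (h : Fm d X) (μ : Measure X),
    IsHermitian h → IsVol h μ → ∀ (Ω : Set X) (ψ : X → ℝ), Exh d Ω ψ →
    ∀ (η : Type) (A : LineBundle d X η) (σ : η → X → ℝ), IsMetric A σ → PDOn Ω (curvature A σ) →
    ∀ (κ : Type) (M : LineBundle d X κ) (ρ : κ → X → ℝ), IsMetric M ρ → ∀ c : ℝ,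
    ∃ k₀ : ℕ, ∀ k ≥ k₀, ∀ y ∈ Ω, ψ y < c → ∃ F, SecOn (mulB M (powL A k)) {x | x ∈ Ω ∧ ψ x < c} F ∧
      nrm (mulB M (powL A k)) (mulM ρ (powM σ k)) F y ≠ 0

/-- (GEN) a generic combination of sections without common zero is not zero near any point -/
def GenStmt : Prop :=
  ∀ (d : ℕ) (X : Type) [TopologicalSpace X] [ChartedSpace (Cm d) X] [IsManifold 𝓘(ℂ, Cm d) ω X]
    [T2Space X] (Ω K : Set X), IsOpen Ω → IsCompact K → K ⊆ Ω →
    ∀ (κ : Type) (M : LineBundle d X κ) (ρ : κ → X → ℝ), IsMetric M ρ →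
    (∀ y ∈ K, ∃ F, SecOn M Ω F ∧ nrm M ρ F y ≠ 0) →
    ∃ r, SecOn M Ω r ∧ ∀ x ∈ K, ∃ᶠ y in 𝓝 x, nrm M ρ r y ≠ 0

/-- (SING) the `L²` estimate for singular weights, if there is a positive line bundle on `Ω` -/
def SingStmt : Prop :=
  ∀ (d : ℕ) (X : Type) [TopologicalSpace X] [ChartedSpace (Cm d) X] [IsManifold 𝓘(ℂ, Cm d) ω X]
    [T2Space X] [MeasurableSpace X] [BorelSpace X] (h : Fm d X) (μ : Measure X),
    IsHermitian h → IsVol h μ → ∀ (Ω : Set X) (ψ : X → ℝ), Exh d Ω ψ →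
    ∀ (η : Type) (A : LineBundle d X η) (σ : η → X → ℝ), IsMetric A σ → PDOn Ω (curvature A σ) →
    ∀ (κ : Type) (M : LineBundle d X κ) (ρ : κ → X → ℝ), IsMetric M ρ →
    ∀ (m : ℕ) (S : Fin m → Sys d X) (c : Fin m → ℝ), (∀ j, 0 ≤ c j) →
    HormOn Ω (μ.withDensity (sw S c)) M ρ fun e z => curvature M ρ e z - kc h e z - sc S c e z

/-- (VOL) Hermitian metrics, volume measures and metrics on line bundles exist -/
def VolStmt : Prop :=
  ∀ (d : ℕ) (X : Type) [TopologicalSpace X] [ChartedSpace (Cm d) X] [IsManifold 𝓘(ℂ, Cm d) ω X]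
    [T2Space X] [SigmaCompactSpace X] [MeasurableSpace X] [BorelSpace X],
    (∃ h : Fm d X, IsHermitian h) ∧ (∀ h : Fm d X, IsHermitian h → ∃ μ : Measure X, IsVol h μ) ∧
      ∀ (κ : Type) (M : LineBundle d X κ), ∃ ρ, IsMetric M ρ

end Vale.Agent.P277Z.Van
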