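import Vale.Agent.P277Z.Van.Sk
import Vale.Agent.P285Z.Chain

/-!
# P277Z, block VAN: comparison of forms on compact sets
-/

open scoped Manifold ContDiff ComplexOrder Topology ENNReal Matrix
open MeasureTheory Filter Set

noncomputable section

namespace Vale.Agent.P277Z.Van

open Vale.Agent.P272.K Vale.Agent.P301.H599 Vale.Agent.P285Z
open Vale.Agent.P301.H98 (IsSection nrm rform_curvature rform_ddc RForm)

variable {d : ℕ} {X : Type} [TopologicalSpace X] [ChartedSpace (Cm d) X] {ι : Type}
  {a b : Fm d X} {K : Set X}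

theorem CForm.add (ha : CForm a) (hb : CForm b) : CForm fun e z => a e z + b e z where
  cont e x hx i j := (ha.cont e x hx i j).add (hb.cont e x hx i j)
  herm e x hx := (ha.herm e x hx).add (hb.herm e x hx)
  form e e' x h h' := by
    show a e (e x) + b e (e x) = _ * (a e' (e' x) + b e' (e' x)) * _
    rw [ha.form e e' x h h', hb.form e e' x h h', Matrix.mul_add, Matrix.add_mul]

theorem CForm.smul (ha : CForm a) (t : ℝ) : CForm fun e z => (t : ℂ) • a e z where
  cont e x hx i j := continuousAt_const.mul (ha.cont e x hx i j)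
  herm e x hx := Ch.herm_smul t (ha.herm e x hx)
  form e e' x h h' := by
    show (t : ℂ) • a e (e x) = _ * ((t : ℂ) • a e' (e' x)) * _
    rw [ha.form e e' x h h', Matrix.mul_smul, Matrix.smul_mul]

theorem CForm.sub (ha : CForm a) (hb : CForm b) : CForm fun e z => a e z - b e z := by
  have h := ha.add (hb.smul (-1))
  simpa only [Complex.ofReal_neg, Complex.ofReal_one, neg_smul, one_smul, ← sub_eq_add_neg] using h

theorem cform_zero : CForm fun (_ : Chart d X) (_ : Cm d) => (0 : Matrix (Fin d) (Fin d) ℂ) where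
  cont _ _ _ _ _ := continuousAt_const
  herm _ _ _ := Matrix.isHermitian_zero
  form _ _ _ _ _ := by simp

theorem CForm.sum {α : Type} (s : Finset α) {a : α → Fm d X} (h : ∀ j, CForm (a j)) :
    CForm fun e z => ∑ j ∈ s, a j e z := by
  classical
  induction s using Finset.induction_on with
  | empty => simpa using cform_zero
  | insert j s hj ih =>
    simp only [Finset.sum_insert hj]
    exact (h j).add ih

theorem cform_of_rform (h : RForm a) : CForm a :=
  ⟨fun e x hx i j => (h.closed.smooth e x hx i j).continuousAt, h.herm, h.closed.form⟩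

theorem cform_herm (h : IsHermitian a) : CForm a :=
  ⟨fun e x hx i j => (h.smooth e x hx i j).continuousAt,
    fun e x hx => (h.posDef e x hx).isHermitian, h.change⟩

variable [IsManifold 𝓘(ℂ, Cm d) ω X]

theorem cform_curv {L : LineBundle d X ι} {σ : ι → X → ℝ} (h : IsMetric L σ) :
    CForm (curvature L σ) := cform_of_rform (rform_curvature h)

theorem cform_ddc {u : X → ℝ} (h : Smooth (d := d) u) : CForm (ddc (d := d) u) :=
  cform_of_rform (rform_ddc h)

omit [IsManifold 𝓘(ℂ, Cm d) ω X] in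
theorem CForm.congr (ha : CForm a) (h : FEq a b) : CForm b where
  cont e x hx i j := by
    refine (ha.cont e x hx i j).congr ?_
    filter_upwards [hx.nhds_target] with z hz
    have := h e (e.symm z) (At.of_target hx.1 hz)
    rw [e.right_inv hz] at this
    rw [this]
  herm e x hx := h e x hx ▸ ha.herm e x hx
  form e e' x h1 h2 := by
    rw [← h e x h1, ← h e' x h2]
    exact ha.form e e' x h1 h2

theorem cform_kc {w : Fm d X} (hw : IsHermitian w) : CForm (kc w) :=
  (cform_curv (isMetric_canB hw)).congr (curvature_canB hw)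

theorem cform_sc {m : ℕ} (S : Fin m → Sys d X) (c : Fin m → ℝ) : CForm (sc S c) :=
  CForm.sum _ fun j => (cform_curv (S j).metric).smul (c j)

omit [IsManifold 𝓘(ℂ, Cm d) ω X] in
/-- `b ≤ C a` on the compact set `K` -/
theorem cmp [T2Space X] (ha : CForm a) (hb : CForm b) (hK : IsCompact K) (hp : PDOn K a) :
    ∃ C : ℝ, 0 < C ∧ PSDOn K fun e z => (C : ℂ) • a e z - b e z := by
  have hC : ∀ {C C' : ℝ} {M N : Matrix (Fin d) (Fin d) ℂ}, M.PosDef → C ≤ C' →
      ((C : ℂ) • M - N).PosSemidef → ((C' : ℂ) • M - N).PosSemidef := by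
    intro C C' M N hM hCC h
    have h3 : (C' : ℂ) • M - N = ((C : ℂ) • M - N) + ((C' - C : ℝ) : ℂ) • M := by
      push_cast
      rw [sub_smul]; abel
    rw [h3]
    exact h.add (psd_smul hM.posSemidef (sub_nonneg.2 hCC))
  have key : ∃ C : ℝ, 0 < C ∧ ∀ x ∈ K, x ∈ K → ∀ e, At e x →
      ((C : ℂ) • a e (e x) - b e (e x)).PosSemidef := by
    refine hK.induction_on (p := fun s => ∃ C : ℝ, 0 < C ∧ ∀ x ∈ s, x ∈ K → ∀ e, At e x →
      ((C : ℂ) • a e (e x) - b e (e x)).PosSemidef) ⟨1, one_pos, fun x hx => hx.elim⟩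
      (fun s t hst ⟨C, hC0, hCt⟩ => ⟨C, hC0, fun x hx => hCt x (hst hx)⟩) ?_ ?_
    · rintro s t ⟨C, hC0, hCs⟩ ⟨C', hC0', hCt⟩
      refine ⟨max C C', lt_max_of_lt_left hC0, ?_⟩
      rintro x (hx | hx) hk e hex
      · exact hC (hp e x hex hk) (le_max_left _ _) (hCs x hx hk e hex)
      · exact hC (hp e x hex hk) (le_max_right _ _) (hCt x hx hk e hex)
    · intro x _
      set c := chartAt (Cm d) x with hc
      have hAt : At c x := atChart x
      obtain ⟨r, hr, hball⟩ := Metric.nhds_basis_closedBall.mem_iff.1 hAt.nhds_target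
      have hcl : IsCompact (Metric.closedBall (c x) r ∩ c.symm ⁻¹' K) :=
        (isCompact_closedBall _ _).of_isClosed_subset ((c.continuousOn_symm.mono
          hball).preimage_isClosed_of_isClosed Metric.isClosed_closedBall hK.isClosed)
          inter_subset_left
      have hat : ∀ z ∈ Metric.closedBall (c x) r ∩ c.symm ⁻¹' K, At c (c.symm z) :=
        fun z hz => At.of_target hAt.1 (hball hz.1)
      have hct : ∀ {g : Fm d X}, CForm g → ∀ i j,
          ContinuousOn (fun z => g c z i j) (Metric.closedBall (c x) r ∩ c.symm ⁻¹' K) :=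
        fun hg i j z hz => by
          have h1 := hg.cont c _ (hat z hz) i j
          rw [c.right_inv (hball hz.1)] at h1
          exact h1.continuousWithinAt
      obtain ⟨C, hC0, hCK⟩ := exists_quad_lower hcl (fun z => a c z) (fun z => b c z) (hct ha)
        (hct hb) fun z hz => by
          have h1 := hp c _ (hat z hz) hz.2
          rwa [c.right_inv (hball hz.1)] at h1
      refine ⟨c.source ∩ c ⁻¹' Metric.closedBall (c x) r, mem_nhdsWithin_of_mem_nhds
        (inter_mem (c.open_source.mem_nhds hAt.2) ((c.continuousAt hAt.2).preimage_mem_nhds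
          (Metric.closedBall_mem_nhds _ hr))), C, hC0, ?_⟩
      rintro y ⟨hy1, hy2⟩ hk e hey
      have hcy : At c y := ⟨hAt.1, hy1⟩
      have h0 := (ha.smul C).sub hb
      have h1 : ((C : ℂ) • a c (c y) - b c (c y)).PosSemidef := by
        refine posSemidef_of_quad (h0.herm c y hcy) fun ξ => ?_
        have h2 := hCK (c y) ⟨hy2, by rwa [mem_preimage, hcy.left_inv]⟩ ξ
        have h3 : quad ((C : ℂ) • a c (c y) - b c (c y)) ξ =
            (C : ℂ) * quad (a c (c y)) ξ - quad (b c (c y)) ξ := by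
          unfold quad
          rw [Finset.mul_sum, ← Finset.sum_sub_distrib]
          refine Finset.sum_congr rfl fun i _ => ?_
          rw [Finset.mul_sum, ← Finset.sum_sub_distrib]
          refine Finset.sum_congr rfl fun j _ => ?_
          simp only [Matrix.sub_apply, Matrix.smul_apply, smul_eq_mul]
          ring
        rw [h3, Complex.sub_re, Complex.re_ofReal_mul]
        linarith
      have h2 := h0.form e c y hey hcy
      exact h2 ▸ posSemidef_form h1 _
  obtain ⟨C, hC0, H⟩ := key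
  exact ⟨C, hC0, fun e x hx hk => H x hk hk e hx⟩

/-- `|∂̄u|² ≤ C a` on the compact set `K` -/
theorem exists_Dv_le [T2Space X] (ha : CForm a) (hK : IsCompact K) (hp : PDOn K a) {u : X → ℝ}
    (hu : Smooth (d := d) u) : ∃ C : ℝ, 0 < C ∧ ∀ e x, At e x → x ∈ K → ∀ v,
      ‖Ch.DvX u e x v‖ ^ 2 ≤ C * Qf (a e (e x)) v := by
  obtain ⟨C, hC, h⟩ := cmp ha ((cform_ddc hu).smul (-1)) hK hp
  obtain ⟨C', hC', h'⟩ := cmp ha
    (cform_ddc (Ch.sm_comp (h := fun t => Real.exp t) Real.contDiff_exp hu)) hK hp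
  obtain ⟨B, hB⟩ := hK.exists_bound_of_continuousOn
    (f := fun x => Real.exp (-u x)) (smooth_continuous hu).neg.rexp.continuousOn
  refine ⟨|B| * C' + C, by positivity, fun e x hx hk v => ?_⟩
  have h1 := Qf_nonneg (h e x hx hk) v
  have h2 := Qf_nonneg (h' e x hx hk) v
  have h3 := Qf_nonneg (hp e x hx hk).posSemidef v
  rw [Qf_sub, Qf_smul, Qf_smul] at h1
  rw [Qf_sub, Qf_smul, Ch.ddc_chain' (h := fun t => Real.exp t) (h₁ := Real.exp)
    (Eventually.of_forall Real.hasDerivAt_exp) (Real.hasDerivAt_exp _) hu hx, Qf_add, Qf_smul,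
    Qf_smul, Ch.Qf_gmX hu hx] at h2
  have h4 : Real.exp (-u x) ≤ |B| := (le_abs_self _).trans ((hB x hk).trans (le_abs_self B))
  have h5 := mul_nonneg (Real.exp_pos (-u x)).le h2
  have h6 : Real.exp (-u x) * Real.exp (u x) = 1 := by rw [← Real.exp_add]; simp
  have h7 := mul_le_mul_of_nonneg_right h4 (mul_nonneg hC'.le h3)
  have h8 : Real.exp (-u x) * (C' * Qf (a e (e x)) v - (Real.exp (u x) * Qf (ddc u e (e x)) v +
      Real.exp (u x) * ‖Ch.DvX u e x v‖ ^ 2)) = Real.exp (-u x) * (C' * Qf (a e (e x)) v) -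
      (Qf (ddc u e (e x)) v + ‖Ch.DvX u e x v‖ ^ 2) := by
    linear_combination (-(Qf (ddc u e (e x)) v + ‖Ch.DvX u e x v‖ ^ 2)) * h6
  rw [h8] at h5
  nlinarith

omit [IsManifold 𝓘(ℂ, Cm d) ω X] in
/-- positivity on a compact set is an open condition -/
theorem exists_pd_sub [T2Space X] (ha : CForm a) (hb : CForm b) (hK : IsCompact K)
    (hp : PDOn K a) : ∃ η₀ : ℝ, 0 < η₀ ∧ ∀ η : ℝ, 0 ≤ η → η ≤ η₀ →
      PDOn K fun e z => a e z - (η : ℂ) • b e z := by
  obtain ⟨C, hC, h⟩ := cmp ha hb hK hp
  refine ⟨1 / (2 * C), by positivity, fun η h0 h1 e x hx hk => ?_⟩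
  have h2 : 0 < 1 - η * C := by
    rw [le_div_iff₀ (by positivity)] at h1
    linarith
  have h3 := ((hp e x hx hk).smul (Complex.zero_lt_real.2 h2)).add_posSemidef
    (psd_smul (h e x hx hk) h0)
  convert h3 using 1
  push_cast
  module

end Vale.Agent.P277Z.Van
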