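import Vale.Agent.P277Z.Van.GGc
import Vale.Agent.P277Z.Van.Cmp
import Vale.Agent.P277Z.Pos.Jo

/-!
# P277Z, block VAN: sections of `M + k A` on `{ψ < c}` with prescribed jets (JET, GG)
-/

open scoped Manifold ContDiff ComplexOrder Topology ENNReal Matrix
open MeasureTheory Filter Set Metric Asymptotics

noncomputable section

namespace Vale.Agent.P277Z.Van

open Vale.Agent.P272.K Vale.Agent.P301.H599 Vale.Agent.P285Z Vale.Agent.P285Z.G1
open Vale.Agent.P301.H98 (nrm rform_curvature)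
open Vale.Agent.P301.H862 (IsSc powL)

/-- (JET) sections of `M + k A` on `{ψ < c}` with prescribed jets of order `< n` at `m` points -/
def JetStmt : Prop :=
  ∀ (d : ℕ) (X : Type) [TopologicalSpace X] [ChartedSpace (Cm d) X] [IsManifold 𝓘(ℂ, Cm d) ω X]
    [T2Space X] [MeasurableSpace X] [BorelSpace X] (h : Fm d X) (μ : Measure X),
    IsHermitian h → IsVol h μ → ∀ (Ω : Set X) (ψ : X → ℝ), Exh d Ω ψ →
    ∀ (η : Type) (A : LineBundle d X η) (σ : η → X → ℝ), IsMetric A σ → PDOn Ω (curvature A σ) →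
    ∀ (κ : Type) (M : LineBundle d X κ) (ρ : κ → X → ℝ), IsMetric M ρ → ∀ (c : ℝ) (m n : ℕ),
    ∃ k₀ : ℕ, ∀ k ≥ k₀, ∀ (y : Fin m → X) (W : Fin m → Set X) (f : Fin m → κ × η → X → ℂ),
      Function.Injective y → (∀ a, y a ∈ Ω ∧ ψ (y a) < c ∧ W a ∈ 𝓝 (y a) ∧
        SecOn (mulB M (powL A k)) (W a) (f a)) →
      ∃ F, SecOn (mulB M (powL A k)) {x | x ∈ Ω ∧ ψ x < c} F ∧
        ∀ a p (e : Chart d X), At e (y a) → y a ∈ (mulB M (powL A k)).U p →
          (fun x => F p x - f a p x) =O[𝓝 (y a)] fun x => ‖e x - e (y a)‖ ^ n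

namespace GG

variable {d : ℕ} {X : Type} [TopologicalSpace X] [ChartedSpace (Cm d) X] {κ : Type}
  {M : LineBundle d X κ} {ρ : κ → X → ℝ} {h om : Fm d X} {Ω K W : Set X} {u : X → ℝ} {r : ℝ}
  {f : κ → X → ℂ} {g g₁ : ℝ → ℝ}

/-- the local section `f`, cut off by `g(u)` -/
def cut (g : ℝ → ℝ) (u : X → ℝ) (f : κ → X → ℂ) : κ → X → ℂ := fun p x => (g (u x) : ℂ) * f p x

theorem cut_ev (hu : Smooth (d := d) u) (hr : 0 < r) (h0 : ∀ t, r / 2 ≤ t → g t = 0)
    {e : Chart d X} {x : X} (hx : At e x) (hux : ¬ u x < r) (p : κ) :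
    (fun z => cut g u f p (e.symm z)) =ᶠ[𝓝 (e x)] fun _ => 0 := by
  have h1 : ∀ᶠ z in 𝓝 (e x), r / 2 < u (e.symm z) := by
    refine (hu e x hx).continuousAt.eventually (lt_mem_nhds ?_)
    show r / 2 < u (e.symm (e x))
    rw [hx.left_inv]
    linarith
  filter_upwards [h1] with z hz
  simp [cut, h0 _ hz.le]

theorem isSc_cut (hg : ContDiff ℝ ∞ g) (hu : Smooth (d := d) u) (hr : 0 < r)
    (h0 : ∀ t, r / 2 ≤ t → g t = 0) (hf : SecOn M W f) (hU : ∀ x, u x < r → x ∈ W) :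
    IsSc M (cut g u f) where
  smooth p e x hx hp := by
    by_cases hux : u x < r
    · exact (C2.contDiffAt_ofReal (Ch.sm_comp hg hu e x hx)).mul
        (((hf.holo p e x hx hp (hU x hux)).contDiffAt (n := ∞)).restrict_scalars ℝ)
    · exact contDiffAt_const.congr_of_eventuallyEq (cut_ev hu hr h0 hx hux p)
  change p q x hp hq := by
    by_cases hux : u x < r
    · unfold cut
      rw [hf.change p q x hp hq (hU x hux)]
      ring
    · simp [cut, h0 (u x) (by linarith)]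

theorem dbar_cut (hρ : IsMetric M ρ) (hg : ∀ t, HasDerivAt g (g₁ t) t) (hg₁ : ContDiff ℝ ∞ g₁)
    (hr : 0 < r) (h0 : ∀ t, r / 2 ≤ t → g t = 0) (h1 : ∀ t, r / 2 ≤ t → g₁ t = 0)
    (hf : SecOn M W f) (hU : ∀ x, u x < r → x ∈ W) {C : ℝ} (hD : Dm K om) (hB : Bd K om C u)
    (hK : Ω ⊆ K) : DbarOn Ω M ρ (cut g u f) (fun x => C ^ 2 * nrm M ρ (cut g₁ u f) x) om := by
  intro p e x hx hp hxΩ v
  have hn := nrm_nonneg' M ρ (cut g₁ u f) x
  have h3 := hD.nn e x hx (hK hxΩ) v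
  by_cases hux : u x < r
  · have h2 := Ch.dzb_chain_mulX (F := f p) (hg (u x)) hB.sm hx (hf.holo p e x hx hp (hU x hux)) v
    have h4 := pow_le_pow_left₀ (norm_nonneg _) (hB.dv e x hx (hK hxΩ) v) 2
    rw [mul_pow, Real.sq_sqrt h3] at h4
    have h5 := mul_le_mul_of_nonneg_left h4 hn
    have h6 := nrm_eq_sc hρ (isSc_cut hg₁ hB.sm hr h1 hf hU) hp
    unfold cut at h5 h6 ⊢
    rw [h2, norm_mul, mul_pow]
    calc _ = nrm M ρ (fun p x => (g₁ (u x) : ℂ) * f p x) x * ‖Ch.DvX u e x v‖ ^ 2 := by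
          rw [h6]
          ring
      _ ≤ _ := h5.trans (le_of_eq (by ring))
  · have h2 : ∀ b, dzb b (fun z => cut g u f p (e.symm z)) (e x) = 0 := fun b => by
      rw [C2.dzb_congr b (cut_ev hB.sm hr h0 hx hux p), C2.dzb_const]
    simp only [h2, zero_mul, Finset.sum_const_zero, norm_zero]
    have h4 : 0 ≤ C ^ 2 * nrm M ρ (cut g₁ u f) x * Qf (om e (e x)) v := by positivity
    simpa using h4

variable [IsManifold 𝓘(ℂ, Cm d) ω X] [T2Space X]

omit [IsManifold 𝓘(ℂ, Cm d) ω X] in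
theorem abs_le_on {a b : Fm d X} (ha : CForm a) (hb : CForm b) (hK : IsCompact K) (hp : PDOn K a) :
    ∃ C : ℝ, 0 < C ∧ ∀ e x, At e x → x ∈ K → ∀ v, |Qf (b e (e x)) v| ≤ C * Qf (a e (e x)) v := by
  obtain ⟨C, hC, h1⟩ := cmp ha hb hK hp
  obtain ⟨C', hC', h2⟩ := cmp ha (hb.smul (-1)) hK hp
  refine ⟨C + C', by positivity, fun e x hx hk v => ?_⟩
  have h3 := Qf_nonneg (h1 e x hx hk) v
  have h4 := Qf_nonneg (h2 e x hx hk) v
  have h5 := Qf_nonneg (hp e x hx hk).posSemidef v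
  rw [Qf_sub, Qf_smul] at h3
  rw [Qf_sub, Qf_smul, Qf_smul] at h4
  exact abs_le.2 ⟨by nlinarith, by nlinarith⟩

theorem dm_of (ha : CForm om) (hK : IsCompact K) (hp : PDOn K om) : Dm K om :=
  ⟨hK, fun e x hx hk v => Qf_nonneg (hp e x hx hk).posSemidef v,
    fun _ hu => abs_le_on ha (cform_ddc hu) hK hp⟩

theorem wk_sub {ψ : X → ℝ} (H : Exh d Ω ψ) (hρ : IsMetric M ρ) (hp : PDOn Ω (curvature M ρ))
    (c : ℝ) : WK d {x | x ∈ Ω ∧ ψ x < c} :=
  ⟨⟨_, Pos.JoAux.exh_sub H.isOpen (fun y hy e he => ⟨H.sm e y he hy, H.psh e y he hy⟩) (H.cpt c)⟩,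
    curvature M ρ, fun e x hx _ => (rform_curvature hρ).closed.smooth e x hx,
    fun e x hx hy => hp e x hx hy.1,
    fun e e' x hx hx' _ => (rform_curvature hρ).closed.form e e' x hx hx',
    fun e x hx _ i j k => (rform_curvature hρ).closed.closed e x hx k i j⟩

omit [T2Space X] in
/-- the local section with the coefficient `g` in the frame `p₀` -/
theorem frame_sec {y : X} {p₀ : κ} (hp : y ∈ M.U p₀) {e : Chart d X} (hy : At e y) {g : X → ℂ}
    (hg : AnalyticAt ℂ (fun z => g (e.symm z)) (e y)) :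
    ∃ W ∈ 𝓝 y, SecOn M W (fun p x => M.g p p₀ x * g x) ∧ ∀ x ∈ W, M.g p₀ p₀ x = 1 := by
  refine ⟨{x | x ∈ M.U p₀ ∧ x ∈ e.source ∧ AnalyticAt ℂ (fun z => g (e.symm z)) (e x)},
    inter_mem ((M.isOpen p₀).mem_nhds hp) (inter_mem (e.open_source.mem_nhds hy.2)
      ((e.continuousAt hy.2).eventually hg.eventually_analyticAt)), ⟨fun p e' x hx h1 h2 =>
        (M.holo p p₀ e' x hx h1 h2.1).mul ?_, fun p q x h1 h2 h3 => by
          rw [← M.cocycle p q p₀ x h1 h2 h3.1, mul_assoc]⟩, fun x hx => ?_⟩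
  · have h3 : AnalyticAt ℂ (fun z => g (e.symm (e (e'.symm z)))) (e' x) :=
      AnalyticAt.comp (g := fun z => g (e.symm z)) (f := fun z => e (e'.symm z))
        (by simpa only [hx.left_inv] using h2.2.2) (transition hx ⟨hy.1, h2.2.1⟩).analyticAt
    refine h3.congr ?_
    filter_upwards [hx.nhds_at ⟨hy.1, h2.2.1⟩] with z hz
    rw [hz.2.2.left_inv]
  · have h1 := M.cocycle p₀ p₀ p₀ x hx.1 hx.1 hx.1
    exact mul_left_cancel₀ (M.ne_zero p₀ p₀ x hx.1 hx.1) (h1.trans (mul_one _).symm)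

variable [MeasurableSpace X] [BorelSpace X] {μ : Measure X}

theorem jets (h1 : HormStmt) (hh : IsHermitian h) (hμ : IsVol h μ) (hW : WK d Ω) (hK : Ω ⊆ K)
    (hD : Dm K om) (hρ : IsMetric M ρ) (n : ℕ) {ι : Type} [Fintype ι] {y : ι → X}
    {u : ι → X → ℝ} {C : ℝ} (hu : ∀ i, Pole K om C (y i) (u i))
    (hΘ : ∀ e x, At e x → x ∈ Ω → ∀ v, (1 + (d + n : ℕ) * (Fintype.card ι * C)) *
      Qf (om e (e x)) v ≤ Qf (curvature M ρ e (e x) - kc h e (e x)) v)
    (hy : Function.Injective y) {W : ι → Set X} {f : ι → κ → X → ℂ} (hWy : ∀ i, W i ∈ 𝓝 (y i))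
    (hf : ∀ i, SecOn M (W i) (f i)) :
    ∃ F, SecOn M Ω F ∧ ∀ i p (e : Chart d X), y i ∈ Ω → At e (y i) → y i ∈ M.U p →
      (fun x => F p x - f i p x) =O[𝓝 (y i)] fun x => ‖e x - e (y i)‖ ^ n := by
  classical
  have key : ∀ j, ∃ F, SecOn M Ω F ∧ ∀ i p (e : Chart d X), y i ∈ Ω → At e (y i) → y i ∈ M.U p →
      (fun x => F p x - if i = j then f i p x else 0) =O[𝓝 (y i)]
        fun x => ‖e x - e (y i)‖ ^ n := by
    intro j
    have hW' : W j ∩ (y '' {j}ᶜ)ᶜ ∈ 𝓝 (y j) := inter_mem (hWy j)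
      ((Set.toFinite _).isClosed.isOpen_compl.mem_nhds fun ⟨i, hi, e⟩ => hi (hy e))
    obtain ⟨w, r, hr, hw, -, hwy, hwr⟩ := exists_u (atChart (d := d) (y j)) hW'
    obtain ⟨C₂, -, hB⟩ := hD.bd hw
    have h0 : ∀ t, r / 2 ≤ t → hc r t = 0 := fun t ht => zeta_of_le (arg_le hr ht)
    have h0' : ∀ t, r / 2 ≤ t → hc' r t = 0 := fun t ht => by
      rw [hc', deriv_zeta_of_le (arg_le hr ht), zero_mul]
    have hU : ∀ x, w x < r → x ∈ W j := fun x hx => (hwr x hx).1.1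
    have hs := isSc_cut (hc_smooth r) hw hr h0 (hf j) hU
    have hs' := isSc_cut (hc'_smooth r) hw hr h0' (hf j) hU
    have hev : ∀ i, ∀ᶠ x in 𝓝 (y i), hc' r (w x) = 0 ∧
        ∀ p, cut (hc r) w (f j) p x = if i = j then f i p x else 0 := by
      intro i
      by_cases hij : i = j
      · subst hij
        filter_upwards [(smooth_continuous hw).continuousAt.eventually
          (gt_mem_nhds (show w (y i) < r / 4 by rw [hwy]; positivity))] with x hx
        simp [cut, hc, hc', zeta_of_ge (arg_ge hr hx.le), deriv_zeta_of_ge (arg_ge hr hx.le)]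
      · have h2 : ¬ w (y i) < r := fun h3 => (hwr _ h3).1.2 ⟨i, hij, rfl⟩
        filter_upwards [(smooth_continuous hw).continuousAt.eventually
          (lt_mem_nhds (show r / 2 < w (y i) by linarith))] with x hx
        simp [cut, h0 _ hx.le, h0' _ hx.le, hij]
    obtain ⟨F, hF, hO⟩ := core h1 hh hμ hW hK hD hρ n hu hΘ hs
      (continuous_const.mul (continuous_nrm hρ hs'))
      (fun x => mul_nonneg (sq_nonneg C₂) (nrm_nonneg' M ρ _ x))
      (fun i => (hev i).mono fun x hx => by simp [nrm, cut, hx.1])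
      (dbar_cut hρ (hc_deriv r) (hc'_smooth r) hr h0 h0' (hf j) hU hD hB hK) fun i => by
        refine ⟨_, inter_mem (hWy i) (hev i).eventually_nhds, fun p e x hx hp hx' => ?_,
          fun p q x hp hq _ => hs.change p q x hp hq⟩
        have h3 : ∀ᶠ z in 𝓝 (e x), cut (hc r) w (f j) p (e.symm z) =
            if i = j then f i p (e.symm z) else 0 :=
          (e.continuousAt_symm hx.mem_target).eventually
            (p := fun x => cut (hc r) w (f j) p x = if i = j then f i p x else 0) (by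
              rw [hx.left_inv]
              exact hx'.2.mono fun z hz => hz.2 p)
        refine AnalyticAt.congr ?_ (EventuallyEq.symm h3)
        split_ifs
        exacts [(hf i).holo p e x hx hp hx'.1, analyticAt_const]
    refine ⟨F, hF, fun i p e h2 h3 h4 => (hO i p e h2 h3 h4).congr' ?_ EventuallyEq.rfl⟩
    filter_upwards [hev i] with x hx
    rw [hx.2 p]
  choose F hF hO using key
  refine ⟨fun p x => ∑ j, F j p x, ⟨fun p e x hx hp hx' => Finset.analyticAt_fun_sum _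
    fun j _ => (hF j).holo p e x hx hp hx', fun p q x hp hq hx' => by
      rw [Finset.mul_sum]
      exact Finset.sum_congr rfl fun j _ => (hF j).change p q x hp hq hx'⟩,
    fun i p e h2 h3 h4 => (IsBigO.sum fun j (_ : j ∈ Finset.univ) => hO j i p e h2 h3 h4).congr_left
      fun x => by simp⟩

end GG

open GG

theorem jet_of (h1 : HormStmt) : JetStmt := by
  intro d X _ _ _ _ _ _ h μ hh hμ Ω ψ H η A σ hσ hA κ M ρ hρ c m n
  have hp : PDOn {x | x ∈ Ω ∧ ψ x ≤ c} (curvature A σ) := fun e x hx hk => hA e x hx hk.1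
  have hD := dm_of (cform_curv hσ) (H.cpt c) hp
  obtain ⟨C, hC, hP⟩ := exists_pole hD
  obtain ⟨C', hC', hM⟩ :=
    abs_le_on (cform_curv hσ) ((cform_curv hρ).sub (cform_kc hh)) (H.cpt c) hp
  refine ⟨⌈1 + (d + n : ℕ) * (m * C) + C'⌉₊, fun k hk y W f hy hf => ?_⟩
  have hk' : 1 + (d + n : ℕ) * (m * C) + C' ≤ k := (Nat.le_ceil _).trans (by exact_mod_cast hk)
  choose u hu using fun a => hP (y a) ⟨(hf a).1, (hf a).2.1.le⟩
  obtain ⟨F, hF, hO⟩ := jets h1 hh hμ (wk_sub H hσ hA c) (fun x hx => And.intro hx.1 hx.2.le) hD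
    (isMetric_mulB hρ (isMetric_pow hσ k)) n hu (fun e x hx hx' v => by
      have q1 := (abs_le.1 (hM e x hx ⟨hx'.1, hx'.2.le⟩ v)).1
      have q2 := mul_le_mul_of_nonneg_right hk' (hD.nn e x hx ⟨hx'.1, hx'.2.le⟩ v)
      rw [curvature_mulB hρ (isMetric_pow hσ k) e x hx, Qf_sub, Qf_add,
        curvature_pow hσ k e x hx, Qf_smul, Fintype.card_fin]
      rw [Qf_sub] at q1
      linarith) hy (fun a => (hf a).2.2.1) fun a => (hf a).2.2.2
  exact ⟨F, hF, fun a p e h2 h3 => hO a p e ⟨(hf a).1, (hf a).2.1⟩ h2 h3⟩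

theorem gg_of_jet (hJ : JetStmt) : GGStmt := by
  intro d X _ _ _ _ _ _ h μ hh hμ Ω ψ H η A σ hσ hA κ M ρ hρ c
  obtain ⟨k₀, hk₀⟩ := hJ d X h μ hh hμ Ω ψ H η A σ hσ hA κ M ρ hρ c 1 1
  refine ⟨k₀, fun k hk y hy hc => ?_⟩
  obtain ⟨p, hp⟩ := (mulB M (powL A k)).cover y
  have he := atChart (d := d) y
  obtain ⟨W, hW, hs, h1⟩ := frame_sec hp he (g := fun _ => 1) analyticAt_const
  obtain ⟨F, hF, hO⟩ := hk₀ k hk (fun _ => y) (fun _ => W) _ (Function.injective_of_subsingleton _)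
    fun _ => ⟨hy, hc, hW, hs⟩
  have h2 := (hO 0 p _ he hp).eq_zero_imp
  refine ⟨F, hF, (RiemH.nrm_ne (isMetric_mulB hρ (isMetric_pow hσ k)) hF hp ⟨hy, hc⟩).2
    fun h3 => ?_⟩
  simpa [h3, h1 y (mem_of_mem_nhds hW)] using h2.self_of_nhds

/-- (GG) -/
theorem gg_of (h1 : HormStmt) (_ : LimStmt) : GGStmt := gg_of_jet (jet_of h1)

end Vale.Agent.P277Z.Van
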