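import Vale.Agent.P277Z.Van.Defs
import Vale.Agent.P285Z.Lse

/-!
# P277Z, block VAN: basic facts, sublevel sets, limits
-/

open scoped Manifold ContDiff ComplexOrder Topology ENNReal Matrix ComplexConjugate
open MeasureTheory Filter Set

set_option linter.unusedSectionVars false

noncomputable section

namespace Vale.Agent.P277Z.Van

open Vale.Agent.P272.K Vale.Agent.P301.H599 Vale.Agent.P285Z Vale.Agent.P285Z.Ch
open Vale.Agent.P301.H98 (IsSection nrm nh)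
open Vale.Agent.P301.H862 (IsSc powL)

variable {d : ℕ} {X : Type} [TopologicalSpace X] [ChartedSpace (Cm d) X] {ι κ : Type}
  {Ω Ω' : Set X} {u v ψ : X → ℝ} {e e' : Chart d X} {x : X} {a b w h : Fm d X}
  {M : LineBundle d X κ} {ρ : κ → X → ℝ} {s t : κ → X → ℂ}
  {L : LineBundle d X ι} {σ : ι → X → ℝ} {r : ι → X → ℂ}

theorem ev_sym (hx : At e x) {P : X → Prop} (h : ∀ᶠ y in 𝓝 x, P y) :
    ∀ᶠ z in 𝓝 (e x), P (e.symm z) := by
  refine (e.continuousAt_symm hx.mem_target).eventually ?_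
  rwa [hx.left_inv]

theorem smOn_of (hu : Smooth (d := d) u) (Ω : Set X) : SmOn (d := d) Ω u :=
  fun e x hx _ => hu e x hx

theorem SmOn.mono (hu : SmOn (d := d) Ω u) (h : Ω' ⊆ Ω) : SmOn (d := d) Ω' u :=
  fun e x hx hΩ => hu e x hx (h hΩ)

theorem SmOn.add (hu : SmOn (d := d) Ω u) (hv : SmOn (d := d) Ω v) :
    SmOn (d := d) Ω fun x => u x + v x := fun e x hx hΩ => (hu e x hx hΩ).add (hv e x hx hΩ)

theorem SmOn.sub (hu : SmOn (d := d) Ω u) (hv : SmOn (d := d) Ω v) :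
    SmOn (d := d) Ω fun x => u x - v x := fun e x hx hΩ => (hu e x hx hΩ).sub (hv e x hx hΩ)

theorem SmOn.mul (hu : SmOn (d := d) Ω u) (hv : SmOn (d := d) Ω v) :
    SmOn (d := d) Ω fun x => u x * v x := fun e x hx hΩ => (hu e x hx hΩ).mul (hv e x hx hΩ)

theorem smOn_const (Ω : Set X) (c : ℝ) : SmOn (d := d) Ω fun _ => c :=
  fun _ _ _ _ => contDiffAt_const

theorem SmOn.comp (hu : SmOn (d := d) Ω u) {f : ℝ → ℝ} (hf : ∀ x ∈ Ω, ContDiffAt ℝ ∞ f (u x)) :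
    SmOn (d := d) Ω fun x => f (u x) := fun e x hx hΩ =>
  ContDiffAt.comp (e x) (by rw [hx.left_inv]; exact hf x hΩ) (hu e x hx hΩ)

theorem smOn_sum {α : Type} (S : Finset α) {f : α → X → ℝ} (hf : ∀ i ∈ S, SmOn (d := d) Ω (f i)) :
    SmOn (d := d) Ω fun x => ∑ i ∈ S, f i x := fun e x hx hΩ =>
  ContDiffAt.sum fun i hi => hf i hi e x hx hΩ

theorem SmOn.two (hu : SmOn (d := d) Ω u) (hx : At e x) (hΩ : x ∈ Ω) :
    ContDiffAt ℝ 2 (fun z => u (e.symm z)) (e x) := (hu e x hx hΩ).of_le (by norm_cast)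

theorem SmOn.contAt (hu : SmOn (d := d) Ω u) (hx : x ∈ Ω) : ContinuousAt u x := by
  have hc := atChart (d := d) x
  set e := chartAt (Cm d) x
  refine ((hu e x hc hx).continuousAt.comp (f := e) (e.continuousAt hc.2)).congr ?_
  filter_upwards [e.open_source.mem_nhds hc.2] with y hy
  exact congrArg u (e.left_inv hy)

theorem SmOn.cont (hu : SmOn (d := d) Ω u) : ContinuousOn u Ω :=
  fun _ hx => (hu.contAt hx).continuousWithinAt

theorem PSDOn.mono (ha : PSDOn Ω a) (h : Ω' ⊆ Ω) : PSDOn Ω' a := fun e x hx hΩ => ha e x hx (h hΩ)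

theorem PDOn.mono (ha : PDOn Ω a) (h : Ω' ⊆ Ω) : PDOn Ω' a := fun e x hx hΩ => ha e x hx (h hΩ)

theorem PDOn.psd (ha : PDOn Ω a) : PSDOn Ω a := fun e x hx hΩ => (ha e x hx hΩ).posSemidef

theorem KahOn.mono (hw : KahOn Ω w) (h : Ω' ⊆ Ω) : KahOn Ω' w :=
  ⟨fun e x hx hΩ => hw.smooth e x hx (h hΩ), hw.posDef.mono h,
    fun e e' x hx hx' hΩ => hw.change e e' x hx hx' (h hΩ), fun e x hx hΩ => hw.closed e x hx (h hΩ)⟩

theorem kahOn_of (hw : IsKahler w) (Ω : Set X) : KahOn Ω w :=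
  ⟨fun e x hx _ => hw.smooth e x hx, fun e x hx _ => hw.posDef e x hx,
    fun e e' x hx hx' _ => hw.change e e' x hx hx', fun e x hx _ => hw.closed e x hx⟩

theorem ScOn.res (hs : ScOn M Ω s) (h : Ω' ⊆ Ω) : ScOn M Ω' s :=
  ⟨fun i e x hx hi hΩ => hs.smooth i e x hx hi (h hΩ),
    fun i j x hi hj hΩ => hs.change i j x hi hj (h hΩ)⟩

theorem SecOn.res (hs : SecOn M Ω s) (h : Ω' ⊆ Ω) : SecOn M Ω' s :=
  ⟨fun i e x hx hi hΩ => hs.holo i e x hx hi (h hΩ),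
    fun i j x hi hj hΩ => hs.change i j x hi hj (h hΩ)⟩

theorem SecOn.toSc (hs : SecOn M Ω s) : ScOn M Ω s :=
  ⟨fun i e x hx hi hΩ => ((hs.holo i e x hx hi hΩ).contDiffAt (n := ∞)).restrict_scalars ℝ,
    hs.change⟩

theorem sec_of (hs : IsSection M s) (Ω : Set X) : SecOn M Ω s :=
  ⟨fun i e x hx hi _ => hs.holo i e x hx hi, fun i j x hi hj _ => hs.change i j x hi hj⟩

theorem scOn_of (hs : IsSc M s) (Ω : Set X) : ScOn M Ω s :=
  ⟨fun i e x hx hi _ => hs.smooth i e x hx hi, fun i j x hi hj _ => hs.change i j x hi hj⟩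

theorem SecOn.isSection (hs : SecOn M univ s) : IsSection M s :=
  ⟨fun i e x hx hi => hs.holo i e x hx hi trivial, fun i j x hi hj => hs.change i j x hi hj trivial⟩

theorem sec_zero (M : LineBundle d X κ) (Ω : Set X) : SecOn M Ω fun _ _ => 0 :=
  ⟨fun _ _ _ _ _ _ => analyticAt_const, fun _ _ _ _ _ _ => (mul_zero _).symm⟩

theorem ScOn.sub' (hs : ScOn M Ω s) (ht : ScOn M Ω t) : ScOn M Ω fun i x => s i x - t i x :=
  ⟨fun i e x hx hi hΩ => (hs.smooth i e x hx hi hΩ).sub (ht.smooth i e x hx hi hΩ),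
    fun i j x hi hj hΩ => by rw [hs.change i j x hi hj hΩ, ht.change i j x hi hj hΩ, mul_sub]⟩

theorem SecOn.sub' (hs : SecOn M Ω s) (ht : SecOn M Ω t) : SecOn M Ω fun i x => s i x - t i x :=
  ⟨fun i e x hx hi hΩ => (hs.holo i e x hx hi hΩ).sub (ht.holo i e x hx hi hΩ),
    (hs.toSc.sub' ht.toSc).change⟩

theorem SecOn.add (hs : SecOn M Ω s) (ht : SecOn M Ω t) : SecOn M Ω fun i x => s i x + t i x :=
  ⟨fun i e x hx hi hΩ => (hs.holo i e x hx hi hΩ).add (ht.holo i e x hx hi hΩ),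
    fun i j x hi hj hΩ => by rw [hs.change i j x hi hj hΩ, ht.change i j x hi hj hΩ, mul_add]⟩

theorem ScOn.mulS (hs : ScOn M Ω s) (hr : ScOn L Ω r) : ScOn (mulB M L) Ω (mulS s r) where
  smooth p e x hx hp hΩ := (hs.smooth p.1 e x hx hp.1 hΩ).mul (hr.smooth p.2 e x hx hp.2 hΩ)
  change p q x hp hq hΩ := by
    show s p.1 x * r p.2 x = M.g p.1 q.1 x * L.g p.2 q.2 x * (s q.1 x * r q.2 x)
    rw [hs.change p.1 q.1 x hp.1 hq.1 hΩ, hr.change p.2 q.2 x hp.2 hq.2 hΩ]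
    ring

theorem SecOn.mulS (hs : SecOn M Ω s) (hr : SecOn L Ω r) : SecOn (mulB M L) Ω (mulS s r) :=
  ⟨fun p e x hx hp hΩ => (hs.holo p.1 e x hx hp.1 hΩ).mul (hr.holo p.2 e x hx hp.2 hΩ),
    (hs.toSc.mulS hr.toSc).change⟩

theorem nrm_at (hρ : IsMetric M ρ)
    (hs : ∀ i j, x ∈ M.U i → x ∈ M.U j → s i x = M.g i j x * s j x) {i : κ} (hi : x ∈ M.U i) :
    nrm M ρ s x = ‖s i x‖ ^ 2 * Real.exp (-ρ i x) := by
  have hj := (M.cover x).choose_spec
  have hg := norm_pos_iff.2 (M.ne_zero i _ x hi hj)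
  unfold nrm
  rw [hs i _ hi hj, hρ.change i _ x hi hj, neg_add, Real.exp_add, Real.exp_neg (Real.log _),
    Real.exp_log (by positivity), norm_mul]
  field_simp

theorem ScOn.nrm_i (hs : ScOn M Ω s) (hρ : IsMetric M ρ) {i : κ} (hi : x ∈ M.U i) (hΩ : x ∈ Ω) :
    nrm M ρ s x = ‖s i x‖ ^ 2 * Real.exp (-ρ i x) :=
  nrm_at hρ (fun i j hi hj => hs.change i j x hi hj hΩ) hi

theorem ScOn.nrm_ev (hs : ScOn M Ω s) (hρ : IsMetric M ρ) (hO : IsOpen Ω) (hx : At e x) {i : κ}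
    (hi : x ∈ M.U i) (hΩ : x ∈ Ω) : (fun z => nrm M ρ s (e.symm z)) =ᶠ[𝓝 (e x)]
      nh (fun z => s i (e.symm z)) fun z => ρ i (e.symm z) :=
  (ev_sym hx (((M.isOpen i).inter hO).mem_nhds ⟨hi, hΩ⟩)).mono fun _ hz => hs.nrm_i hρ hz.1 hz.2

theorem ScOn.smOn (hs : ScOn M Ω s) (hρ : IsMetric M ρ) (hO : IsOpen Ω) :
    SmOn (d := d) Ω (nrm M ρ s) := fun e x hx hΩ => by
  obtain ⟨i, hi⟩ := M.cover x
  exact (((hs.smooth i e x hx hi hΩ).norm_sq ℝ).mul
    (hρ.smooth i e x hx hi).neg.exp).congr_of_eventuallyEq (hs.nrm_ev hρ hO hx hi hΩ)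

theorem nrm_mulS_on (hρ : IsMetric M ρ) (hσ : IsMetric L σ) (hs : ScOn M Ω s) (hr : ScOn L Ω r)
    (hΩ : x ∈ Ω) : nrm (mulB M L) (mulM ρ σ) (mulS s r) x = nrm M ρ s x * nrm L σ r x := by
  obtain ⟨i, hi⟩ := M.cover x
  obtain ⟨j, hj⟩ := L.cover x
  rw [(hs.mulS hr).nrm_i (isMetric_mulB hρ hσ) (i := (i, j)) ⟨hi, hj⟩ hΩ, hs.nrm_i hρ hi hΩ,
    hr.nrm_i hσ hj hΩ]
  show ‖s i x * r j x‖ ^ 2 * Real.exp (-(ρ i x + σ j x)) = _
  rw [norm_mul, neg_add, Real.exp_add]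
  ring

theorem DbarOn.mono {f : X → ℝ} (hd : DbarOn Ω M ρ s f a) (h : Ω' ⊆ Ω) : DbarOn Ω' M ρ s f a :=
  fun i e x hx hi hΩ => hd i e x hx hi (h hΩ)

theorem DbarOn.le {f : X → ℝ} (hd : DbarOn Ω M ρ s f a) (hf : ∀ x ∈ Ω, 0 ≤ f x)
    (h : PSDOn Ω fun e z => b e z - a e z) : DbarOn Ω M ρ s f b := fun i e x hx hi hΩ v =>
  (hd i e x hx hi hΩ v).trans (mul_le_mul_of_nonneg_left (Qf_mono (h e x hx hΩ) v) (hf x hΩ))

theorem ddc_add_on (hu : SmOn (d := d) Ω u) (hv : SmOn (d := d) Ω v) (hx : At e x) (hΩ : x ∈ Ω) :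
    ddc (fun y => u y + v y) e (e x) = ddc u e (e x) + ddc v e (e x) :=
  C2.cHess_add (hu.two hx hΩ) (hv.two hx hΩ)

theorem ddc_sub_on (hu : SmOn (d := d) Ω u) (hv : SmOn (d := d) Ω v) (hx : At e x) (hΩ : x ∈ Ω) :
    ddc (fun y => u y - v y) e (e x) = ddc u e (e x) - ddc v e (e x) :=
  C2.cHess_sub (hu.two hx hΩ) (hv.two hx hΩ)

theorem ddc_mul_on (c : ℝ) (hu : SmOn (d := d) Ω u) (hx : At e x) (hΩ : x ∈ Ω) :
    ddc (fun y => c * u y) e (e x) = (c : ℂ) • ddc u e (e x) :=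
  C2.cHess_const_mul c (hu.two hx hΩ)

theorem ddc_sum_on {α : Type} (S : Finset α) {f : α → X → ℝ}
    (hf : ∀ i ∈ S, SmOn (d := d) Ω (f i)) (hx : At e x) (hΩ : x ∈ Ω) :
    ddc (fun y => ∑ i ∈ S, f i y) e (e x) = ∑ i ∈ S, ddc (f i) e (e x) := by
  classical
  induction S using Finset.induction_on with
  | empty => exact C2.cHess_const 0
  | insert i S hi ih =>
    have h1 := fun j hj => hf j (Finset.mem_insert_of_mem hj)
    simp only [Finset.sum_insert hi]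
    rw [ddc_add_on (hf i (Finset.mem_insert_self _ _)) (smOn_sum S h1) hx hΩ, ih h1]

/-- a convex increasing function of a plurisubharmonic function -/
theorem ddc_chain (hu : SmOn (d := d) Ω u) (hx : At e x) (hΩ : x ∈ Ω) {f f₁ : ℝ → ℝ} {f₂ : ℝ}
    (H : ∀ᶠ s in 𝓝 (u x), HasDerivAt f (f₁ s) s) (H₁ : HasDerivAt f₁ f₂ (u x)) :
    ddc (fun y => f (u y)) e (e x) = (f₁ (u x) : ℂ) • ddc u e (e x) + (f₂ : ℂ) • gmX u e (e x) := by
  have := cHess_chain' (u := fun y => u (e.symm y)) (z := e x) (h := f) (h₁ := f₁) (h₂ := f₂)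
    (by simpa only [hx.left_inv] using H) (by simpa only [hx.left_inv] using H₁) (hu.two hx hΩ)
  simp only [hx.left_inv] at this
  exact this

theorem gm_on (hu : SmOn (d := d) Ω u) : PSDOn Ω (gmX (d := d) u) := fun _ _ hx hΩ =>
  gm_psd ((hu.two hx hΩ).differentiableAt (by norm_num))

theorem Exh.sigma (H : Exh d Ω ψ) : IsSigmaCompact Ω :=
  ⟨fun n => {x | x ∈ Ω ∧ ψ x ≤ n}, fun n => H.cpt n, by
    ext x
    exact ⟨fun hx => (mem_iUnion.1 hx).elim fun _ h => h.1, fun hx =>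
      mem_iUnion.2 ((exists_nat_ge (ψ x)).imp fun _ h => ⟨hx, h⟩)⟩⟩

theorem Exh.open_lt (H : Exh d Ω ψ) (c : ℝ) : IsOpen {x | x ∈ Ω ∧ ψ x < c} :=
  H.sm.cont.isOpen_inter_preimage H.isOpen isOpen_Iio

/-- sublevel sets -/
theorem exh_sub (H : Exh d Ω ψ) (c : ℝ) :
    Exh d {x | x ∈ Ω ∧ ψ x < c} fun x => -Real.log (c - ψ x) where
  isOpen := H.open_lt c
  sm := (H.sm.mono fun _ h => h.1).comp (f := fun t => -Real.log (c - t)) fun x hx =>
    ((contDiffAt_const.sub contDiffAt_id).log (sub_pos.2 hx.2).ne').neg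
  psh e x hx hΩ := by
    have p := sub_pos.2 hΩ.2
    rw [ddc_chain H.sm hx hΩ.1 (f := fun t => -Real.log (c - t)) (f₁ := fun t => (c - t)⁻¹)
      (f₂ := ((c - ψ x) ^ 2)⁻¹) ((gt_mem_nhds hΩ.2).mono fun t ht => by
        exact (((hasDerivAt_id t).const_sub c).log (sub_pos.2 ht).ne').neg.congr_deriv
          (by rw [neg_div, neg_neg, one_div]; rfl))
      ((((hasDerivAt_id (ψ x)).const_sub c).inv p.ne').congr_deriv
        (by rw [neg_neg, one_div]; rfl))]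
    exact (psd_smul (H.psh e x hx hΩ.1) (inv_pos.2 p).le).add
      (psd_smul (gm_on H.sm e x hx hΩ.1) (by positivity))
  cpt b := by
    refine (congrArg IsCompact ?_).mp (H.cpt (c - Real.exp (-b)))
    ext x
    have := Real.exp_pos (-b)
    refine ⟨fun h => ⟨⟨h.1, by linarith [h.2]⟩, ?_⟩, fun h => ⟨h.1.1, ?_⟩⟩
    · rw [neg_le, Real.le_log_iff_exp_le (by linarith [h.2])]
      linarith [h.2]
    · have h1 := h.2
      rw [neg_le, Real.le_log_iff_exp_le (sub_pos.2 h.1.2)] at h1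
      linarith

theorem WK.sub (H : Exh d Ω ψ) (hw : KahOn Ω w) (c : ℝ) : WK d {x | x ∈ Ω ∧ ψ x < c} :=
  ⟨⟨_, exh_sub H c⟩, w, hw.mono fun _ h => h.1⟩

variable [IsManifold 𝓘(ℂ, Cm d) ω X]

theorem ddc_change (hu : SmOn (d := d) Ω u) (hx : At e x) (hx' : At e' x) (hΩ : x ∈ Ω) :
    ddc u e (e x) =
      (jacM e e' x).transpose * ddc u e' (e' x) * (jacM e e' x).map (starRingEnd ℂ) := by
  have h1 : (fun y => u (e.symm y)) =ᶠ[𝓝 (e x)] fun y => u (e'.symm (e' (e.symm y))) := by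
    filter_upwards [hx.nhds_at hx'] with z hz
    rw [hz.2.2.left_inv]
  have h2 : e' (e.symm (e x)) = e' x := by rw [hx.left_inv]
  have := cHess_comp (τ := fun z => e' (e.symm z)) (f := fun y => u (e'.symm y)) (z := e x)
    (by rw [h2]; exact hu.two hx' hΩ) (transition hx hx')
  rw [h2] at this
  exact (C2.cHess_congr h1).trans this

theorem KahOn.add_ddc (hw : KahOn Ω w) (hu : SmOn (d := d) Ω u) (hp : PSDOn Ω (ddc (d := d) u)) :
    KahOn Ω fun e z => w e z + ddc u e z where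
  smooth e x hx hΩ i j := (hw.smooth e x hx hΩ i j).add (INT.smooth_cHess (hu e x hx hΩ) i j)
  posDef e x hx hΩ := (hw.posDef e x hx hΩ).add_posSemidef (hp e x hx hΩ)
  change e e' x hx hx' hΩ := by
    rw [Matrix.mul_add, Matrix.add_mul, ← hw.change e e' x hx hx' hΩ, ← ddc_change hu hx hx' hΩ]
  closed e x hx hΩ i j k := by
    have c := fun i j => (hw.smooth e x hx hΩ i j).differentiableAt (by simp)
    have c' := fun i j => (INT.smooth_cHess (hu e x hx hΩ) i j).differentiableAt (by simp)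
    exact (C2.dz_add k (c i j) (c' i j)).trans (Eq.trans (congrArg₂ (· + ·)
      (hw.closed e x hx hΩ i j k) (INT.cHess_closed (hu e x hx hΩ) k i j))
      (C2.dz_add i (c k j) (c' k j)).symm)

theorem kahOn_curv (hσ : IsMetric L σ) (hp : PDOn Ω (curvature L σ)) : KahOn Ω (curvature L σ) :=
  ⟨fun e x hx _ => (P301.H98.rform_curvature hσ).closed.smooth e x hx, hp,
    fun e e' x hx hx' _ => isForm_curvature hσ e e' x hx hx',
    fun e x hx _ i j k => (P301.H98.rform_curvature hσ).closed.closed e x hx k i j⟩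

theorem wk_of (H : Exh d Ω ψ) (hσ : IsMetric L σ) (hp : PDOn Ω (curvature L σ)) : WK d Ω :=
  ⟨⟨ψ, H⟩, _, kahOn_curv hσ hp⟩

theorem good_nrm (hρ : IsMetric M ρ) (hO : IsOpen Ω) (hs : SecOn M Ω s) (hx : At e x)
    (hΩ : x ∈ Ω) : Good (curvature M ρ e (e x)) (fun z => nrm M ρ s (e.symm z)) (e x) := by
  obtain ⟨i, hi⟩ := M.cover x
  rw [curvature_eq hρ hx hi]
  exact (good_nh (hs.holo i e x hx hi hΩ)
    ((hρ.smooth i e x hx hi).of_le (by norm_cast))).congr (hs.toSc.nrm_ev hρ hO hx hi hΩ)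

/-- `i∂∂̄ log |s|² = - curvature` where `s ≠ 0` -/
theorem ddc_log_nrm (hρ : IsMetric M ρ) (hO : IsOpen Ω) (hs : SecOn M Ω s) (hx : At e x)
    (hΩ : x ∈ Ω) (h0 : nrm M ρ s x ≠ 0) :
    ddc (fun y => Real.log (nrm M ρ s y)) e (e x) = -curvature M ρ e (e x) := by
  obtain ⟨i, hi⟩ := M.cover x
  have h1 : s i (e.symm (e x)) ≠ 0 := by
    rw [hx.left_inv]
    intro h
    exact h0 (by rw [hs.toSc.nrm_i hρ hi hΩ, h]; simp)
  have a1 := hs.holo i e x hx hi hΩ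
  have a2 : ContDiffAt ℝ 2 (fun z => ρ i (e.symm z)) (e x) :=
    (hρ.smooth i e x hx hi).of_le (by norm_cast)
  have e1 : (fun z => Real.log (nrm M ρ s (e.symm z))) =ᶠ[𝓝 (e x)]
      fun z => Real.log (‖s i (e.symm z)‖ ^ 2) - ρ i (e.symm z) := by
    filter_upwards [hs.toSc.nrm_ev hρ hO hx hi hΩ, a1.continuousAt.eventually_ne h1] with z h2 h3
    rw [h2, nh, Real.log_mul (pow_ne_zero 2 (norm_ne_zero_iff.2 h3)) (Real.exp_pos _).ne',
      Real.log_exp, sub_eq_add_neg]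
  rw [curvature_eq hρ hx hi]
  refine (C2.cHess_congr e1).trans ?_
  rw [C2.cHess_sub ((((a1.contDiffAt (n := 2)).restrict_scalars ℝ).norm_sq ℝ).log
    (pow_ne_zero 2 (norm_ne_zero_iff.2 h1))) a2, cHess_log_norm_sq a1.contDiffAt h1, zero_sub]
  rfl

/-- on a compact set a Hermitian form is dominated by a Kähler form -/
theorem exists_le_on (hO : IsOpen Ω) (hw : KahOn Ω w)
    (hs : ∀ e x, At e x → x ∈ Ω → ∀ i j, ContinuousAt (fun z => b e z i j) (e x))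
    (hH : ∀ e x, At e x → x ∈ Ω → (b e (e x)).IsHermitian)
    (hf : ∀ e e' x, At e x → At e' x → x ∈ Ω →
      b e (e x) = (jacM e e' x).transpose * b e' (e' x) * (jacM e e' x).map (starRingEnd ℂ))
    {K : Set X} (hK : IsCompact K) (hKΩ : K ⊆ Ω) :
    ∃ C : ℝ, 0 < C ∧ ∀ C' ≥ C, PSDOn K fun e z => (C' : ℂ) • w e z - b e z := by
  refine hK.induction_on (p := fun S => ∃ C : ℝ, 0 < C ∧ ∀ C' ≥ C,
    PSDOn S fun e z => (C' : ℂ) • w e z - b e z) ⟨1, one_pos, fun _ _ _ _ _ h => h.elim⟩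
    (fun S T hST ⟨C, h0, h⟩ => ⟨C, h0, fun C' hC => (h C' hC).mono hST⟩)
    (fun S T ⟨C, h0, h⟩ ⟨D, _, h'⟩ => ⟨max C D, lt_max_of_lt_left h0, fun C' hC e x hx hm =>
      hm.elim (h C' ((le_max_left _ _).trans hC) e x hx)
        (h' C' ((le_max_right _ _).trans hC) e x hx)⟩) fun x hxK => ?_
  have hAt := atChart (d := d) x
  set c := chartAt (Cm d) x
  obtain ⟨r, hr, hb⟩ := Metric.nhds_basis_closedBall.mem_iff.1
    (hAt.nhds_target.and (ev_sym hAt (hO.mem_nhds (hKΩ hxK))))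
  have t1 : ∀ {P : Cm d → Prop}, (∀ y, At c y → y ∈ Ω → P (c y)) →
      ∀ z ∈ Metric.closedBall (c x) r, P z := fun {P} hP z hz =>
    c.right_inv (hb hz).1 ▸ hP _ (At.of_target hAt.1 (hb hz).1) (hb hz).2
  obtain ⟨C, hC0, hC⟩ := exists_quad_lower (isCompact_closedBall (c x) r) (fun z => w c z)
    (fun z => b c z)
    (fun i j => t1 fun y h1 h2 => (hw.smooth c y h1 h2 i j).continuousAt.continuousWithinAt)
    (fun i j => t1 fun y h1 h2 => (hs c y h1 h2 i j).continuousWithinAt)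
    (t1 (P := fun z => (w c z).PosDef) fun y h1 h2 => hw.posDef c y h1 h2)
  refine ⟨Ω ∩ (c.source ∩ c ⁻¹' Metric.closedBall (c x) r), mem_nhdsWithin_of_mem_nhds
    (inter_mem (hO.mem_nhds (hKΩ hxK)) (inter_mem (c.open_source.mem_nhds hAt.2)
      ((c.continuousAt hAt.2).preimage_mem_nhds (Metric.closedBall_mem_nhds _ hr)))), C, hC0,
    fun C' hC' e y hy ⟨h0, h1, h2⟩ => ?_⟩
  have hcy : At c y := ⟨hAt.1, h1⟩
  have p := hw.posDef c y hcy h0
  have q : ∀ (A : Matrix (Fin d) (Fin d) ℂ) v, (quad A (star v)).re = Qf A v := fun A v => by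
    unfold quad Qf
    congr 1
    simp only [dotProduct, Matrix.mulVec, Finset.mul_sum, Pi.star_apply, Complex.star_def,
      Complex.conj_conj]
    exact Finset.sum_congr rfl fun i _ => Finset.sum_congr rfl fun j _ => by ring
  have h3 : ((C' : ℂ) • w c (c y) - b c (c y)).PosSemidef := by
    refine P285Z.psd_of_Qf ((psd_smul p.posSemidef (hC0.le.trans hC')).1.sub (hH c y hcy h0)) fun v => ?_
    have h4 := hC (c y) h2 (star v)
    have h5 := P285Z.Qf_nonneg p.posSemidef v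
    rw [q, q] at h4
    rw [P285Z.Qf_sub, P285Z.Qf_smul]
    nlinarith
  have h6 := posSemidef_form h3 (jacM e c y)
  rwa [Matrix.mul_sub, Matrix.sub_mul, Matrix.mul_smul, Matrix.smul_mul,
    ← hw.change e c y hy hcy h0, ← hf e c y hy hcy h0] at h6

theorem exists_curv_on (hO : IsOpen Ω) (hw : KahOn Ω w) (hρ : IsMetric M ρ) {K : Set X}
    (hK : IsCompact K) (hKΩ : K ⊆ Ω) :
    ∃ C : ℝ, 0 < C ∧ ∀ C' ≥ C, PSDOn K fun e z => (C' : ℂ) • w e z + curvature M ρ e z := by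
  obtain ⟨C, h0, h⟩ := exists_le_on (b := fun e z => -curvature M ρ e z) hO hw
    (fun e x hx _ i j =>
      ((P301.H98.rform_curvature hρ).closed.smooth e x hx i j).continuousAt.neg)
    (fun e x hx _ => (curv_herm hρ hx).neg)
    (fun e e' x hx hx' _ => by
      rw [isForm_curvature hρ e e' x hx hx', Matrix.mul_neg, Matrix.neg_mul]) hK hKΩ
  exact ⟨C, h0, fun C' hC e x hx hm => by simpa only [sub_neg_eq_add] using h C' hC e x hx hm⟩

end Vale.Agent.P277Z.Van
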