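import Vale.Agent.P277Z.Van.Ka
import Vale.Agent.P277Z.Van.Sub

/-!
# P277Z, block VAN: the `L²` estimate for square integrable sections, complete metrics
-/

open scoped Manifold ContDiff ComplexOrder Topology ENNReal Matrix ComplexConjugate
open MeasureTheory Filter Set

set_option linter.unusedSectionVars false

noncomputable section

namespace Vale.Agent.P277Z.Van

open Vale.Agent.P272.K Vale.Agent.P301.H599 Vale.Agent.P285Z
open Vale.Agent.P301.H98 (IsSection nrm)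
open Vale.Agent.P284.H608.K Vale.Agent.P284.H286.K
open Vale.Agent.P284Z.L (dt bb)
open Vale.Agent.P284.H650 (gg)

namespace Ka

variable {d : ℕ} {X : Type} [TopologicalSpace X] [ChartedSpace (Cm d) X] {κ : Type} {Ω : Set X}
  [IsManifold 𝓘(ℂ, Cm d) ω X] [MeasurableSpace X] [BorelSpace X] {μ : Measure X}
  {h w : Fm d X} {M : LineBundle d X κ} {ρ : κ → X → ℝ} {Ψ : X → ℝ}

variable (D : Dt Ω h w μ M ρ Ψ)

theorem cut {η : X → ℝ} (h1 : SmOn (d := d) Ω η) (h0 : ∀ x ∈ Ω, 0 ≤ η x)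
    (h2 : ∀ c, IsCompact {x | x ∈ Ω ∧ η x ≤ c})
    (h3 : PSDOn Ω fun e z => w e z - gg (fun y => η (e.symm y)) (fun y => η (e.symm y)) z) :
    Nonempty (ka D).Cut := by
  obtain ⟨L, hL⟩ := P284Z.L.S3.th_bd
  have s1 : ∀ i : (ka D).I, ∀ z ∈ ((ka D).e i).target,
      ContDiffAt ℝ ∞ (fun y => η (i.1.1.symm y)) z := fun i z hz =>
    tgt hz.1 (h1 _ _ (At.of_target i.2 hz.1) hz.2.2)
  have s2 : ∀ (ν : ℕ) (i : (ka D).I), ∀ z ∈ ((ka D).e i).target,
      (fun y => P284Z.L.S3.th (η (((ka D).e i).symm y).1 / (ν + 1))) =ᶠ[𝓝 z]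
        fun y => P284Z.L.S3.th (η (i.1.1.symm y) / (ν + 1)) := fun ν i z hz =>
    (sub_near (hU := M.isOpen i.1.2) (hΩ := D.op) hz).mono fun y hy => congrArg (fun t => P284Z.L.S3.th (η t / (ν + 1))) hy
  refine ⟨⟨fun ν x => P284Z.L.S3.th (η x.1 / (ν + 1)), fun ν => L / (ν + 1) ^ 2 * 1,
    fun ν i z hz => (P284Z.L.S3.th_sm.contDiffAt.comp z
      ((s1 i z hz).div_const _)).congr_of_eventuallyEq (s2 ν i z hz),
    fun ν => ⟨{x | η x.1 ≤ 2 * (ν + 1)}, ?_, fun x hx => P284Z.L.S3.th_zero ?_⟩,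
    fun _ _ => Real.smoothTransition.nonneg _, fun ν x => ?_,
    fun _ _ => Real.smoothTransition.le_one _, fun x => ?_, fun ν i z hz => ?_, ?_⟩⟩
  · rw [Subtype.isCompact_iff]
    refine (congrArg IsCompact ?_).mp (h2 (2 * (ν + 1)))
    ext x
    exact ⟨fun hx => ⟨⟨x, hx.1⟩, hx.2, rfl⟩, fun ⟨y, hy, e⟩ => e ▸ ⟨y.2, hy⟩⟩
  · rw [le_div_iff₀ (by positivity)]
    exact (not_le.1 hx).le
  · refine Real.smoothTransition.monotone (sub_le_sub_left ?_ _)
    push_cast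
    exact div_le_div_of_nonneg_left (h0 x x.2) (by positivity) (by linarith)
  · have h4 : ∀ᶠ x' : Ω in 𝓝 x, η x'.1 < η x.1 + 1 :=
      ((h1.contAt x.2).comp continuous_subtype_val.continuousAt).eventually
        (gt_mem_nhds (lt_add_one _))
    filter_upwards [tendsto_natCast_atTop_atTop.eventually_ge_atTop (η x.1)] with ν hν
    refine h4.mono fun x' h => P284Z.L.S3.th_one ?_
    rw [div_le_one (by positivity)]
    linarith
  · refine P284Z.L.S3.cut_grad hL ((s1 i z hz).differentiableAt (by simp)) (s2 ν i z hz) ?_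
    rw [Complex.ofReal_one, one_smul]
    exact tgt (P := fun z => (w i.1.1 z - gg _ _ z).PosSemidef) hz.1
      (h3 _ _ (At.of_target i.2 hz.1) hz.2.2)
  · have := ((tendsto_one_div_add_atTop_nhds_zero_nat (𝕜 := ℝ)).pow 2).const_mul (L * 1)
    simp only [ne_eq, OfNat.ofNat_ne_zero, not_false_eq_true, zero_pow, mul_zero] at this
    exact this.congr fun ν => by rw [div_pow]; ring

open Classical in
/-- the form given by a section -/
def fm (s : κ → X → ℂ) : (ka D).Fm d := fun i z =>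
  if z ∈ ((ka D).e i).target then s i.1.2 (i.1.1.symm z) • dt d else 0

variable {D} {s t : κ → X → ℂ} {i j : (ka D).I} {z : Cm d} {x : Ω}

theorem fm_in (hz : z ∈ ((ka D).e i).target) :
    fm D s i z = s i.1.2 (i.1.1.symm z) • dt d := if_pos hz

theorem fm_at (hx : x ∈ ((ka D).e i).source) :
    fm D s i ((ka D).e i x) = s i.1.2 x.1 • dt d := by
  rw [fm_in (((ka D).e i).map_source hx)]
  exact congrArg (fun y => s i.1.2 y • dt d) (i.1.1.left_inv hx.1)

theorem fm_near (hz : z ∈ ((ka D).e i).target) :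
    fm D s i =ᶠ[𝓝 z] fun y => s i.1.2 (i.1.1.symm y) • dt d :=
  mem_of_superset (((ka D).e i).open_target.mem_nhds hz) fun _ hy => fm_in hy

theorem chg (hi : x ∈ ((ka D).e i).source) (hj : x ∈ ((ka D).e j).source) (c : ℂ) :
    (ka D).a i j ((ka D).e i x) • (c • dt d).compContinuousLinearMap
      (fderiv ℂ (fun z => (ka D).e j (((ka D).e i).symm z)) ((ka D).e i x)) =
      (M.g i.1.2 j.1.2 x.1 * c) • dt d := by
  have a1 : At i.1.1 x.1 := ⟨i.2, hi.1⟩
  have a2 : At j.1.1 x.1 := ⟨j.2, hj.1⟩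
  have e : ∀ (c : ℂ) (L : Cm d →L[ℂ] Cm d), (c • dt d).compContinuousLinearMap L =
    c • (dt d).compContinuousLinearMap L := fun _ _ => rfl
  have e1 : fderiv ℂ (fun z => (ka D).e j (((ka D).e i).symm z)) ((ka D).e i x) =
      fderiv ℂ (fun z => j.1.1 (i.1.1.symm z)) (i.1.1 x.1) :=
    (tr_near (hU := M.isOpen i.1.2) (hΩ := D.op) (hU' := M.isOpen j.1.2)
      (((ka D).e i).map_source hi)).fderiv_eq
  rw [e1, e, dt_comp, ← jmat_fd (transition_differentiableAt a1 a2), smul_smul, smul_smul]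
  congr 1
  change M.g _ _ (i.1.1.symm (i.1.1 x.1)) * ((jacM _ _ (i.1.1.symm (i.1.1 x.1))).det)⁻¹ * c *
    (jacM i.1.1 j.1.1 x.1).det = _
  rw [a1.left_inv]
  field_simp [jacM_det_ne_zero a1 a2]

theorem fm_form (hs : ∀ i j x, x ∈ M.U i → x ∈ M.U j → x ∈ Ω → s i x = M.g i j x * s j x) :
    (ka D).IsForm (fm D s) where
  off _ _ hz := if_neg hz
  change i j x hi hj := by rw [fm_at hi, fm_at hj, chg hi hj, hs _ _ _ hi.2 hj.2 x.2]

theorem fm_sub : fm D s - fm D t = fm D fun i y => s i y - t i y := by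
  funext i z
  change fm D s i z - fm D t i z = _
  unfold fm
  split_ifs
  · exact (sub_smul _ _ _).symm
  · exact sub_zero _

theorem fm_nl (hs : ∀ i j x, x ∈ M.U i → x ∈ M.U j → x ∈ Ω → s i x = M.g i j x * s j x) :
    (ka D).nl (fm D s) = ∫⁻ x in Ω, ENNReal.ofReal (nrm M ρ s x * Real.exp (-Ψ x)) ∂μ :=
  lint_nu D.hh D.kah D.op _ fun x => by
    have hx := mem_ix (ka D) x
    unfold KA.dn
    generalize (ka D).ix x = i at hx
    have a1 : At i.1.1 x.1 := ⟨i.2, hx.1⟩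
    have p1 := D.kah.posDef _ _ a1 x.2
    have p2 := det_pos (D.hh.posDef _ _ a1)
    have p3 := det_pos p1
    rw [Complex.re_ofReal_mul, fm_at hx, P284Z.L.S1.hn_smul,
      ← ENNReal.ofReal_mul (rat_pos D.hh D.kah x.2).le, rat_eq D.hh D.kah a1 x.2,
      nrm_at D.met (fun i j hi hj => hs i j _ hi hj x.2) hx.2]
    congr 1
    change _ * (Real.exp (-wt h _ Ψ _ (i.1.1 x.1)) * (_ * (hn (w i.1.1 (i.1.1 x.1)) _ _).re)) = _
    rw [hn_dt p1, exp_wt D.hh a1]
    field_simp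

theorem exists_sec {η : (ka D).Fm d} (hη : (ka D).IsForm η) (hol : (ka D).Hol η) :
    ∃ G, SecOn M Ω G ∧ η = fm D G := by
  have tr : ∀ (i j : (ka D).I) (x : Ω), x ∈ ((ka D).e i).source → x ∈ ((ka D).e j).source →
      η i ((ka D).e i x) = (M.g i.1.2 j.1.2 x.1 * ev (η j ((ka D).e j x)) id) • dt d :=
    fun i j x hi hj => by rw [hη.change i j x hi hj, top_eq (η j _), chg hi hj, ← top_eq]
  have ed : ∀ c : ℂ, ev (c • dt d) id = c := fun c => by
    change c * ev (dt d) (fun i => (1 : Equiv.Perm (Fin d)) i) = _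
    rw [ev_dt]
    simp
  set G : κ → X → ℂ := fun k x => ev (η ⟨(chartAt (Cm d) x, k), chart_mem_atlas _ x⟩
    (chartAt (Cm d) x x)) id with hG
  have e1 : ∀ (i : (ka D).I), ∀ z ∈ ((ka D).e i).target,
      η i z = G i.1.2 (i.1.1.symm z) • dt d := fun i z hz => by
    have h1 := tr i ⟨(chartAt (Cm d) (i.1.1.symm z), i.1.2), chart_mem_atlas _ _⟩ ⟨_, hz.2.2⟩
      ⟨i.1.1.map_target hz.1, hz.2.1⟩ ⟨mem_chart_source _ _, hz.2.1⟩
    have h2 : M.g i.1.2 i.1.2 (i.1.1.symm z) = 1 :=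
      mul_left_cancel₀ (M.ne_zero _ _ _ hz.2.1 hz.2.1)
        ((M.cocycle _ _ _ _ hz.2.1 hz.2.1 hz.2.1).trans (mul_one _).symm)
    change η i (i.1.1 (i.1.1.symm z)) = (M.g i.1.2 i.1.2 (i.1.1.symm z) * _) • _ at h1
    rw [h2, one_mul, i.1.1.right_inv hz.1] at h1
    exact h1
  refine ⟨G, ⟨fun k e x hx hk hΩ => ?_, fun k l x hk hl hΩ => ?_⟩, funext fun i => funext fun z => ?_⟩
  · have hz : e x ∈ ((ka D).e ⟨(e, k), hx.1⟩).target :=
      ((ka D).e ⟨(e, k), hx.1⟩).map_source (x := ⟨x, hΩ⟩) ⟨hx.2, hk⟩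
    refine (((ContinuousAlternatingMap.apply ℂ (Cm d) ℂ fun i => Pi.single i 1).analyticAt
      _).comp (hol _ _ hz)).congr ?_
    filter_upwards [((ka D).e ⟨(e, k), hx.1⟩).open_target.mem_nhds hz] with y hy
    rw [Function.comp_apply, e1 _ y hy]
    exact ed _
  · have h1 := tr ⟨(chartAt (Cm d) x, k), chart_mem_atlas _ x⟩
      ⟨(chartAt (Cm d) x, l), chart_mem_atlas _ x⟩ ⟨x, hΩ⟩ ⟨mem_chart_source _ _, hk⟩
      ⟨mem_chart_source _ _, hl⟩
    exact (congrArg (fun A => ev A id) h1).trans (ed _)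
  · by_cases hz : z ∈ ((ka D).e i).target
    · rw [e1 i z hz, fm_in hz]
    · rw [hη.off i z hz]
      exact (if_neg hz).symm

theorem cHess_wt (D : Dt Ω h w μ M ρ Ψ) {e : Chart d X} {x : X} {k : κ} (hx : At e x)
    (hk : x ∈ M.U k) (hΩ : x ∈ Ω) : cHess (wt h (ρ k) Ψ e) (e x) =
      curvature M ρ e (e x) - kc h e (e x) + ddc Ψ e (e x) := by
  have s1 : ContDiffAt ℝ 2 (fun z => ρ k (e.symm z)) (e x) :=
    (D.met.smooth k e x hx hk).of_le (by norm_cast)
  have s2 : ContDiffAt ℝ 2 (fun z => Ψ (e.symm z)) (e x) := (D.sm e x hx hΩ).of_le (by norm_cast)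
  rw [curvature_eq D.met hx hk]
  unfold wt
  rw [C2.cHess_sub (s1.add s2) ((sm_logdet D.hh hx).of_le (by norm_cast)), C2.cHess_add s1 s2]
  exact add_sub_right_comm _ _ _

omit [IsManifold 𝓘(ℂ, Cm d) ω X] in
theorem psd_bb {Θ : Matrix (Fin d) (Fin d) ℂ} (hΘ : Θ.PosSemidef) {g : Cm d → ℂ} {z : Cm d}
    {Λ : ℝ} (H : ∀ v : Fin d → ℂ, ‖∑ b, dzb b g z * v b‖ ^ 2 ≤ Λ * Qf Θ v) :
    ((Λ : ℂ) • Θ - bb g z).PosSemidef := by
  refine psd_of_Qf (Matrix.IsHermitian.sub ?_ ?_) fun v => ?_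
  · ext i j
    rw [Matrix.conjTranspose_apply, Matrix.smul_apply, Matrix.smul_apply, smul_eq_mul, star_mul',
      hΘ.1.apply, smul_eq_mul, Complex.star_def, Complex.conj_ofReal]
  · ext i j
    simp [bb, Matrix.conjTranspose_apply, mul_comm]
  · have e : Qf (bb g z) v = ‖∑ b, dzb b g z * v b‖ ^ 2 := by
      rw [← Complex.normSq_eq_norm_sq, ← Complex.ofReal_re (Complex.normSq _),
        Complex.normSq_eq_conj_mul_self, map_sum, Finset.sum_mul_sum]
      unfold Qf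
      congr 1
      simp only [dotProduct, Matrix.mulVec, bb, Matrix.of_apply, Finset.mul_sum, Pi.star_apply,
        Complex.star_def, map_mul]
      exact Finset.sum_congr rfl fun i _ => Finset.sum_congr rfl fun j _ => by ring
    rw [Qf_sub, Qf_smul, e, sub_nonneg]
    exact H v

end Ka

open Ka in
/-- the estimate for a square integrable section and a complete metric -/
theorem core {d : ℕ} {X : Type} [TopologicalSpace X] [ChartedSpace (Cm (d + 1)) X] {κ : Type}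
    {Ω : Set X} [IsManifold 𝓘(ℂ, Cm (d + 1)) ω X] [T2Space X] [MeasurableSpace X] [BorelSpace X]
    {μ : Measure X} {h w : Fm (d + 1) X} {M : LineBundle (d + 1) X κ} {ρ : κ → X → ℝ} {Ψ : X → ℝ}
    (D : Dt Ω h w μ M ρ Ψ) (χ : (ka D).Cut)
    (hP : PSDOn Ω fun e z => curvature M ρ e z - kc h e z + ddc Ψ e z) {s : κ → X → ℂ}
    (hs : ScOn M Ω s)
    (h2 : ∫⁻ x in Ω, ENNReal.ofReal (nrm M ρ s x * Real.exp (-Ψ x)) ∂μ ≠ ⊤) {a : X → ℝ}
    (ha : ∀ x ∈ Ω, 0 ≤ a x)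
    (hd : DbarOn Ω M ρ s a fun e z => curvature M ρ e z - kc h e z + ddc Ψ e z)
    (h3 : ∫⁻ x in Ω, ENNReal.ofReal (a x * Real.exp (-Ψ x)) ∂μ ≠ ⊤) :
    ∃ G : κ → X → ℂ, SecOn M Ω G ∧
      ∫⁻ x in Ω, ENNReal.ofReal (nrm M ρ (fun i y => G i y - s i y) x * Real.exp (-Ψ x)) ∂μ ≤
        ∫⁻ x in Ω, ENNReal.ofReal (a x * Real.exp (-Ψ x)) ∂μ := by
  have k1 := Vale.Agent.P284.H752.k1Stmt
  have k3 := k3 (d + 1) Ω (ka D)
  have hp' : ∀ i, ∀ z ∈ ((ka D).e i).target, (cHess ((ka D).φ i) z).PosSemidef := fun i z hz => by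
    have a1 := At.of_target i.2 hz.1
    refine tgt (P := fun z => (cHess (wt h (ρ i.1.2) Ψ i.1.1) z).PosSemidef) hz.1 ?_
    rw [cHess_wt D a1 hz.2.1 hz.2.2]
    exact hP _ _ a1 hz.2.2
  have g1 := fm_form (D := D) hs.change
  have g2 : (ka D).Smooth (fm D s) := fun i z hz =>
    ((tgt hz.1 (hs.smooth _ _ _ (At.of_target i.2 hz.1) hz.2.1 hz.2.2)).smul_const
      _).congr_of_eventuallyEq (fm_near hz)
  obtain ⟨η, a1, a2, -, a4⟩ := eng (d + 1) Ω _ χ hp' d _ g1 g2 (by rwa [fm_nl hs.change, lt_top_iff_ne_top])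
    (funext fun i => funext fun z => P284.H136.K8.af_zero _)
    (∫⁻ x in Ω, ENNReal.ofReal (a x * Real.exp (-Ψ x)) ∂μ).toReal fun τ hτ => by
      rw [mul_comm]
      refine Vale.Agent.P284.H752.K8.int_cs (S := univ)
        (B := fun x : Ω => a x.1 * Real.exp (-Ψ x.1) / rat h w x.1) (k3.intT d τ hτ).2
        (dA_nonneg k1 hp' τ) (fun x => ?_) (fun x _ => div_nonneg (mul_nonneg (ha _ x.2)
          (Real.exp_pos _).le) (rat_pos D.hh D.kah x.2).le) ENNReal.toReal_nonneg ?_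
      · obtain ⟨i, hx⟩ := (ka D).cover x
        have b1 : At i.1.1 x.1 := ⟨i.2, hx.1⟩
        have hz := ((ka D).e i).map_source hx
        have p1 := D.kah.posDef _ _ b1 x.2
        have p2 := det_pos (D.hh.posDef _ _ b1)
        have p3 := det_pos p1
        have e1 : (ka D).S (fm D s) i ((ka D).e i x) =
            SL (w i.1.1) (fun y => s i.1.2 (i.1.1.symm y) • dt (d + 1)) (i.1.1 x.1) := by
          refine (if_pos hz).trans ?_
          unfold SL
          rw [funext (P284Z.L.S1.dbV_congr (fm_near hz))]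
          rfl
        have h7 := psd_bb (g := fun y => s i.1.2 (i.1.1.symm y)) (z := i.1.1 x.1)
          (Λ := a x.1 * Real.exp (ρ i.1.2 x.1)) (hP _ _ b1 x.2) fun v => by
            have := hd _ _ _ b1 hx.2 x.2 v
            rw [Real.exp_neg, ← div_eq_mul_inv, div_le_iff₀ (Real.exp_pos _)] at this
            linarith
        beta_reduce at h7
        rw [← cHess_wt D b1 hx.2 x.2] at h7
        have h9 := P284Z.L.S1.hn_SL (w := w i.1.1) (σ := fun _ => dt (d + 1)) p1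
          ((hs.smooth _ _ _ b1 hx.2 x.2).differentiableAt (by simp)) (differentiableAt_const _) h7
          (τ i (i.1.1 x.1))
        rw [hn_dt p1, ← e1] at h9
        rw [indicator_univ, k3.dn_eq d τ _ hτ.form (k3.S_form d _ g1 g2).1 i x hx,
          k3.dA_eq d τ hτ.form i x hx, norm_mul, mul_pow, Complex.norm_real,
          Real.norm_of_nonneg (Real.exp_pos _).le, rat_eq D.hh D.kah b1 x.2]
        refine (mul_le_mul_of_nonneg_left h9 (sq_nonneg _)).trans (le_of_eq ?_)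
        change Real.exp (-wt h _ Ψ _ (i.1.1 x.1)) ^ 2 * _ = Real.exp (-wt h _ Ψ _ (i.1.1 x.1)) *
          (Ad (w i.1.1 (i.1.1 x.1)) (cHess (wt h (ρ i.1.2) Ψ i.1.1) (i.1.1 x.1))
            (τ i (i.1.1 x.1))).re * _
        rw [exp_wt D.hh b1, Real.exp_neg (ρ _ _)]
        field_simp
      · rw [Measure.restrict_univ, ENNReal.ofReal_toReal h3]
        refine (lint_nu D.hh D.kah D.op _ fun x => ?_).le
        rw [← ENNReal.ofReal_mul (rat_pos D.hh D.kah x.2).le,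
          mul_div_cancel₀ _ (rat_pos D.hh D.kah x.2).ne']
  obtain ⟨G, hG, rfl⟩ := exists_sec a1 a2
  rw [fm_sub, fm_nl fun i j x hi hj hx => by
    rw [hG.change i j x hi hj hx, hs.change i j x hi hj hx, mul_sub], ENNReal.ofReal_toReal h3] at a4
  exact ⟨G, hG, a4⟩

end Vale.Agent.P277Z.Van
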