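import Vale.Agent.P277Z.Van.Defs
import Vale.Agent.P285Z.Gg1

/-!
# P277Z, block VAN: logarithmic poles with bounds which are uniform on a compact set
-/

open scoped Manifold ContDiff ComplexOrder Topology ENNReal Matrix
open MeasureTheory Filter Set

noncomputable section

namespace Vale.Agent.P277Z.Van.GG

open Vale.Agent.P272.K Vale.Agent.P301.H599 Vale.Agent.P285Z Vale.Agent.P285Z.G1

variable {d : ℕ} {X : Type} [TopologicalSpace X] [ChartedSpace (Cm d) X]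
  [IsManifold 𝓘(ℂ, Cm d) ω X] {K : Set X} {om : Fm d X} {u u' : X → ℝ} {C C' : ℝ}

/-- the form `om` dominates all forms `i∂∂̄u` on `K` -/
structure Dm (K : Set X) (om : Fm d X) : Prop where
  cpt : IsCompact K
  nn : ∀ e x, At e x → x ∈ K → ∀ v, 0 ≤ Qf (om e (e x)) v
  le : ∀ u, Smooth (d := d) u → ∃ C : ℝ, 0 < C ∧ ∀ e x, At e x → x ∈ K → ∀ v,
    |Qf (ddc u e (e x)) v| ≤ C * Qf (om e (e x)) v

/-- bounds for the derivatives of `u` on `K` -/
structure Bd (K : Set X) (om : Fm d X) (C : ℝ) (u : X → ℝ) : Prop where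
  sm : Smooth (d := d) u
  dd : ∀ e x, At e x → x ∈ K → ∀ v, |Qf (ddc u e (e x)) v| ≤ C * Qf (om e (e x)) v
  dv : ∀ e x, At e x → x ∈ K → ∀ v, ‖Ch.DvX u e x v‖ ≤ C * √(Qf (om e (e x)) v)

omit [IsManifold 𝓘(ℂ, Cm d) ω X] in
theorem Dm.bd (h : Dm K om) (hu : Smooth (d := d) u) : ∃ C : ℝ, 0 < C ∧ Bd K om C u := by
  obtain ⟨C, hC, h1⟩ := h.le u hu
  obtain ⟨C', hC', h2⟩ := h.le _ (Ch.sm_comp (h := fun t => t ^ 2) (contDiff_id.pow 2) hu)
  obtain ⟨B, hB⟩ := h.cpt.exists_bound_of_continuousOn (smooth_continuous hu).continuousOn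
  refine ⟨C + C' + |B| * C + 1, by positivity, hu, fun e x hx hK v => (h1 e x hx hK v).trans
    (mul_le_mul_of_nonneg_right (by nlinarith [abs_nonneg B]) (h.nn e x hx hK v)),
    fun e x hx hK v => ?_⟩
  have h3 := h.nn e x hx hK v
  have h4 := h2 e x hx hK v
  rw [Ch.ddc_chain' (h := fun t => t ^ 2) (h₁ := fun t => 2 * t) (h₂ := 2)
    (Eventually.of_forall fun s => by simpa using hasDerivAt_pow 2 s)
    (by simpa using (hasDerivAt_id (u x)).const_mul 2) hu hx, Qf_add, Qf_smul, Qf_smul,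
    Ch.Qf_gmX hu hx] at h4
  have h5 : |u x * Qf (ddc u e (e x)) v| ≤ |B| * (C * Qf (om e (e x)) v) := by
    rw [abs_mul]
    exact mul_le_mul ((hB x hK).trans (le_abs_self B)) (h1 e x hx hK v) (abs_nonneg _)
      (abs_nonneg _)
  have h6 := (abs_le.1 h5).1
  have h7 := (abs_le.1 h4).2
  refine abs_le_of_sq_le_sq' ?_ (by positivity) |>.2
  rw [mul_pow, Real.sq_sqrt h3]
  have h8 : 0 ≤ |B| * C := by positivity
  have h9 : C' + |B| * C ≤ (C + C' + |B| * C + 1) ^ 2 := by nlinarith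
  nlinarith [sq_nonneg ‖Ch.DvX u e x v‖, mul_nonneg hC'.le h3, mul_le_mul_of_nonneg_right h9 h3]

omit [IsManifold 𝓘(ℂ, Cm d) ω X] in
theorem Bd.add (h : Bd K om C u) (h' : Bd K om C' u') : Bd K om (C + C') fun x => u x + u' x := by
  refine ⟨h.sm.add h'.sm, fun e x hx hK v => ?_, fun e x hx hK v => ?_⟩
  · rw [ddc_add h.sm h'.sm e x hx, Qf_add, add_mul]
    exact (abs_add_le _ _).trans (add_le_add (h.dd e x hx hK v) (h'.dd e x hx hK v))
  · rw [Ch.DvX, Ch.Dv_add (Ch.sm_diff h.sm hx) (Ch.sm_diff h'.sm hx), add_mul]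
    exact (norm_add_le _ _).trans (add_le_add (h.dv e x hx hK v) (h'.dv e x hx hK v))

omit [IsManifold 𝓘(ℂ, Cm d) ω X] in
theorem Bd.mul (h : Bd K om C u) {t : ℝ} (ht : |t| ≤ 1) : Bd K om C fun x => t * u x := by
  refine ⟨h.sm.const_mul t, fun e x hx hK v => ?_, fun e x hx hK v => ?_⟩
  · rw [ddc_const_mul t h.sm e x hx, Qf_smul, abs_mul]
    exact (mul_le_of_le_one_left (abs_nonneg _) ht).trans (h.dd e x hx hK v)
  · rw [Ch.DvX, Ch.Dv_const_mul t (Ch.sm_diff h.sm hx), norm_mul, Complex.norm_real]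
    exact (mul_le_of_le_one_left (norm_nonneg _) ht).trans (h.dv e x hx hK v)

omit [IsManifold 𝓘(ℂ, Cm d) ω X] in
theorem Bd.add_sum (h : Bd K om C u) {ι : Type} (s : Finset ι) {c : ι → ℝ} {f : ι → X → ℝ}
    (hf : ∀ i, Bd K om (c i) (f i)) :
    Bd K om (C + ∑ i ∈ s, c i) fun x => u x + ∑ i ∈ s, f i x := by
  classical
  induction s using Finset.induction_on with
  | empty => simpa using h
  | insert i s hi ih =>
    simp only [Finset.sum_insert hi, add_comm (c i), add_comm (f i _), ← add_assoc]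
    exact ih.add (hf i)

theorem Bd.pole (h : Bd K om C u) (hD : Dm K om) (hC : 0 ≤ C) (h0 : ∀ x, 0 ≤ u x) {r : ℝ}
    (hr : 0 < r) {e₀ : Chart d X} (he₀ : e₀ ∈ atlas (Cm d) X) {a : Cm d}
    (hl : ∀ x, u x < r → x ∈ e₀.source ∧ u =ᶠ[𝓝 x] fun x' => ns a (e₀ x')) {δ : ℝ} (hδ : 0 < δ)
    {e : Chart d X} {x : X} (hx : At e x) (hK : x ∈ K) (v : Fin d → ℂ) :
    -((r⁻¹ * C + (r ^ 2)⁻¹ * C ^ 2) * Qf (om e (e x)) v) ≤
      Qf (ddc (fun x => Real.log (u x + δ)) e (e x)) v := by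
  have h3 := hD.nn e x hx hK v
  by_cases hur : u x < r
  · have h4 := Qf_nonneg (psd_near h.sm h0 hδ ⟨he₀, (hl x hur).1⟩ hx (hl x hur).2) v
    have h5 : 0 ≤ (r⁻¹ * C + (r ^ 2)⁻¹ * C ^ 2) * Qf (om e (e x)) v := by positivity
    linarith
  · have h4 : 0 < u x + δ := by linarith [h0 x]
    rw [Ch.ddc_chain' (h := fun t => Real.log (t + δ)) (ev_lg h4) (hasDerivAt_lg' h4) h.sm hx,
      Qf_add, Qf_smul, Qf_smul, Ch.Qf_gmX h.sm hx]
    have h5 : r ≤ u x + δ := by linarith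
    have h6 : (u x + δ)⁻¹ ≤ r⁻¹ := inv_anti₀ hr h5
    have h7 : ((u x + δ) ^ 2)⁻¹ ≤ (r ^ 2)⁻¹ :=
      inv_anti₀ (by positivity) (pow_le_pow_left₀ hr.le h5 2)
    have h8 : (u x + δ)⁻¹ * (C * Qf (om e (e x)) v) ≤ r⁻¹ * (C * Qf (om e (e x)) v) :=
      mul_le_mul_of_nonneg_right h6 (by positivity)
    have h2 := pow_le_pow_left₀ (norm_nonneg _) (h.dv e x hx hK v) 2
    rw [mul_pow, Real.sq_sqrt h3] at h2
    have h9 : ((u x + δ) ^ 2)⁻¹ * ‖Ch.DvX u e x v‖ ^ 2 ≤ (r ^ 2)⁻¹ * (C ^ 2 * Qf (om e (e x)) v) :=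
      mul_le_mul h7 h2 (sq_nonneg _) (by positivity)
    have h10 : (u x + δ)⁻¹ * -(C * Qf (om e (e x)) v) ≤ (u x + δ)⁻¹ * Qf (ddc u e (e x)) v :=
      mul_le_mul_of_nonneg_left (abs_le.1 (h.dd e x hx hK v)).1 (by positivity)
    nlinarith

/-- `log u` has a pole at `y` -/
structure Pole (K : Set X) (om : Fm d X) (C : ℝ) (y : X) (u : X → ℝ) : Prop where
  sm : Smooth (d := d) u
  nn : ∀ x, 0 ≤ u x
  pos : ∀ x, x ≠ y → 0 < u x
  loc : ∃ e : Chart d X, At e y ∧ u =ᶠ[𝓝 y] fun x => ns (e y) (e x)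
  ge : ∀ δ : ℝ, 0 < δ → ∀ e x, At e x → x ∈ K → ∀ v,
    -(C * Qf (om e (e x)) v) ≤ Qf (ddc (fun x => Real.log (u x + δ)) e (e x)) v

theorem smooth_cut (hu : Smooth (d := d) u) {r : ℝ} (hr : 0 < r) {e : Chart d X}
    (he : e ∈ atlas (Cm d) X) (hU : ∀ x, u x < r → x ∈ e.source) {g : Cm d → ℝ}
    (hg : ContDiff ℝ ∞ g) : Smooth (d := d) fun x => hc r (u x) * g (e x) := by
  intro e' x hx
  by_cases hux : u x < r
  · exact (Ch.sm_comp (hc_smooth r) hu e' x hx).mul (hg.contDiffAt.comp (e' x)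
      (((transition hx ⟨he, hU x hux⟩).restrict_scalars ℝ).of_le (by exact le_top)))
  · have h1 : ∀ᶠ z in 𝓝 (e' x), r / 2 < u (e'.symm z) :=
      (hu e' x hx).continuousAt.eventually (lt_mem_nhds (by
        show r / 2 < u (e'.symm (e' x))
        rw [hx.left_inv]
        linarith))
    refine (contDiffAt_const (c := (0 : ℝ))).congr_of_eventuallyEq (h1.mono fun z hz => ?_)
    simp [hc, zeta_of_le (arg_le hr hz.le)]

theorem ns_tri (a b z : Cm d) : ns a z ≤ 2 * ns b z + 2 * ns a b := by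
  simp only [ns, Finset.mul_sum, ← Finset.sum_add_distrib]
  refine Finset.sum_le_sum fun i _ => ?_
  have h := norm_sub_le_norm_sub_add_norm_sub (z i) (b i) (a i)
  nlinarith [norm_nonneg (z i - a i), norm_nonneg (z i - b i), norm_nonneg (b i - a i),
    sq_nonneg (‖z i - b i‖ - ‖b i - a i‖)]

theorem ns_sub (a b z : Cm d) : ns b z - ns a z = ns a b +
    ∑ i, (-2 * (b i - a i).re * (z i - a i).re + -2 * (b i - a i).im * (z i - a i).im) := by
  simp only [ns, ← Finset.sum_add_distrib, ← Finset.sum_sub_distrib]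
  refine Finset.sum_congr rfl fun i _ => ?_
  simp only [Complex.sq_norm, Complex.normSq_apply, Complex.sub_re, Complex.sub_im]
  ring

theorem exists_pole_loc [T2Space X] (hD : Dm K om) (y₀ : X) :
    ∃ C : ℝ, 0 ≤ C ∧ ∀ᶠ y in 𝓝 y₀, ∃ u, Pole K om C y u := by
  have hy := atChart (d := d) y₀
  set e : Chart d X := chartAt (Cm d) y₀
  obtain ⟨u, r, hr, hu, hu0, huy, hur⟩ := exists_u hy univ_mem
  have hs : ∀ g : Cm d → ℝ, ContDiff ℝ ∞ g → ∃ C : ℝ, 0 < C ∧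
      Bd K om C fun x => hc r (u x) * g (e x) := fun g hg =>
    hD.bd (smooth_cut hu hr hy.1 (fun x hx => (hur x hx).2.1) hg)
  obtain ⟨C₀, hC₀, h₀⟩ := hD.bd hu
  obtain ⟨C₁, hC₁, h₁⟩ := hs (fun _ => 1) contDiff_const
  choose c hc0 h₂ using fun i => hs (fun z => (z i - e y₀ i).re)
    (Complex.reCLM.contDiff.comp ((contDiff_apply ℝ ℂ i).sub contDiff_const))
  choose c' hc0' h₃ using fun i => hs (fun z => (z i - e y₀ i).im)
    (Complex.imCLM.contDiff.comp ((contDiff_apply ℝ ℂ i).sub contDiff_const))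
  have hC : 0 ≤ C₀ + C₁ + ∑ i, (c i + c' i) :=
    add_nonneg (by positivity) (Finset.sum_nonneg fun i _ => (add_pos (hc0 i) (hc0' i)).le)
  refine ⟨(r / 16)⁻¹ * (C₀ + C₁ + ∑ i, (c i + c' i)) +
    ((r / 16) ^ 2)⁻¹ * (C₀ + C₁ + ∑ i, (c i + c' i)) ^ 2, by positivity, ?_⟩
  have e1 : ∀ᶠ y in 𝓝 y₀, ns (e y₀) (e y) < min (r / 16) ((1 / 2) ^ 2) :=
    ((ns_contDiff (e y₀)).continuous.continuousAt.comp (e.continuousAt hy.2)).eventually
      (gt_mem_nhds (by simp [ns_self, hr]))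
  have e2 : ∀ᶠ y in 𝓝 y₀, u y < r / 4 :=
    (smooth_continuous hu).continuousAt.eventually (gt_mem_nhds (by rw [huy]; positivity))
  filter_upwards [e1, e2] with y h1 h2
  obtain ⟨h1, h1'⟩ := lt_min_iff.1 h1
  set w : X → ℝ := fun x => u x + hc r (u x) * (ns (e y) (e x) - ns (e y₀) (e x)) with hw
  have hb : ∀ i, ‖e y i - e y₀ i‖ ≤ 1 / 2 := fun i =>
    (norm_le_pi_norm (e y - e y₀) i).trans (norm_le_of_ns (by norm_num) h1'.le)
  have hB : Bd K om (C₀ + C₁ + ∑ i, (c i + c' i)) w := by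
    have h3 := (h₀.add (h₁.mul (t := ns (e y₀) (e y)) (by
      rw [abs_of_nonneg (ns_nonneg _ _)]; linarith))).add_sum Finset.univ fun i =>
      ((h₂ i).mul (t := -2 * (e y i - e y₀ i).re) (by
        rw [abs_mul]; linarith [Complex.abs_re_le_norm (e y i - e y₀ i), hb i, abs_neg (2 : ℝ),
          show |(-2 : ℝ)| * |(e y i - e y₀ i).re| = 2 * |(e y i - e y₀ i).re| by simp])).add
      ((h₃ i).mul (t := -2 * (e y i - e y₀ i).im) (by
        rw [abs_mul]; linarith [Complex.abs_im_le_norm (e y i - e y₀ i), hb i,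
          show |(-2 : ℝ)| * |(e y i - e y₀ i).im| = 2 * |(e y i - e y₀ i).im| by simp]))
    convert h3 using 1
    funext x
    rw [hw]
    simp only [ns_sub, mul_add, Finset.mul_sum, add_assoc]
    congr 2
    · ring
    · exact Finset.sum_congr rfl fun i _ => by ring
  have hi : ∀ x, u x < r / 4 → x ∈ e.source ∧ w =ᶠ[𝓝 x] fun x' => ns (e y) (e x') := by
    intro x hx
    obtain ⟨-, h3, h4⟩ := hur x (by linarith)
    refine ⟨h3, ?_⟩
    filter_upwards [h4, (smooth_continuous hu).continuousAt.eventually (gt_mem_nhds hx)]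
      with x' h5 h6
    simp only [hw, hc, zeta_of_ge (arg_ge hr h6.le)]
    rw [h5]
    ring
  have ho : ∀ x, r / 4 ≤ u x → r / 16 ≤ w x := by
    intro x hx
    by_cases h3 : r / 2 ≤ u x
    · simp only [hw, hc, zeta_of_le (arg_le hr h3)]
      linarith
    · have h4 : u x = ns (e y₀) (e x) := (hur x (by linarith)).2.2.self_of_nhds
      have h5 := ns_tri (e y₀) (e y) (e x)
      have h6 : 0 ≤ hc r (u x) := zeta_nonneg _
      have h7 : hc r (u x) ≤ 1 := zeta_le_one _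
      simp only [hw, ← h4]
      nlinarith
  have hn : ∀ x, 0 ≤ w x := fun x => (lt_or_ge (u x) (r / 4)).elim
    (fun h => (hi x h).2.self_of_nhds ▸ ns_nonneg _ _) fun h => by linarith [ho x h]
  refine ⟨w, hB.sm, hn, fun x hx => ?_, ⟨e, ⟨hy.1, (hi y h2).1⟩, (hi y h2).2⟩,
    fun δ hδ e' x hx hK v => hB.pole hD hC hn (by positivity) hy.1
      (fun x hx => hi x (not_le.1 fun h => absurd (ho x h) (not_le.2 hx))) hδ hx hK v⟩
  rcases lt_or_ge (u x) (r / 4) with h | h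
  · rw [(hi x h).2.self_of_nhds]
    refine (ns_nonneg _ _).lt_of_ne fun h3 => hx (e.injOn (hi x h).1 (hi y h2).1 ?_)
    simpa [sub_eq_zero] using norm_le_of_ns (a := e y) (z := e x) le_rfl (by simp [← h3])
  · linarith [ho x h]

/-- poles with a uniform bound -/
theorem exists_pole [T2Space X] (hD : Dm K om) :
    ∃ C : ℝ, 0 ≤ C ∧ ∀ y ∈ K, ∃ u, Pole K om C y u := by
  have mono : ∀ {C C' y u}, C ≤ C' → Pole K om C y u → Pole K om C' y u := fun h H =>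
    ⟨H.sm, H.nn, H.pos, H.loc, fun δ hδ e x hx hK v => le_trans (neg_le_neg
      (mul_le_mul_of_nonneg_right h (hD.nn e x hx hK v))) (H.ge δ hδ e x hx hK v)⟩
  refine hD.cpt.induction_on (p := fun s => ∃ C : ℝ, 0 ≤ C ∧ ∀ y ∈ s, ∃ u, Pole K om C y u)
    ⟨0, le_rfl, fun _ h => h.elim⟩ (fun s t hst ⟨C, h0, h⟩ => ⟨C, h0, fun y hy => h y (hst hy)⟩)
    ?_ fun y _ => ?_
  · rintro s t ⟨C, h0, h⟩ ⟨C', -, h'⟩
    refine ⟨max C C', le_max_of_le_left h0, ?_⟩
    rintro y (hy | hy)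
    exacts [(h y hy).imp fun _ => mono (le_max_left _ _),
      (h' y hy).imp fun _ => mono (le_max_right _ _)]
  · obtain ⟨C, h0, h⟩ := exists_pole_loc hD y
    exact ⟨_, mem_nhdsWithin_of_mem_nhds h, C, h0, fun _ h => h⟩

end Vale.Agent.P277Z.Van.GG
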