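import Vale.Agent.P277Z.Van.GGa
import Vale.Agent.P277Z.Van.Lim
import Vale.Agent.P277Z.Van.Riem

/-!
# P277Z, block VAN: an `L²` bound against a pole gives a pointwise bound
-/

open scoped Manifold ContDiff ComplexOrder Topology ENNReal Matrix
open MeasureTheory Filter Set Metric Asymptotics

noncomputable section

namespace Vale.Agent.P277Z.Van.GG

open Vale.Agent.P272.K Vale.Agent.P301.H599 Vale.Agent.P285Z Vale.Agent.P285Z.G1
open Vale.Agent.P301.H98 (nrm)

variable {d : ℕ} {X : Type} [TopologicalSpace X] [ChartedSpace (Cm d) X] {κ : Type}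
  {M : LineBundle d X κ} {ρ : κ → X → ℝ} {e : Chart d X} {y : X} {h : Fm d X}

theorem Pole.le [IsManifold 𝓘(ℂ, Cm d) ω X] {K : Set X} {om : Fm d X} {C : ℝ} {u : X → ℝ}
    (H : Pole K om C y u) (hy : At e y) :
    ∃ A : ℝ, 0 < A ∧ ∀ᶠ x in 𝓝 y, u x ≤ A * ‖e x - e y‖ ^ 2 := by
  obtain ⟨e₀, h0, h1⟩ := H.loc
  obtain ⟨L, hL, h2⟩ := (transition_differentiableAt hy h0).isBigO_sub.exists_pos
  refine ⟨(d + 1) * L ^ 2, by positivity, ?_⟩
  filter_upwards [h1, (e.continuousAt hy.2).eventually h2.bound, e.open_source.mem_nhds hy.2]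
    with x h3 h4 h5
  rw [e.left_inv h5, hy.left_inv] at h4
  have h6 := pow_le_pow_left₀ (norm_nonneg _) h4 2
  have h7 := ns_le (e₀ y) (e₀ x)
  rw [h3]
  nlinarith [mul_le_mul_of_nonneg_left h6 (Nat.cast_nonneg (α := ℝ) d),
    sq_nonneg (L * ‖e x - e y‖)]

variable [MeasurableSpace X] [BorelSpace X] {μ : Measure X}

theorem vol_cpt (hh : IsHermitian h) (hμ : IsVol h μ) {K : Set X} (hK : IsCompact K) : μ K < ⊤ := by
  refine hK.measure_lt_top_of_nhdsWithin fun x _ => ?_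
  have hx := RiemH.at_self (d := d) x
  set e : Chart d X := chartAt (Cm d) x
  obtain ⟨r, hr, hb⟩ := Metric.eventually_nhds_iff_ball.1 (hx.nhds_target.and
    ((Lm.contAt_det hh hx).eventually (gt_mem_nhds (lt_add_one _))))
  have hO : IsOpen (e.source ∩ e ⁻¹' ball (e x) r) := e.isOpen_inter_preimage isOpen_ball
  refine ⟨_, mem_nhdsWithin_of_mem_nhds (hO.mem_nhds ⟨hx.2, mem_ball_self hr⟩), ?_⟩
  have h1 := RiemH.lint hμ hx.1 measurableSet_ball (fun z hz => (hb z hz).1) hO.measurableSet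
    (f := fun _ => 1) continuousOn_const
  rw [setLIntegral_one] at h1
  rw [h1]
  refine (setLIntegral_mono' measurableSet_ball fun z hz => ?_).trans_lt
    ((setLIntegral_const _ (ENNReal.ofReal ((h e (e x)).det.re + 1))).trans_lt
      (ENNReal.mul_lt_top ENNReal.ofReal_lt_top measure_ball_lt_top))
  rw [one_mul]
  exact ENNReal.ofReal_le_ofReal (hb z hz).2.le

/-- the pointwise bound -/
theorem loc_bd (hh : IsHermitian h) (hμ : IsVol h μ) (hρ : IsMetric M ρ) (hy : At e y) {p : κ}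
    (hp : y ∈ M.U p) {V : Set X} (hV : V ∈ 𝓝 y) (n : ℕ) {B : ℝ≥0∞} (hB : B ≠ ⊤) {E : ℝ}
    (hE : 0 < E) : ∃ R C : ℝ, 0 < R ∧ ∀ (H : κ → X → ℂ) (w : X → ℝ) (t : ℝ), SecOn M V H →
      0 < t → t < R → (∀ x ∈ V, x ∈ e.source → ‖e x - e y‖ ≤ 2 * t → E / t ^ (2 * (d + n)) ≤ w x) →
      ∫⁻ x in V, ENNReal.ofReal (nrm M ρ H x * w x) ∂μ ≤ B →
      ∀ x ∈ e.source, ‖e x - e y‖ ≤ t → ‖H p x‖ ≤ C * t ^ n := by
  have a1 : ContinuousAt (fun z => Real.exp (-ρ p (e.symm z)) * (h e z).det.re) (e y) :=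
    (Real.continuous_exp.continuousAt.comp (hρ.smooth p e _ hy hp).continuousAt.neg).mul
      (Lm.contAt_det hh hy)
  have a2 : 0 < Real.exp (-ρ p (e.symm (e y))) * (h e (e y)).det.re :=
    mul_pos (Real.exp_pos _) (Complex.lt_def.1 (hh.posDef e _ hy).det_pos).1
  obtain ⟨m, hm, a3⟩ := exists_between a2
  obtain ⟨R, hR, hb⟩ := Metric.eventually_nhds_iff_ball.1 ((a1.eventually (lt_mem_nhds a3)).and
    ((P301.H98.ev_mem hy hp).and (ev_chart hy (P := fun x => x ∈ V) hV)))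
  set β := (volume (ball (0 : Cm d) 1)).toReal with hβ
  have hβ0 : 0 < β :=
    ENNReal.toReal_pos (measure_ball_pos volume _ one_pos).ne' measure_ball_lt_top.ne
  refine ⟨R / 2, √(B.toReal / (E * m * β)), half_pos hR, fun H w t hH ht htR hw hI x hx hxt => ?_⟩
  have b0 : ball (e x) t ⊆ ball (e y) R :=
    ball_subset_ball' (by rw [dist_eq_norm]; linarith)
  have hO : IsOpen (e.source ∩ e ⁻¹' ball (e x) t) := e.isOpen_inter_preimage isOpen_ball
  have b2 : ∀ z ∈ e.source ∩ e ⁻¹' ball (e x) t, z ∈ M.U p ∧ z ∈ V := fun z hz => by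
    have := (hb _ (b0 hz.2)).2
    rw [e.left_inv hz.1] at this
    exact ⟨this.1.2, this.2⟩
  have b3 : ∀ z ∈ e.source ∩ e ⁻¹' ball (e x) t, nrm M ρ H z = ‖H p z‖ ^ 2 * Real.exp (-ρ p z) :=
    fun z hz => RiemH.nrm_on hρ hH (b2 z hz).1 (b2 z hz).2
  set c := E / t ^ (2 * (d + n)) with hc
  have hc0 : 0 < c := by positivity
  have b4 := RiemH.lint hμ hy.1 measurableSet_ball (fun z hz => (hb z (b0 hz)).2.1.1)
    hO.measurableSet (f := fun z => ENNReal.ofReal (‖H p z‖ ^ 2 * Real.exp (-ρ p z) * c))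
    (ENNReal.continuous_ofReal.comp_continuousOn fun z hz => ContinuousAt.continuousWithinAt
      ((((Lm.contAt hz.1 (hH.holo p e z ⟨hy.1, hz.1⟩ (b2 z hz).1 (b2 z hz).2).continuousAt).norm.pow
      2).mul (Real.continuous_exp.continuousAt.comp (Lm.contAt hz.1
        (hρ.smooth p e z ⟨hy.1, hz.1⟩ (b2 z hz).1).continuousAt).neg)).mul continuousAt_const))
  have b5 : ∫⁻ z in e.source ∩ e ⁻¹' ball (e x) t,
      ENNReal.ofReal (‖H p z‖ ^ 2 * Real.exp (-ρ p z) * c) ∂μ ≤ B := by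
    refine le_trans (setLIntegral_mono' hO.measurableSet fun z hz => ENNReal.ofReal_le_ofReal ?_)
      ((lintegral_mono_set fun z hz => (b2 z hz).2).trans hI)
    rw [← b3 z hz]
    refine mul_le_mul_of_nonneg_left (hw z (b2 z hz).2 hz.1 ?_) (nrm_nonneg' _ _ _ _)
    linarith [norm_sub_le_norm_sub_add_norm_sub (e z) (e x) (e y), mem_ball_iff_norm.1 hz.2]
  have b6 := Lm.mean (G := fun z => H p (e.symm z)) ht (mul_pos hm hc0) (fun z hz =>
    (RiemH.holo_on hH hy.1 (hb z (b0 hz)).2.1.1 (hb z (b0 hz)).2.1.2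
      (hb z (b0 hz)).2.2).differentiableAt.differentiableWithinAt) subset_rfl (fun z hz => by
      rw [← ENNReal.ofReal_mul (by positivity)]
      refine ENNReal.ofReal_le_ofReal ?_
      have := mul_le_mul_of_nonneg_left (hb z (b0 hz)).1.le
        (by positivity : 0 ≤ ‖H p (e.symm z)‖ ^ 2 * c)
      linarith) hB (b4 ▸ b5)
  rw [e.left_inv hx, Measure.addHaar_ball_of_pos volume _ ht, ENNReal.toReal_mul,
    ENNReal.toReal_ofReal (by positivity), ← hβ, finrank_real_of_complex, Module.finrank_fin_fun,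
    show B.toReal / (m * c * (t ^ (2 * d) * β)) = B.toReal / (E * m * β) * (t ^ n) ^ 2 by
      rw [hc]; field_simp; ring, Real.sqrt_mul (by positivity), Real.sqrt_sq (by positivity)] at b6
  exact b6

end Vale.Agent.P277Z.Van.GG
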