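import Vale.Agent.P277Z.Van.GGb

/-!
# P277Z, block VAN: sections with prescribed jets, the main estimate
-/

open scoped Manifold ContDiff ComplexOrder Topology ENNReal Matrix
open MeasureTheory Filter Set Metric Asymptotics

noncomputable section

namespace Vale.Agent.P277Z.Van.GG

open Vale.Agent.P272.K Vale.Agent.P301.H599 Vale.Agent.P285Z Vale.Agent.P285Z.G1
open Vale.Agent.P301.H98 (nrm)
open Vale.Agent.P301.H862 (IsSc)

variable {d : ℕ} {X : Type} [TopologicalSpace X] [ChartedSpace (Cm d) X] {κ : Type}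
  {M : LineBundle d X κ} {ρ : κ → X → ℝ} {h om : Fm d X} {Ω K : Set X}

theorem sigma {ψ : X → ℝ} (H : Exh d Ω ψ) : IsSigmaCompact Ω :=
  ⟨fun n => {x | x ∈ Ω ∧ ψ x ≤ n}, fun n => H.cpt n, subset_antisymm
    (iUnion_subset fun _ _ hx => hx.1) fun x hx => mem_iUnion.2 ⟨⌈ψ x⌉₊, hx, Nat.le_ceil _⟩⟩

theorem exp_sum {ι : Type} [Fintype ι] {t : ι → ℝ} (ht : ∀ i, 0 < t i) (N : ℕ) :
    Real.exp (-(N * ∑ i, Real.log (t i))) = ((∏ i, t i) ^ N)⁻¹ := by
  rw [Real.exp_neg, Real.exp_nat_mul, Real.exp_sum]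
  simp only [Real.exp_log (ht _)]

theorem ddc_sum {ι : Type} (s : Finset ι) {f : ι → X → ℝ} (hf : ∀ i, Smooth (d := d) (f i))
    {e : Chart d X} {x : X} (hx : At e x) (v : Fin d → ℂ) :
    Qf (ddc (fun x => ∑ i ∈ s, f i x) e (e x)) v = ∑ i ∈ s, Qf (ddc (f i) e (e x)) v := by
  classical
  induction s using Finset.induction_on with
  | empty =>
    simp only [Finset.sum_empty]
    rw [ddc_const 0 e x hx]
    exact Ch.Qf_zero v
  | insert i s hi ih =>
    simp only [Finset.sum_insert hi]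
    rw [ddc_add (hf i) (Smooth.sum s fun j _ => hf j) e x hx, Qf_add, ih]

variable [IsManifold 𝓘(ℂ, Cm d) ω X] [T2Space X] [MeasurableSpace X] [BorelSpace X] {μ : Measure X}

theorem core (h1 : HormStmt) (hh : IsHermitian h) (hμ : IsVol h μ) (hW : WK d Ω) (hK : Ω ⊆ K)
    (hD : Dm K om) (hρ : IsMetric M ρ) (n : ℕ) {ι : Type} [Fintype ι] {y : ι → X}
    {u : ι → X → ℝ} {C : ℝ} (hu : ∀ i, Pole K om C (y i) (u i))
    (hΘ : ∀ e x, At e x → x ∈ Ω → ∀ v, (1 + (d + n : ℕ) * (Fintype.card ι * C)) *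
      Qf (om e (e x)) v ≤ Qf (curvature M ρ e (e x) - kc h e (e x)) v)
    {s : κ → X → ℂ} (hs : IsSc M s) {a : X → ℝ} (ha : Continuous a) (ha0 : ∀ x, 0 ≤ a x)
    (ha1 : ∀ i, ∀ᶠ x in 𝓝 (y i), a x = 0) (hb : DbarOn Ω M ρ s a om)
    (hV : ∀ i, ∃ V ∈ 𝓝 (y i), SecOn M V s) :
    ∃ F, SecOn M Ω F ∧ ∀ i p (e : Chart d X), y i ∈ Ω → At e (y i) → y i ∈ M.U p →
      (fun x => F p x - s p x) =O[𝓝 (y i)] fun x => ‖e x - e (y i)‖ ^ n := by
  classical
  obtain ⟨ψ, hψ⟩ := hW.1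
  set N := d + n with hN
  have huc := fun i => smooth_continuous (hu i).sm
  obtain ⟨Ba, hBa⟩ := hD.cpt.exists_bound_of_continuousOn ha.continuousOn
  obtain ⟨Bs, hBs⟩ := hD.cpt.exists_bound_of_continuousOn (continuous_nrm hρ hs).continuousOn
  obtain ⟨Bu, hBu⟩ := hD.cpt.exists_bound_of_continuousOn
    (continuous_finsetSum Finset.univ fun i _ => huc i).continuousOn
  have hB1 : ∀ x ∈ K, ∀ i, u i x + 1 ≤ |Bu| + 1 := fun x hx i => by
    have := Finset.single_le_sum (fun j _ => (hu j).nn x) (Finset.mem_univ i)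
    linarith [(le_abs_self _).trans ((hBu x hx).trans (le_abs_self Bu))]
  choose ε hε hε' using fun i =>
    (hD.cpt.diff (isOpen_interior (s := {x | a x = 0}))).exists_forall_le' (huc i).continuousOn
      fun x hx => (hu i).pos x fun e => hx.2 (e ▸ mem_interior_iff_mem_nhds.2 (ha1 i))
  have hE : 0 < (∏ i, ε i) ^ N := pow_pos (Finset.prod_pos fun i _ => hε i) N
  set B := ENNReal.ofReal (|Ba| * ((∏ i, ε i) ^ N)⁻¹) * μ K with hB
  have hμK := (vol_cpt hh hμ hD.cpt).ne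
  have hBt : B ≠ ⊤ := ENNReal.mul_ne_top ENNReal.ofReal_ne_top hμK
  have key : ∀ δ : ℝ, 0 < δ → ∃ G, SecOn M Ω G ∧ ∫⁻ x in Ω, ENNReal.ofReal
      (nrm M ρ (fun i y => G i y - s i y) x * ((∏ i, (u i x + δ)) ^ N)⁻¹) ∂μ ≤ B := by
    intro δ hδ
    have hl := fun i => smooth_lg (hu i).sm (hu i).nn hδ
    have hS := Smooth.sum Finset.univ fun i _ => hl i
    have hΨ := hS.const_mul (N : ℝ)
    have hQ : ∀ e x, At e x → x ∈ Ω → ∀ v, Qf (om e (e x)) v ≤
        Qf (curvature M ρ e (e x) - kc h e (e x) +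
          ddc (fun x => (N : ℝ) * ∑ i, Real.log (u i x + δ)) e (e x)) v := by
      intro e x hx hxΩ v
      have q1 := Finset.sum_le_sum fun i (_ : i ∈ Finset.univ) => (hu i).ge δ hδ e x hx (hK hxΩ) v
      rw [Finset.sum_const, Finset.card_univ, nsmul_eq_mul] at q1
      have q2 := mul_le_mul_of_nonneg_left q1 (Nat.cast_nonneg (α := ℝ) N)
      have q3 := hΘ e x hx hxΩ v
      rw [Qf_add, ddc_const_mul _ hS e x hx, Qf_smul, ddc_sum _ hl hx]
      linarith
    obtain ⟨G, hG, hI⟩ := h1 d X h μ hh hμ Ω hW κ M ρ hρ _ (fun e x hx _ => hΨ e x hx)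
      (fun e x hx hxΩ => psd_of_Qf (by
        refine (((P301.H98.rform_curvature hρ).herm e x hx).sub ?_).add (Ch.ddc_herm hΨ hx)
        rw [← curvature_canB hh e x hx]
        exact (P301.H98.rform_curvature (isMetric_canB hh)).herm e x hx)
        fun v => (hD.nn e x hx (hK hxΩ) v).trans (hQ e x hx hxΩ v)) s
      ⟨fun i e x h1 h2 _ => hs.smooth i e x h1 h2, fun i j x h1 h2 _ => hs.change i j x h1 h2⟩ a
      ha.continuousOn (fun x _ => ha0 x) fun i e x hx hi hxΩ v =>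
        (hb i e x hx hi hxΩ v).trans (mul_le_mul_of_nonneg_left (hQ e x hx hxΩ v) (ha0 x))
    have hpos : ∀ x i, 0 < u i x + δ := fun x i => add_pos_of_nonneg_of_pos ((hu i).nn x) hδ
    simp only [exp_sum (hpos _)] at hI
    refine ⟨G, hG, hI.trans (le_trans (setLIntegral_mono' hψ.isOpen.measurableSet fun x hx =>
      ENNReal.ofReal_le_ofReal ?_) ((setLIntegral_const _ _).le.trans
        (mul_le_mul_right (measure_mono hK) _)))⟩
    by_cases h0 : a x = 0
    · rw [h0, zero_mul]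
      positivity
    · refine mul_le_mul ((le_abs_self _).trans ((hBa x (hK hx)).trans (le_abs_self _)))
        (inv_anti₀ hE (pow_le_pow_left₀ (Finset.prod_nonneg fun i _ => (hε i).le)
          (Finset.prod_le_prod (fun i _ => (hε i).le) fun i _ => ?_) N))
        (inv_nonneg.2 (pow_nonneg (Finset.prod_nonneg fun i _ => (hpos x i).le) N)) (abs_nonneg _)
      linarith [hε' i x ⟨hK hx, fun h2 => h0 (interior_subset (s := {x | a x = 0}) h2)⟩]
  choose G hG hI using fun k : ℕ => key (1 / ((k : ℝ) + 1)) (by positivity)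
  have hδ1 : ∀ k : ℕ, 0 < 1 / ((k : ℝ) + 1) ∧ 1 / ((k : ℝ) + 1) ≤ 1 := fun k =>
    ⟨by positivity, by rw [div_le_one (by positivity)]; linarith [Nat.cast_nonneg (α := ℝ) k]⟩
  have hpos : ∀ (k : ℕ) x i, 0 < u i x + 1 / ((k : ℝ) + 1) := fun k x i =>
    add_pos_of_nonneg_of_pos ((hu i).nn x) (hδ1 k).1
  set E := (|Bu| + 1) ^ Fintype.card ι with hEd
  have hE1 : 1 ≤ |Bu| + 1 := by linarith [abs_nonneg Bu]
  have hE0 : 0 < E := by positivity
  have hP : ∀ (k : ℕ), ∀ x ∈ K, ∀ s : Finset ι, ∏ i ∈ s, (u i x + 1 / ((k : ℝ) + 1)) ≤ E :=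
    fun k x hx s => (Finset.prod_le_prod (fun i _ => (hpos k x i).le) fun i _ =>
      le_trans (by linarith [(hδ1 k).2]) (hB1 x hx i)).trans (by
        rw [Finset.prod_const]
        exact pow_le_pow_right₀ hE1 (Finset.card_le_univ s))
  obtain ⟨F, hF, φ, hφ, hlim⟩ := lim d X h μ hh hμ Ω hψ.isOpen (sigma hψ) κ M ρ hρ G fun x hx =>
    ⟨Ω, hψ.isOpen, hx, ENNReal.ofReal (2 * E ^ N) * B + ENNReal.ofReal (2 * |Bs|) * μ K,
      ENNReal.add_ne_top.2 ⟨ENNReal.mul_ne_top ENNReal.ofReal_ne_top hBt,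
        ENNReal.mul_ne_top ENNReal.ofReal_ne_top hμK⟩, .of_forall fun k => ⟨hG k, by
      refine le_trans (setLIntegral_mono' hψ.isOpen.measurableSet (g := fun x =>
        ENNReal.ofReal (2 * E ^ N) * ENNReal.ofReal (nrm M ρ (fun i y => G k i y - s i y) x *
          ((∏ i, (u i x + 1 / ((k : ℝ) + 1))) ^ N)⁻¹) + ENNReal.ofReal (2 * |Bs|))
        fun x hx => ?_) ?_
      · have h3 := nrm_add_le M ρ (fun i y => G k i y - s i y) s x
        simp only [sub_add_cancel] at h3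
        have h4 := nrm_nonneg' M ρ (fun i y => G k i y - s i y) x
        have h5 : 0 < (∏ i, (u i x + 1 / ((k : ℝ) + 1))) := Finset.prod_pos fun i _ => hpos k x i
        have h6 : 1 ≤ E ^ N * ((∏ i, (u i x + 1 / ((k : ℝ) + 1))) ^ N)⁻¹ := by
          rw [← div_eq_mul_inv, one_le_div (by positivity)]
          exact pow_le_pow_left₀ h5.le (hP k x (hK hx) _) N
        rw [← ENNReal.ofReal_mul (by positivity),
          ← ENNReal.ofReal_add (by positivity) (by positivity)]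
        refine ENNReal.ofReal_le_ofReal ?_
        nlinarith [(le_abs_self _).trans ((hBs x (hK hx)).trans (le_abs_self Bs))]
      · rw [lintegral_add_right _ measurable_const,
          lintegral_const_mul' _ _ ENNReal.ofReal_ne_top, setLIntegral_const]
        exact add_le_add (mul_le_mul_right (hI k) _) (mul_le_mul_right (measure_mono hK) _)⟩⟩
  refine ⟨F, hF, fun i p e hyΩ hy hp => ?_⟩
  obtain ⟨V, hV1, hV2⟩ := hV i
  obtain ⟨A, hA, hA'⟩ := (hu i).le hy
  have hW : {x | x ∈ Ω ∧ x ∈ V ∧ u i x ≤ A * ‖e x - e (y i)‖ ^ 2} ∈ 𝓝 (y i) :=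
    inter_mem (hψ.isOpen.mem_nhds hyΩ) (inter_mem hV1 hA')
  obtain ⟨R, c, hR, hc⟩ := loc_bd hh hμ hρ hy hp hW n hBt
    (E := (((4 * A + 1) * E) ^ N)⁻¹) (by positivity)
  have e1 : ∀ᶠ x in 𝓝 (y i), ‖e x - e (y i)‖ < R :=
    ((e.continuousAt hy.2).sub continuousAt_const).norm.eventually (gt_mem_nhds (by simpa using hR))
  refine IsBigO.of_bound c ?_
  filter_upwards [e1, e.open_source.mem_nhds hy.2, hψ.isOpen.mem_nhds hyΩ,
    (M.isOpen p).mem_nhds hp] with x h2 h3 h4 h5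
  have h6 : Tendsto (fun k => G (φ k) p x) atTop (𝓝 (F p x)) := by
    refine Metric.tendsto_nhds.2 fun η hη => ?_
    have h7 := Real.exp_pos (-ρ p x)
    filter_upwards [hlim {x} isCompact_singleton (singleton_subset_iff.2 h4)
      ((η / 2) ^ 2 * Real.exp (-ρ p x)) (by positivity)] with k hk
    have h8 := hk x rfl
    rw [Lm.nrm_eq hρ (fun q q' h1 h2 => by
      rw [(hG _).change q q' x h1 h2 h4, hF.change q q' x h1 h2 h4, mul_sub]) h5] at h8
    rw [dist_eq_norm]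
    linarith [abs_le_of_sq_le_sq' (le_of_mul_le_mul_right h8 h7) (by positivity)]
  rw [Real.norm_of_nonneg (by positivity)]
  have h7 : Tendsto (fun t : ℝ => c * t ^ n) (𝓝[>] ‖e x - e (y i)‖) (𝓝 (c * ‖e x - e (y i)‖ ^ n)) :=
    (Continuous.tendsto (by fun_prop) _).mono_left nhdsWithin_le_nhds
  refine ge_of_tendsto h7 ?_
  filter_upwards [Ioo_mem_nhdsGT h2] with t ht
  have ht0 : 0 < t := (norm_nonneg _).trans_lt ht.1
  refine le_of_tendsto (h6.sub_const (s p x)).norm ?_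
  filter_upwards [((tendsto_one_div_add_atTop_nhds_zero_nat (𝕜 := ℝ)).comp
    hφ.tendsto_atTop).eventually (ge_mem_nhds (pow_pos ht0 2))] with k hk
  refine hc (fun i y => G (φ k) i y - s i y) _ t ⟨fun q f z h1 h2 h3 =>
    ((hG _).holo q f z h1 h2 h3.1).sub (hV2.holo q f z h1 h2 h3.2.1), fun q q' z h1 h2 h3 => by
      rw [(hG _).change q q' z h1 h2 h3.1, hs.change q q' z h1 h2, mul_sub]⟩ ht0 ht.2
    (fun z hz _ h9 => ?_) ((lintegral_mono_set fun z hz => hz.1).trans (hI (φ k))) x h3 ht.1.le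
  rw [div_eq_mul_inv, ← mul_inv, pow_mul, ← mul_pow]
  refine inv_anti₀ (pow_pos (Finset.prod_pos fun j _ => hpos _ z j) N)
    (pow_le_pow_left₀ (Finset.prod_nonneg fun j _ => (hpos _ z j).le) ?_ N)
  rw [← Finset.mul_prod_erase _ _ (Finset.mem_univ i), mul_right_comm]
  refine mul_le_mul ?_ (hP _ z (hK hz.1) _) (Finset.prod_nonneg fun j _ => (hpos _ z j).le)
    (by positivity)
  have h10 := mul_le_mul_of_nonneg_left (pow_le_pow_left₀ (norm_nonneg _) h9 2) hA.le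
  have h11 : 1 / ((φ k : ℝ) + 1) ≤ t ^ 2 := hk
  nlinarith [hz.2.2]

end Vale.Agent.P277Z.Van.GG
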