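import Vale.Agent.P277Z.Van.Defs
import Vale.Agent.P284.H608.K.Eng
import Vale.Agent.P284Z.L.S1.Loc
import Vale.Agent.P284Z.L.S3.A

/-!
# P277Z, block VAN: the framed charts of an open subset `Ω`
-/

open scoped Manifold ContDiff ComplexOrder Topology ENNReal Matrix ComplexConjugate
open MeasureTheory Filter Set

set_option linter.unusedSectionVars false

noncomputable section

namespace Vale.Agent.P277Z.Van

open Vale.Agent.P272.K Vale.Agent.P301.H599 Vale.Agent.P285Z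
open Vale.Agent.P301.H98 (IsSection nrm)
open Vale.Agent.P284.H608.K Vale.Agent.P284.H286.K
open Vale.Agent.P284Z.L (dt)

namespace Ka

theorem ev_dt {n : ℕ} (σ : Equiv.Perm (Fin n)) :
    ev (dt n) (fun i => σ i) = ((Equiv.Perm.sign σ : ℤ) : ℂ) := by
  have h := Matrix.det_permute σ (1 : Matrix (Fin n) (Fin n) ℂ)
  rw [Matrix.det_one, mul_one] at h
  rw [← h]
  change Matrix.det _ = _
  congr 1
  ext i j
  simp [Matrix.one_apply, Pi.single_apply, eq_comm]

theorem hn_dt {n : ℕ} {w : Matrix (Fin n) (Fin n) ℂ} (hw : w.PosDef) :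
    (hn w (dt n) (dt n)).re = (w.det.re)⁻¹ := by
  have h := Vale.Agent.P284.H752.k1Stmt.F1 n n le_rfl w hw (dt n) (dt n)
  have e : ∀ σ : Equiv.Perm (Fin n),
      ((Equiv.Perm.sign σ : ℤ) : ℂ) * ((Equiv.Perm.sign σ : ℤ) : ℂ) = 1 := fun σ => by
    rw [← Int.cast_mul, ← Units.val_mul, Int.units_mul_self, Units.val_one, Int.cast_one]
  have e2 : (Finset.univ.filter fun k : Fin n => n ≤ (k : ℕ)) = ∅ :=
    Finset.filter_eq_empty_iff.2 fun k _ => not_le.2 k.2
  have h1 : Qp le_rfl w (fun s t => ev (dt n) s * conj (ev (dt n) t)) = (n.factorial : ℂ) ^ 2 := by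
    unfold Qp
    simp only [Fin.castLE_refl, ev_dt, e2, Finset.prod_empty, mul_one, map_intCast,
      mul_mul_mul_comm _ _ _ _, e, Finset.sum_const, Finset.card_univ, Fintype.card_perm,
      Fintype.card_fin, nsmul_eq_mul, sq]
  rw [h1, Nat.sub_self, Nat.factorial_zero, Nat.cast_one, mul_one, mul_assoc, eq_comm,
    mul_eq_left₀ (pow_ne_zero 2 (Nat.cast_ne_zero.2 n.factorial_ne_zero))] at h
  obtain ⟨h2, h3⟩ := Complex.lt_def.1 hw.det_pos
  have h4 : w.det = (w.det.re : ℂ) := Complex.ext rfl (by simpa using h3.symm)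
  rw [eq_inv_of_mul_eq_one_right h, h4, ← Complex.ofReal_inv, Complex.ofReal_re,
    Complex.ofReal_re]

theorem top_eq {n : ℕ} (A : Af n n) : A = ev A id • dt n := by
  ext v
  have h := DFunLike.congr_fun (A.toAlternatingMap.eq_smul_basis_det (Pi.basisFun ℂ (Fin n))) v
  rw [Pi.basisFun_det] at h
  refine h.trans ?_
  change A _ * _ = A _ * _
  congr 2
  funext i
  exact Pi.basisFun_apply _ _ i

theorem dt_comp {n : ℕ} (L : Cm n →L[ℂ] Cm n) : (dt n).compContinuousLinearMap L =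
    (LinearMap.toMatrix' (L : Cm n →ₗ[ℂ] Cm n)).det • dt n := by
  rw [top_eq ((dt n).compContinuousLinearMap L), ← Matrix.det_transpose]
  congr 1

theorem jmat_fd {n : ℕ} {τ : Cm n → Cm n} {z : Cm n} (h : DifferentiableAt ℂ τ z) :
    jmat τ z = LinearMap.toMatrix' (fderiv ℂ τ z : Cm n →ₗ[ℂ] Cm n) := by
  ext p i
  have h1 : dz i (fun y => τ y p) z = _ := dz_of_holo (differentiableAt_comp_apply h p)
  rw [fderiv_apply h p] at h1
  exact h1

theorem det_tr {n : ℕ} (J B : Matrix (Fin n) (Fin n) ℂ) :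
    (J.transpose * B * J.map (starRingEnd ℂ)).det.re = ‖J.det‖ ^ 2 * B.det.re := by
  have h1 : (J.map (starRingEnd ℂ)).det = conj J.det := by
    rw [RingHom.map_det]; rfl
  rw [Matrix.det_mul, Matrix.det_mul, Matrix.det_transpose, h1, mul_right_comm, Complex.mul_conj,
    Complex.re_ofReal_mul, Complex.normSq_eq_norm_sq]

variable {d : ℕ} {X : Type} [TopologicalSpace X] [ChartedSpace (Cm d) X] {κ : Type} {Ω : Set X}

open Classical in
/-- the restriction of a chart to `U ∩ Ω` -/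
def sub (e : Chart d X) {U : Set X} (hU : IsOpen U) (hΩ : IsOpen Ω) (x₀ : Ω) :
    OpenPartialHomeomorph Ω (Cm d) where
  toFun x := e x.1
  invFun z := if h : e.symm z ∈ Ω then ⟨e.symm z, h⟩ else x₀
  source := {x | x.1 ∈ e.source ∧ x.1 ∈ U}
  target := {z | z ∈ e.target ∧ e.symm z ∈ U ∩ Ω}
  map_source' x hx := ⟨e.map_source hx.1, by rw [e.left_inv hx.1]; exact ⟨hx.2, x.2⟩⟩
  map_target' z hz := by
    rw [dif_pos hz.2.2]
    exact ⟨e.map_target hz.1, hz.2.1⟩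
  left_inv' x hx := by
    have h : e.symm (e x.1) ∈ Ω := by rw [e.left_inv hx.1]; exact x.2
    rw [dif_pos h]
    exact Subtype.ext (e.left_inv hx.1)
  right_inv' z hz := by
    rw [dif_pos hz.2.2]
    exact e.right_inv hz.1
  open_source := (e.open_source.inter hU).preimage continuous_subtype_val
  open_target := e.isOpen_inter_preimage_symm (hU.inter hΩ)
  continuousOn_toFun := e.continuousOn.comp continuous_subtype_val.continuousOn fun x hx => hx.1
  continuousOn_invFun := by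
    rw [Topology.IsInducing.subtypeVal.continuousOn_iff]
    refine (e.continuousOn_symm.mono fun z hz => hz.1).congr fun z hz => ?_
    change (if h : e.symm z ∈ Ω then (⟨e.symm z, h⟩ : Ω) else x₀).1 = _
    rw [dif_pos hz.2.2]

variable {e e' : Chart d X} {U U' : Set X} {hU : IsOpen U} {hU' : IsOpen U'} {hΩ : IsOpen Ω}
  {x₀ : Ω} {z : Cm d}

theorem sub_symm (hz : z ∈ (sub e hU hΩ x₀).target) :
    ((sub e hU hΩ x₀).symm z).1 = e.symm z := by
  exact congrArg Subtype.val (dif_pos hz.2.2)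

theorem sub_near (hz : z ∈ (sub e hU hΩ x₀).target) :
    ∀ᶠ y in 𝓝 z, ((sub e hU hΩ x₀).symm y).1 = e.symm y :=
  mem_of_superset ((sub e hU hΩ x₀).open_target.mem_nhds hz) fun _ hy => sub_symm hy

theorem tr_near (hz : z ∈ (sub e hU hΩ x₀).target) :
    (fun y => sub e' hU' hΩ x₀ ((sub e hU hΩ x₀).symm y)) =ᶠ[𝓝 z] fun y => e' (e.symm y) :=
  (sub_near hz).mono fun _ hy => congrArg e' hy

theorem jac_sub {x : Ω} (hx : x ∈ (sub e hU hΩ x₀).source) :
    jacM (sub e hU hΩ x₀) (sub e' hU' hΩ x₀) x = jacM e e' x.1 :=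
  jmat_congr (tr_near ((sub e hU hΩ x₀).map_source hx))

/-- `det w / det h` -/
def rat (h w : Fm d X) (x : X) : ℝ :=
  (w (chartAt (Cm d) x) (chartAt (Cm d) x x)).det.re /
    (h (chartAt (Cm d) x) (chartAt (Cm d) x x)).det.re

variable {h w : Fm d X} {x : X}

theorem det_pos {A : Matrix (Fin d) (Fin d) ℂ} (hA : A.PosDef) : 0 < A.det.re :=
  (Complex.lt_def.1 hA.det_pos).1

variable [IsManifold 𝓘(ℂ, Cm d) ω X]

theorem rat_eq (hh : IsHermitian h) (hw : KahOn Ω w) (hx : At e x) (hΩ : x ∈ Ω) :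
    rat h w x = (w e (e x)).det.re / (h e (e x)).det.re := by
  have hc := atChart (d := d) x
  have h1 := pow_pos (norm_pos_iff.2 (jacM_det_ne_zero hx hc)) 2
  rw [hw.change e _ x hx hc hΩ, hh.change e _ x hx hc, det_tr, det_tr,
    mul_div_mul_left _ _ h1.ne']
  rfl

theorem rat_pos (hh : IsHermitian h) (hw : KahOn Ω w) (hΩ : x ∈ Ω) : 0 < rat h w x :=
  div_pos (det_pos (hw.posDef _ x (atChart x) hΩ)) (det_pos (hh.posDef _ x (atChart x)))

theorem rat_cont (hh : IsHermitian h) (hw : KahOn Ω w) (hΩ : IsOpen Ω) :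
    ContinuousOn (rat h w) Ω := by
  intro x hx
  have hc := atChart (d := d) x
  set e := chartAt (Cm d) x
  have c : ∀ {a : Fm d X}, (∀ i j, ContDiffAt ℝ ∞ (fun z => a e z i j) (e x)) →
      ContinuousAt (fun y => (a e (e y)).det.re) x := fun {a} ha =>
    (Complex.continuous_re.continuousAt.comp
      (INT.contDiffAt_det (k := ∞) ha).continuousAt).comp (f := e) (e.continuousAt hc.2)
  refine (((c (hw.smooth e x hc hx)).div (c (hh.smooth e x hc))
    (det_pos (hh.posDef e x hc)).ne').congr ?_).continuousWithinAt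
  filter_upwards [e.open_source.mem_nhds hc.2, hΩ.mem_nhds hx] with y h1 h2
  exact (rat_eq hh hw ⟨hc.1, h1⟩ h2).symm

variable [MeasurableSpace X] [BorelSpace X] {μ : Measure X}

/-- the volume measure of `w` on `Ω` -/
def nu (Ω : Set X) (h w : Fm d X) (μ : Measure X) : Measure Ω :=
  (μ.comap Subtype.val).withDensity fun x => ENNReal.ofReal (rat h w x.1)

theorem rat_meas (hh : IsHermitian h) (hw : KahOn Ω w) (hΩ : IsOpen Ω) :
    Measurable fun x : Ω => ENNReal.ofReal (rat h w x.1) :=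
  (rat_cont hh hw hΩ).domRestrict.measurable.ennreal_ofReal

theorem lint_nu (hh : IsHermitian h) (hw : KahOn Ω w) (hΩ : IsOpen Ω) (f : Ω → ℝ≥0∞)
    {F : X → ℝ≥0∞} (hF : ∀ x : Ω, ENNReal.ofReal (rat h w x.1) * f x = F x.1) :
    ∫⁻ x, f x ∂(nu Ω h w μ) = ∫⁻ x in Ω, F x ∂μ := by
  rw [nu, lintegral_withDensity_eq_lintegral_mul_non_measurable _ (rat_meas hh hw hΩ)
    (Eventually.of_forall fun _ => ENNReal.ofReal_lt_top), ← lintegral_subtype_comap hΩ.measurableSet]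
  exact lintegral_congr hF

theorem nu_vol (hh : IsHermitian h) (hμ : IsVol h μ) (hw : KahOn Ω w) (he : e ∈ atlas (Cm d) X)
    (f : Ω → ℝ≥0∞) (hf : Measurable f) (h0 : ∀ x, x ∉ (sub e hU hΩ x₀).source → f x = 0) :
    ∫⁻ x, f x ∂(nu Ω h w μ) = ∫⁻ z in (sub e hU hΩ x₀).target,
      f ((sub e hU hΩ x₀).symm z) * ENNReal.ofReal (w e z).det.re := by
  classical
  set F : X → ℝ≥0∞ := fun x =>
    if hx : x ∈ Ω then ENNReal.ofReal (rat h w x) * f ⟨x, hx⟩ else 0 with hF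
  have hFm : Measurable F := Measurable.dite (s := Ω)
    (f := fun x => ENNReal.ofReal (rat h w x.1) * f x) ((rat_meas hh hw hΩ).mul hf)
    (g := fun _ => 0) measurable_const hΩ.measurableSet
  have F0 : ∀ x, ¬(x ∈ e.source ∧ x ∈ U ∩ Ω) → F x = 0 := fun x hx => by
    by_cases h1 : x ∈ Ω
    · rw [hF]
      simp only [dif_pos h1]
      rw [h0 ⟨x, h1⟩ fun h2 => hx ⟨h2.1, h2.2, h1⟩, mul_zero]
    · exact dif_neg h1
  rw [lint_nu hh hw hΩ f (F := F) fun x => by simp only [hF, dif_pos x.2],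
    setLIntegral_eq_of_support_subset fun x hx => by
      by_contra h1
      exact hx (F0 x fun h2 => h1 h2.2.2),
    hμ e he F hFm fun x hx => F0 x fun h2 => hx h2.1,
    ← lintegral_indicator e.open_target.measurableSet,
    ← lintegral_indicator (sub e hU hΩ x₀).open_target.measurableSet]
  refine lintegral_congr fun z => ?_
  by_cases hz : z ∈ (sub e hU hΩ x₀).target
  · have a1 := At.of_target he hz.1
    have a2 := rat_eq hh hw a1 hz.2.2
    have a3 := det_pos (hh.posDef e _ a1)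
    have a4 := det_pos (hw.posDef e _ a1 hz.2.2)
    rw [e.right_inv hz.1] at a2 a3 a4
    rw [indicator_of_mem hz, indicator_of_mem hz.1, hF]
    simp only [dif_pos hz.2.2]
    rw [a2, mul_right_comm, ← ENNReal.ofReal_mul (by positivity), div_mul_cancel₀ _ a3.ne',
      mul_comm]
    congr 2
    exact Subtype.ext (sub_symm hz).symm
  · rw [indicator_of_notMem hz]
    by_cases h1 : z ∈ e.target
    · rw [indicator_of_mem h1, F0 _ fun h2 => hz ⟨h1, h2.2⟩, zero_mul]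
    · exact indicator_of_notMem h1 _

/-- the total weight in a chart -/
def wt (h : Fm d X) (ρ Ψ : X → ℝ) (e : Chart d X) (z : Cm d) : ℝ :=
  ρ (e.symm z) + Ψ (e.symm z) - Real.log (h e z).det.re

omit [IsManifold 𝓘(ℂ, Cm d) ω X] [MeasurableSpace X] [BorelSpace X] in
theorem exp_wt (hh : IsHermitian h) (hx : At e x) (ρ Ψ : X → ℝ) :
    Real.exp (-wt h ρ Ψ e (e x)) = Real.exp (-ρ x) * Real.exp (-Ψ x) * (h e (e x)).det.re := by
  rw [wt, hx.left_inv, neg_sub, sub_eq_add_neg, neg_add, Real.exp_add, Real.exp_add,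
    Real.exp_log (det_pos (hh.posDef e x hx))]
  ring

omit [IsManifold 𝓘(ℂ, Cm d) ω X] [MeasurableSpace X] [BorelSpace X] in
theorem sm_logdet (hh : IsHermitian h) (hx : At e x) :
    ContDiffAt ℝ ∞ (fun z => Real.log (h e z).det.re) (e x) :=
  (Complex.reCLM.contDiff.contDiffAt.comp _ (INT.contDiffAt_det (k := ∞)
    (hh.smooth e x hx))).log (det_pos (hh.posDef e x hx)).ne'

variable {M : LineBundle d X κ} {ρ : κ → X → ℝ} {Ψ : X → ℝ}

/-- the data of the engine -/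
structure Dt (Ω : Set X) (h w : Fm d X) (μ : Measure X) (M : LineBundle d X κ) (ρ : κ → X → ℝ)
    (Ψ : X → ℝ) where
  op : IsOpen Ω
  x₀ : Ω
  hh : IsHermitian h
  vol : IsVol h μ
  kah : KahOn Ω w
  met : IsMetric M ρ
  sm : SmOn (d := d) Ω Ψ

omit [IsManifold 𝓘(ℂ, Cm d) ω X] [MeasurableSpace X] [BorelSpace X] in
theorem tgt {P : Cm d → Prop} (hz : z ∈ e.target) (hP : P (e (e.symm z))) : P z :=
  e.right_inv hz ▸ hP

/-- the bundle `M - K` on `Ω` -/
def ka (D : Dt Ω h w μ M ρ Ψ) : KA d Ω where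
  I := {p : Chart d X × κ // p.1 ∈ atlas (Cm d) X}
  e i := sub i.1.1 (M.isOpen i.1.2) D.op D.x₀
  w i := w i.1.1
  φ i := wt h (ρ i.1.2) Ψ i.1.1
  a i j z := M.g i.1.2 j.1.2 (i.1.1.symm z) * ((jacM i.1.1 j.1.1 (i.1.1.symm z)).det)⁻¹
  μ := nu Ω h w μ
  cover x := by
    obtain ⟨i, hi⟩ := M.cover x.1
    exact ⟨⟨(chartAt (Cm d) x.1, i), chart_mem_atlas _ _⟩, mem_chart_source _ _, hi⟩
  wsm i z hz j k := tgt hz.1 (D.kah.smooth _ _ (At.of_target i.2 hz.1) hz.2.2 j k)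
  wpos i z hz := tgt (P := fun z => (w i.1.1 z).PosDef) hz.1
    (D.kah.posDef _ _ (At.of_target i.2 hz.1) hz.2.2)
  wcl i z hz j k l := tgt (P := fun z => dz l _ z = dz j _ z) hz.1
    (D.kah.closed _ _ (At.of_target i.2 hz.1) hz.2.2 j k l)
  φsm i z hz := tgt hz.1 (((D.met.smooth _ _ _ (At.of_target i.2 hz.1) hz.2.1).add
    (D.sm _ _ (At.of_target i.2 hz.1) hz.2.2)).sub (sm_logdet D.hh (At.of_target i.2 hz.1)))
  hol i j z hz h := by
    have h1 : At j.1.1 (i.1.1.symm z) := ⟨j.2, sub_symm hz ▸ h.1⟩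
    exact (tgt hz.1 (transition (At.of_target i.2 hz.1) h1).analyticAt).congr (tr_near hz).symm
  wch i j x hi hj := by
    rw [jac_sub hi]
    exact D.kah.change _ _ _ ⟨i.2, hi.1⟩ ⟨j.2, hj.1⟩ x.2
  ahol i j z hz h := by
    have h0 := At.of_target i.2 hz.1
    have h1 : At j.1.1 (i.1.1.symm z) := ⟨j.2, sub_symm hz ▸ h.1⟩
    have h2 : i.1.1.symm z ∈ M.U j.1.2 := sub_symm hz ▸ h.2
    exact (tgt hz.1 (M.holo _ _ _ _ h0 hz.2.1 h2)).mul
      ((tgt hz.1 (jacM_det_holo h0 h1).analyticAt).inv (jacM_det_ne_zero h0 h1))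
  coc i j l x hi hj hl := by
    change M.g _ _ (i.1.1.symm (i.1.1 x.1)) * ((jacM _ _ (i.1.1.symm (i.1.1 x.1))).det)⁻¹ =
      M.g _ _ (i.1.1.symm (i.1.1 x.1)) * ((jacM _ _ (i.1.1.symm (i.1.1 x.1))).det)⁻¹ *
      (M.g _ _ (j.1.1.symm (j.1.1 x.1)) * ((jacM _ _ (j.1.1.symm (j.1.1 x.1))).det)⁻¹)
    rw [i.1.1.left_inv hi.1, j.1.1.left_inv hj.1, ← M.cocycle _ _ _ _ hi.2 hj.2 hl.2,
      jacM_comp ⟨i.2, hi.1⟩ ⟨j.2, hj.1⟩ ⟨l.2, hl.1⟩, Matrix.det_mul, mul_inv]
    ring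
  aself i x hi := by
    change M.g _ _ (i.1.1.symm (i.1.1 x.1)) * ((jacM _ _ (i.1.1.symm (i.1.1 x.1))).det)⁻¹ = 1
    rw [i.1.1.left_inv hi.1, jacM_self ⟨i.2, hi.1⟩, Matrix.det_one, inv_one, mul_one]
    exact mul_left_cancel₀ (M.ne_zero _ _ _ hi.2 hi.2)
      ((M.cocycle _ _ _ _ hi.2 hi.2 hi.2).trans (mul_one _).symm)
  φch i j x hi hj := by
    have a1 : At i.1.1 x.1 := ⟨i.2, hi.1⟩
    have a2 : At j.1.1 x.1 := ⟨j.2, hj.1⟩
    have h1 := norm_pos_iff.2 (jacM_det_ne_zero a1 a2)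
    have h2 := norm_pos_iff.2 (M.ne_zero _ _ _ hi.2 hj.2)
    change Real.exp (-wt h _ Ψ _ (i.1.1 x.1)) * ‖M.g _ _ (i.1.1.symm (i.1.1 x.1)) *
      ((jacM _ _ (i.1.1.symm (i.1.1 x.1))).det)⁻¹‖ ^ 2 = Real.exp (-wt h _ Ψ _ (j.1.1 x.1))
    rw [exp_wt D.hh a1, exp_wt D.hh a2, a1.left_inv, D.met.change _ _ _ hi.2 hj.2,
      D.hh.change _ _ _ a1 a2, det_tr, neg_add, Real.exp_add, Real.exp_neg (Real.log _),
      Real.exp_log (by positivity), norm_mul, norm_inv]
    field_simp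
  hμ i := nu_vol D.hh D.vol D.kah i.2

end Ka

end Vale.Agent.P277Z.Van
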