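import Vale.Agent.P277Z.Van.Cmp
import Vale.Agent.P285Z.Glue

/-!
# P277Z, block VAN: gluing and the `L²` estimate
-/

open scoped Manifold ContDiff ComplexOrder Topology ENNReal Matrix
open MeasureTheory Filter Set

noncomputable section

namespace Vale.Agent.P277Z.Van

open Vale.Agent.P272.K Vale.Agent.P301.H599 Vale.Agent.P285Z
open Vale.Agent.P301.H98 (IsSection nrm)

section li

variable {X : Type} [TopologicalSpace X] [MeasurableSpace X] {ν : Measure X} {g g' : X → ℝ} {x : X}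

/-- `g` is integrable near `x` -/
def LI (ν : Measure X) (g : X → ℝ) (x : X) : Prop :=
  ∃ V ∈ 𝓝 x, ∫⁻ y in V, ENNReal.ofReal (g y) ∂ν ≠ ⊤

theorem LI.mono [OpensMeasurableSpace X] (h : LI ν g' x) (hg : ∀ᶠ y in 𝓝 x, g y ≤ g' y) :
    LI ν g x := by
  obtain ⟨V, hV, h⟩ := h
  obtain ⟨O, h1, h2, h3⟩ := eventually_nhds_iff.1 (hg.and hV)
  refine ⟨O, h2.mem_nhds h3, ne_top_of_le_ne_top h ?_⟩
  exact (setLIntegral_mono' h2.measurableSet fun y hy =>
    ENNReal.ofReal_le_ofReal (h1 y hy).1).trans (lintegral_mono_set fun y hy => (h1 y hy).2)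

theorem li_zero : LI ν (fun _ => 0) x := ⟨univ, univ_mem, by simp⟩

theorem LI.const_mul (h : LI ν g x) {C : ℝ} (hC : 0 ≤ C) : LI ν (fun y => C * g y) x := by
  obtain ⟨V, hV, h⟩ := h
  refine ⟨V, hV, ?_⟩
  simp only [ENNReal.ofReal_mul hC]
  rw [lintegral_const_mul' _ _ ENNReal.ofReal_ne_top]
  exact ENNReal.mul_ne_top ENNReal.ofReal_ne_top h

theorem LI.add [OpensMeasurableSpace X] (h : LI ν g x) (h' : LI ν g' x)
    (hc : ∀ᶠ y in 𝓝 x, ContinuousAt g y) : LI ν (fun y => g y + g' y) x := by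
  obtain ⟨V, hV, h⟩ := h
  obtain ⟨V', hV', h'⟩ := h'
  obtain ⟨O, h1, h2, h3⟩ := eventually_nhds_iff.1 (hc.and (inter_mem hV hV'))
  refine ⟨O, h2.mem_nhds h3, ne_top_of_le_ne_top (ENNReal.add_ne_top.2 ⟨h, h'⟩) ?_⟩
  refine (lintegral_mono fun y => ENNReal.ofReal_add_le).trans ?_
  rw [lintegral_add_left' (ContinuousOn.aemeasurable
    (fun y hy => (h1 y hy).1.continuousWithinAt) h2.measurableSet).ennreal_ofReal]
  exact add_le_add (lintegral_mono_set fun y hy => (h1 y hy).2.1)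
    (lintegral_mono_set fun y hy => (h1 y hy).2.2)

theorem LI.sum [OpensMeasurableSpace X] {α : Type} (s : Finset α) {g : α → X → ℝ}
    (h : ∀ a, LI ν (g a) x) (hc : ∀ a, ∀ᶠ y in 𝓝 x, ContinuousAt (g a) y) :
    LI ν (fun y => ∑ a ∈ s, g a y) x := by
  classical
  induction s using Finset.induction_on with
  | empty => simpa using li_zero
  | insert j s hj ih =>
    simp only [Finset.sum_insert hj]
    exact (h j).add ih (hc j)

theorem li_cpt {K : Set X} (hK : IsCompact K) (h : ∀ x ∈ K, LI ν g x) :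
    ∫⁻ y in K, ENNReal.ofReal (g y) ∂ν ≠ ⊤ := by
  refine hK.induction_on (p := fun s => ∫⁻ y in s, ENNReal.ofReal (g y) ∂ν ≠ ⊤) (by simp)
    (fun s t hst ht => ne_top_of_le_ne_top ht (lintegral_mono_set hst))
    (fun s t hs ht => ne_top_of_le_ne_top (ENNReal.add_ne_top.2 ⟨hs, ht⟩)
      (lintegral_union_le _ _ _)) fun x hx => ?_
  obtain ⟨V, hV, h⟩ := h x hx
  exact ⟨V, mem_nhdsWithin_of_mem_nhds hV, h⟩

end li

variable {d : ℕ} {X : Type} [TopologicalSpace X] [ChartedSpace (Cm d) X] {κ α : Type}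
  {M : LineBundle d X κ} {ρ : κ → X → ℝ} {W W' : Set X} {s t : κ → X → ℂ} {x : X}
  {e : Chart d X}

theorem SecOn.sc (h : SecOn M W s) : ScOn M W s :=
  ⟨fun i e x hx hi hw => ((h.holo i e x hx hi hw).contDiffAt (n := ∞)).restrict_scalars ℝ, h.change⟩

theorem SecOn.mono (h : SecOn M W s) (hW : W' ⊆ W) : SecOn M W' s :=
  ⟨fun i e x hx hi hw => h.holo i e x hx hi (hW hw), fun i j x hi hj hw => h.change i j x hi hj (hW hw)⟩

theorem ScOn.mono (h : ScOn M W s) (hW : W' ⊆ W) : ScOn M W' s :=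
  ⟨fun i e x hx hi hw => h.smooth i e x hx hi (hW hw),
    fun i j x hi hj hw => h.change i j x hi hj (hW hw)⟩

theorem SecOn.sub (h : SecOn M W s) (h' : SecOn M W t) : SecOn M W fun i y => s i y - t i y :=
  ⟨fun i e x hx hi hw => (h.holo i e x hx hi hw).sub (h'.holo i e x hx hi hw),
    fun i j x hi hj hw => by rw [h.change i j x hi hj hw, h'.change i j x hi hj hw, mul_sub]⟩

theorem ScOn.sub (h : ScOn M W s) (h' : ScOn M W t) : ScOn M W fun i y => s i y - t i y :=
  ⟨fun i e x hx hi hw => (h.smooth i e x hx hi hw).sub (h'.smooth i e x hx hi hw),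
    fun i j x hi hj hw => by rw [h.change i j x hi hj hw, h'.change i j x hi hj hw, mul_sub]⟩

theorem secOn_zero : SecOn M W fun _ _ => 0 :=
  ⟨fun _ _ _ _ _ _ => analyticAt_const, fun _ _ _ _ _ _ => (mul_zero _).symm⟩

theorem secOn_of (h : IsSection M s) : SecOn M W s :=
  ⟨fun i e x hx hi _ => h.holo i e x hx hi, fun i j x hi hj _ => h.change i j x hi hj⟩

theorem ScOn.nrm_eq' (h : ScOn M W s) (hρ : IsMetric M ρ) {i : κ} (hi : x ∈ M.U i) (hw : x ∈ W) :
    nrm M ρ s x = ‖s i x‖ ^ 2 * Real.exp (-ρ i x) := by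
  have hj : x ∈ M.U (M.cover x).choose := (M.cover x).choose_spec
  rw [h.change i _ x hi hj hw, Gl.frame hρ hi hj]
  rfl

theorem ScOn.contAt_nrm (h : ScOn M W s) (hρ : IsMetric M ρ) (hW : IsOpen W) (hw : x ∈ W) :
    ContinuousAt (nrm M ρ s) x := by
  obtain ⟨i, hi⟩ := M.cover x
  have hx := atChart (d := d) x
  have h1 := (((h.smooth i _ x hx hi hw).continuousAt.norm.pow 2).mul
    (hρ.smooth i _ x hx hi).continuousAt.neg.rexp).comp ((chartAt (Cm d) x).continuousAt hx.2)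
  refine h1.congr ?_
  filter_upwards [(M.isOpen i).mem_nhds hi, hW.mem_nhds hw,
    (chartAt (Cm d) x).open_source.mem_nhds hx.2] with y h2 h3 h4
  rw [h.nrm_eq' hρ h2 h3]
  simp only [Function.comp_apply, Pi.mul_apply, Pi.pow_apply, Pi.neg_apply,
    (chartAt (Cm d) x).left_inv h4]

theorem term_smooth (h : SecOn M W s) {χ : X → ℝ} (hχ : Smooth (d := d) χ)
    (hs : tsupport χ ⊆ W) {i : κ} (hx : At e x) (hi : x ∈ M.U i) :
    ContDiffAt ℝ ∞ (fun z => (χ (e.symm z) : ℂ) * s i (e.symm z)) (e x) := by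
  by_cases hs' : x ∈ tsupport χ
  · exact (Complex.ofRealCLM.contDiff.contDiffAt.comp _ (hχ e x hx)).mul
      (h.sc.smooth i e x hx hi (hs hs'))
  · refine (contDiffAt_const (c := 0)).congr_of_eventuallyEq ?_
    filter_upwards [Gl.ev_zero hx hs'] with z hz
    rw [hz, Complex.ofReal_zero, zero_mul]

theorem term_dzb (h : SecOn M W s) {χ : X → ℝ} (hχ : Smooth (d := d) χ)
    (hs : tsupport χ ⊆ W) {i : κ} (hx : At e x) (hi : x ∈ M.U i) (v : Fin d → ℂ) :
    ∑ j, dzb j (fun z => (χ (e.symm z) : ℂ) * s i (e.symm z)) (e x) * v j =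
      s i x * Ch.DvX χ e x v := by
  by_cases hs' : x ∈ tsupport χ
  · simpa using Ch.dzb_chain_mulX (h := id) (hasDerivAt_id _) hχ hx (h.holo i e x hx hi (hs hs')) v
  · rw [Gl.DvX_zero hx hs', mul_zero]
    refine Finset.sum_eq_zero fun j _ => ?_
    rw [C2.dzb_congr j (g := fun _ => 0), C2.dzb_const, zero_mul]
    filter_upwards [Gl.ev_zero hx hs'] with z hz
    rw [hz, Complex.ofReal_zero, zero_mul]

theorem sum_DvX {n : ℕ} {χ : Fin n → X → ℝ} (hχ : ∀ b, Smooth (d := d) (χ b))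
    (h1 : ∀ᶠ y in 𝓝 x, ∑ b, χ b y = 1) (hx : At e x) (v : Fin d → ℂ) :
    ∑ b, Ch.DvX (χ b) e x v = 0 := by
  simp only [Ch.DvX, Ch.Dv]
  rw [Finset.sum_comm]
  refine Finset.sum_eq_zero fun j _ => ?_
  rw [← Finset.sum_mul, ← C2.dzb_sum j _ fun b _ =>
    C2.differentiableAt_ofReal (Ch.sm_diff (hχ b) hx), C2.dzb_congr j (g := fun _ => 1),
    C2.dzb_const, zero_mul]
  filter_upwards [Gl.ev_chart hx h1] with z hz
  rw [← Complex.ofReal_sum, hz, Complex.ofReal_one]

theorem sq_sum_le {n : ℕ} (u : Fin n → ℂ) : ‖∑ b, u b‖ ^ 2 ≤ n * ∑ b, ‖u b‖ ^ 2 := by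
  refine (pow_le_pow_left₀ (norm_nonneg _) (norm_sum_le _ _) 2).trans ?_
  simpa using sq_sum_le_card_mul_sum_sq (s := Finset.univ) (f := fun b => ‖u b‖)

variable [IsManifold 𝓘(ℂ, Cm d) ω X] [T2Space X]

theorem exists_part [SigmaCompactSpace X] {K : Set X} (hK : IsCompact K) (U : α → Set X)
    (hU : ∀ i, IsOpen (U i)) (hc : ∀ x ∈ K, ∃ i, x ∈ U i) :
    ∃ (N : ℕ) (c : Fin N → α) (χ : Fin N → X → ℝ), (∀ a, Smooth (d := d) (χ a)) ∧
      (∀ a, tsupport (χ a) ⊆ U (c a)) ∧ (∀ a x, 0 ≤ χ a x ∧ χ a x ≤ 1) ∧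
      ∀ x ∈ K, ∑ a, χ a x = 1 := by
  have := INT.isManifold_real d X
  obtain ⟨t, ht⟩ := hK.elim_finite_subcover U hU fun x hx => mem_iUnion.2 (hc x hx)
  obtain ⟨f, hf⟩ := SmoothPartitionOfUnity.exists_isSubordinate 𝓘(ℝ, Cm d) hK.isClosed
    (fun k : Fin t.card => U (t.equivFin.symm k)) (fun k => hU _) (fun x hx => by
      obtain ⟨i, hi, hxi⟩ := mem_iUnion₂.1 (ht hx)
      refine mem_iUnion.2 ⟨t.equivFin ⟨i, hi⟩, ?_⟩
      simpa using hxi)
  refine ⟨_, fun k => t.equivFin.symm k, fun k x => f k x,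
    fun k => INT.smoothFn_of_contMDiff (f k).contMDiff, hf,
    fun k x => ⟨f.nonneg k x, f.le_one k x⟩, fun x hx => ?_⟩
  have h1 := f.sum_eq_one hx
  rwa [finsum_eq_sum_of_fintype] at h1

theorem nad0 : Nad0Stmt := by
  intro d X _ _ _ _ _ _ _ ν Ω K hΩ hK hΩK κ M ρ Θ hρ hΘ hp H α W f hW hc hf hL
  have : LocallyCompactSpace X := ChartedSpace.locallyCompactSpace (Cm d) X
  obtain ⟨n, c, χ, hχ, hs, h01, h1⟩ := exists_part (d := d) hK W hW hc
  choose β b1 _ b3 b4 using fun b => exists_continuousMap_one_of_isCompact_subset_isOpen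
    (hK.inter_right (isClosed_tsupport (χ b))) (hW (c b)) (inter_subset_right.trans (hs b))
  choose C hC HC using fun b => exists_Dv_le hΘ hK hp (hχ b)
  set D : α → α → X → ℝ := fun a b => nrm M ρ fun i y => f b i y - f a i y with hD
  have D0 : ∀ a b x, 0 ≤ D a b x := fun a b x => nrm_nonneg' _ _ _ _
  have sc : ∀ a b, ScOn M (W a ∩ W b) fun i y => f b i y - f a i y := fun a b =>
    (((hf b).mono inter_subset_right).sub ((hf a).mono inter_subset_left)).sc
  have key : ∀ (φ : X → ℝ) a b x, Continuous φ → (∀ y, φ y ≤ 1) →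
      (x ∈ tsupport φ → x ∈ W a ∩ W b) → ContinuousAt (fun y => φ y * D a b y) x ∧
        (x ∈ K → LI ν (fun y => φ y * D a b y) x) := fun φ a b x hφ h2 h3 => by
    by_cases h4 : x ∈ tsupport φ
    · exact ⟨hφ.continuousAt.mul ((sc a b).contAt_nrm hρ ((hW a).inter (hW b)) (h3 h4)),
        fun hk => LI.mono (hL b a x hk (h3 h4).2 (h3 h4).1)
          (Eventually.of_forall fun y => mul_le_of_le_one_left (D0 a b y) (h2 y))⟩
    · have h5 : ∀ᶠ y in 𝓝 x, 0 = φ y * D a b y := by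
        filter_upwards [notMem_tsupport_iff_eventuallyEq.1 h4] with y hy
        rw [hy, Pi.zero_apply, zero_mul]
      exact ⟨continuousAt_const.congr h5, fun _ => li_zero.mono (h5.mono fun y hy => hy.ge)⟩
  have kT := fun a b x => key (fun y => β a y * β b y) (c a) (c b) x (by fun_prop)
    (fun y => mul_le_one₀ (b4 a y).2 (b4 b y).1 (b4 b y).2)
    fun hx => ⟨b3 a (tsupport_mul_subset_left hx), b3 b (tsupport_mul_subset_right hx)⟩
  set T : Fin n × Fin n → X → ℝ := fun p y => n * C p.2 * (β p.1 y * β p.2 y * D (c p.1) (c p.2) y)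
    with hT
  have T0 : ∀ p y, 0 ≤ T p y := fun p y => mul_nonneg (mul_nonneg n.cast_nonneg (hC _).le)
    (mul_nonneg (mul_nonneg (b4 _ y).1 (b4 _ y).1) (D0 _ _ y))
  have Tc : ∀ p y, ContinuousAt (T p) y := fun p y => continuousAt_const.mul (kT _ _ y).1
  have z0 : ∀ e z, Θ e z + ddc (d := d) (fun _ : X => (0 : ℝ)) e z = Θ e z := fun e z => by
    rw [ddc, C2.cHess_const, add_zero]
  have h2 : ∀ x ∈ Ω, ∑ b, (χ b x : ℂ) = 1 := fun x hx => by
    rw [← Complex.ofReal_sum, h1 x (hΩK hx), Complex.ofReal_one]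
  have hs0 : ScOn M Ω fun i x => ∑ b, χ b x * f (c b) i x :=
    ⟨fun i e x hx hi _ => ContDiffAt.sum fun b _ => term_smooth (hf _) (hχ b) (hs b) hx hi,
      fun i j x hi hj _ => by
        rw [Finset.mul_sum]
        refine Finset.sum_congr rfl fun b _ => ?_
        by_cases h0 : χ b x = 0
        · simp [h0]
        · rw [(hf _).change i j x hi hj (hs b (subset_tsupport _ h0)), mul_left_comm]⟩
  obtain ⟨G, hG, HG⟩ := H (fun _ => 0) (fun _ _ _ _ => contDiffAt_const)
    (fun e x hx hk => by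
      beta_reduce
      rw [z0]
      exact (hp e x hx (hΩK hk)).posSemidef) _ hs0
    (fun y => ∑ p, T p y) (fun y _ => (tendsto_finsetSum _ fun p _ => Tc p y).mono_left
      nhdsWithin_le_nhds) (fun y _ => Finset.sum_nonneg fun p _ => T0 p y)
    (fun i e x hx hi hk v => by
      have hk' := hΩK hk
      obtain ⟨a, -, ha⟩ := Finset.exists_ne_zero_of_sum_ne_zero ((h1 x hk').trans_ne one_ne_zero)
      have ha' := subset_tsupport _ ha
      have e1 : ∑ j, dzb j (fun z => ∑ b, (χ b (e.symm z) : ℂ) * f (c b) i (e.symm z)) (e x) * v j =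
          ∑ b, (f (c b) i x - f (c a) i x) * Ch.DvX (χ b) e x v := by
        simp only [sub_mul, Finset.sum_sub_distrib, ← Finset.mul_sum, sum_DvX hχ
          ((hΩ.eventually_mem hk).mono fun y hy => h1 y (hΩK hy)) hx, mul_zero,
          sub_zero, ← term_dzb (hf _) (hχ _) (hs _) hx hi]
        rw [Finset.sum_comm]
        refine Finset.sum_congr rfl fun j _ => ?_
        rw [C2.dzb_sum j _ fun b _ => (term_smooth (hf _) (hχ b) (hs b) hx hi).differentiableAt
          (by simp), Finset.sum_mul]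
      have hQ := Qf_nonneg (hp e x hx hk').posSemidef v
      have e2 : ∀ b, n * (‖(f (c b) i x - f (c a) i x) * Ch.DvX (χ b) e x v‖ ^ 2 *
          Real.exp (-ρ i x)) ≤ T (a, b) x * Qf (Θ e (e x)) v := fun b => by
        by_cases hb : x ∈ tsupport (χ b)
        · have e3 := mul_le_mul_of_nonneg_left (HC b e x hx hk' v)
            (mul_nonneg n.cast_nonneg (D0 (c a) (c b) x))
          have e4 : β a x = 1 := b1 a ⟨hk', ha'⟩
          have e5 : β b x = 1 := b1 b ⟨hk', hb⟩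
          simp only [hT, e4, e5]
          rw [norm_mul, mul_pow, mul_right_comm, ← (sc _ _).nrm_eq' hρ hi ⟨hs a ha', hs b hb⟩]
          linarith
        · rw [Gl.DvX_zero hx hb, mul_zero, norm_zero, zero_pow two_ne_zero, zero_mul, mul_zero]
          exact mul_nonneg (T0 _ _) hQ
      have e4 : ∑ b, T (a, b) x ≤ ∑ p, T p x := by
        rw [Fintype.sum_prod_type]
        exact Finset.single_le_sum (f := fun a => ∑ b, T (a, b) x)
          (fun a _ => Finset.sum_nonneg fun b _ => T0 _ _) (Finset.mem_univ a)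
      beta_reduce
      rw [z0, e1]
      refine (mul_le_mul_of_nonneg_right (sq_sum_le _) (Real.exp_pos _).le).trans
        (le_trans ?_ (mul_le_mul_of_nonneg_right e4 hQ))
      rw [mul_assoc, Finset.sum_mul, Finset.mul_sum, Finset.sum_mul]
      exact Finset.sum_le_sum fun b _ => e2 b)
  simp only [neg_zero, Real.exp_zero, mul_one] at HG
  have fin := ne_top_of_le_ne_top (li_cpt hK fun x hx => LI.sum Finset.univ (g := T)
    (fun p => ((kT _ _ x).2 hx).const_mul (mul_nonneg n.cast_nonneg (hC _).le))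
    fun p => Eventually.of_forall (Tc p)) (HG.trans (lintegral_mono_set hΩK))
  refine ⟨G, hG, fun a x hx ha => ?_⟩
  have kU := fun b y (hy : y ∈ W a) => key (χ b) a (c b) y (smooth_continuous (hχ b))
    (fun y => (h01 b y).2) fun h => ⟨hy, hs b h⟩
  have l1 : LI ν (nrm M ρ fun i y => G i y - ∑ b, χ b y * f (c b) i y) x := ⟨Ω, hΩ.mem_nhds hx, fin⟩
  have l2 := LI.sum Finset.univ (fun b => (kU b x ha).2 (hΩK hx))
    fun b => ((hW a).eventually_mem ha).mono fun y hy => (kU b y hy).1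
  refine LI.mono ((l1.const_mul zero_le_two).add ((l2.const_mul n.cast_nonneg).const_mul zero_le_two)
    ((hΩ.eventually_mem hx).mono fun y hy => continuousAt_const.mul
      ((hG.sc.sub hs0).contAt_nrm hρ hΩ hy))) ((hΩ.eventually_mem hx).mono fun y hy => ?_)
  have e1 : nrm M ρ (fun i y => G i y - f a i y) y = nrm M ρ (fun i y =>
      (G i y - ∑ b, χ b y * f (c b) i y) + (∑ b, χ b y * f (c b) i y - f a i y)) y := by
    simp only [sub_add_sub_cancel]
  refine e1.trans_le ((nrm_add_le _ _ _ _ _).trans (add_le_add_right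
    (mul_le_mul_of_nonneg_left ?_ zero_le_two) _))
  set i := (M.cover y).choose with hi
  have e2 : ∑ b, χ b y * f (c b) i y - f a i y = ∑ b, χ b y * (f (c b) i y - f a i y) := by
    simp only [mul_sub, Finset.sum_sub_distrib, ← Finset.sum_mul, h2 y hy, one_mul]
  show ‖∑ b, χ b y * f (c b) i y - f a i y‖ ^ 2 * Real.exp (-ρ i y) ≤ _
  rw [e2]
  refine (mul_le_mul_of_nonneg_right (sq_sum_le _) (Real.exp_pos _).le).trans ?_
  rw [mul_assoc, Finset.sum_mul]
  refine mul_le_mul_of_nonneg_left (Finset.sum_le_sum fun b _ => ?_) n.cast_nonneg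
  rw [norm_mul, mul_pow, mul_assoc, Complex.norm_real, Real.norm_of_nonneg (h01 b y).1]
  exact mul_le_mul_of_nonneg_right (by nlinarith [h01 b y]) (D0 a (c b) y)

end Vale.Agent.P277Z.Van
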