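import Vale.Agent.P277Z.Van.Defs

/-!
# P277Z, block VAN: multiplier ideals, the vanishing theorem of Nadel, extension theorems
-/

open scoped Manifold ContDiff ComplexOrder Topology ENNReal Matrix
open MeasureTheory Filter Set

noncomputable section

namespace Vale.Agent.P277Z.Van

open Vale.Agent.P272.K Vale.Agent.P301.H599 Vale.Agent.P285Z
open Vale.Agent.P301.H98 (IsSection nrm)
open Vale.Agent.P301.H862 (IsSc powL)

section defs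

variable {d : ℕ} {X : Type} [TopologicalSpace X] [ChartedSpace (Cm d) X] {ι κ : Type} {m : ℕ}

/-- `|s_i|² Π_j (Σ_a |σ_{j,a}|²)^{-c_j}` in the frames `i`, `k j` -/
def jf (S : Fin m → Sys d X) (c : Fin m → ℝ) (s : κ → X → ℂ) (i : κ) (k : ∀ j, (S j).ι) (y : X) :
    ℝ≥0∞ :=
  ENNReal.ofReal (‖s i y‖ ^ 2) * ∏ j, ENNReal.ofReal (∑ a, ‖(S j).σ a (k j) y‖ ^ 2) ^ (-c j)

/-- `e` is a chart at `x`, and `i`, `k j` are frames at `x` -/
def Fr (M : LineBundle d X κ) (S : Fin m → Sys d X) (e : Chart d X) (i : κ) (k : ∀ j, (S j).ι)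
    (x : X) : Prop :=
  At e x ∧ x ∈ M.U i ∧ ∀ j, x ∈ (S j).L.U (k j)

/-- the germ of `s` at `x` is in the multiplier ideal: in some chart and frames -/
def InJ (M : LineBundle d X κ) (S : Fin m → Sys d X) (c : Fin m → ℝ) (s : κ → X → ℂ) (x : X) :
    Prop :=
  ∃ e i k, Fr M S e i k x ∧ ∃ V ∈ 𝓝 (e x), ∫⁻ z in V, jf S c s i k (e.symm z) ≠ ⊤

/-- the same in all charts and frames -/
def InJ' (M : LineBundle d X κ) (S : Fin m → Sys d X) (c : Fin m → ℝ) (s : κ → X → ℂ) (x : X) :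
    Prop :=
  ∀ e i k, Fr M S e i k x → ∃ V ∈ 𝓝 (e x), ∫⁻ z in V, jf S c s i k (e.symm z) ≠ ⊤

/-- `s` is square integrable for `ν` near `x` -/
def LocL2 [MeasurableSpace X] (ν : Measure X) (M : LineBundle d X κ) (ρ : κ → X → ℝ)
    (s : κ → X → ℂ) (x : X) : Prop :=
  ∃ V ∈ 𝓝 x, ∫⁻ y in V, ENNReal.ofReal (nrm M ρ s y) ∂ν ≠ ⊤

/-- the system with one section -/
def Sys.one (L : LineBundle d X ι) (ρ : ι → X → ℝ) (σ : ι → X → ℂ) (hρ : IsMetric L ρ)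
    (hσ : IsSection L σ) : Sys d X :=
  ⟨ι, L, ρ, 1, fun _ => σ, hρ, fun _ => hσ⟩

/-- `dσ ≠ 0` at the zeros of `σ` in `K` -/
def SmZ (K : Set X) (L : LineBundle d X ι) (σ : ι → X → ℂ) : Prop :=
  ∀ i (e : Chart d X) x, At e x → x ∈ L.U i → x ∈ K → σ i x = 0 →
    fderiv ℂ (fun z => σ i (e.symm z)) (e x) ≠ 0

/-- `f = u` at the zeros of `σ` in `W` -/
def AgreeOn (W : Set X) (L : LineBundle d X ι) (σ : ι → X → ℂ) (M : LineBundle d X κ)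
    (f u : κ → X → ℂ) : Prop :=
  ∀ i k x, x ∈ M.U i → x ∈ L.U k → x ∈ W → σ k x = 0 → f i x = u i x

/-- a continuous Hermitian `(1,1)`-form -/
structure CForm (a : Fm d X) : Prop where
  cont : ∀ e x, At e x → ∀ i j, ContinuousAt (fun z => a e z i j) (e x)
  herm : ∀ e x, At e x → (a e (e x)).IsHermitian
  form : IsForm a

/-- `Ω ⊆ K` is weakly pseudoconvex, `K` is compact and there is a positive line bundle on `Ω` -/
structure Dom (d : ℕ) {X : Type} [TopologicalSpace X] [ChartedSpace (Cm d) X] (Ω K : Set X) :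
    Prop where
  cpt : IsCompact K
  sub : Ω ⊆ K
  pos : ∃ (ψ : X → ℝ) (η : Type) (A : LineBundle d X η) (σ : η → X → ℝ), Exh d Ω ψ ∧
    IsMetric A σ ∧ PDOn Ω (curvature A σ)

end defs

/-- (JEQ) the multiplier ideal does not depend on the chart and the frames -/
def JeqStmt : Prop :=
  ∀ (d : ℕ) (X : Type) [TopologicalSpace X] [ChartedSpace (Cm d) X] [IsManifold 𝓘(ℂ, Cm d) ω X]
    [T2Space X] [MeasurableSpace X] [BorelSpace X] (h : Fm d X) (μ : Measure X),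
    IsHermitian h → IsVol h μ →
    ∀ (κ : Type) (M : LineBundle d X κ) (ρ : κ → X → ℝ), IsMetric M ρ →
    ∀ (m : ℕ) (S : Fin m → Sys d X) (c : Fin m → ℝ) (W : Set X) (s : κ → X → ℂ) (x : X),
    IsOpen W → x ∈ W → ScOn M W s →
    (InJ M S c s x → LocL2 (μ.withDensity (sw S c)) M ρ s x) ∧
      (LocL2 (μ.withDensity (sw S c)) M ρ s x → InJ' M S c s x)

/-- (NAD0) gluing and the `L²` estimate -/
def Nad0Stmt : Prop :=
  ∀ (d : ℕ) (X : Type) [TopologicalSpace X] [ChartedSpace (Cm d) X] [IsManifold 𝓘(ℂ, Cm d) ω X]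
    [T2Space X] [SigmaCompactSpace X] [MeasurableSpace X] [BorelSpace X] (ν : Measure X)
    (Ω K : Set X), IsOpen Ω → IsCompact K → Ω ⊆ K →
    ∀ (κ : Type) (M : LineBundle d X κ) (ρ : κ → X → ℝ) (Θ : Fm d X), IsMetric M ρ → CForm Θ →
    PDOn K Θ → HormOn Ω ν M ρ Θ →
    ∀ (α : Type) (W : α → Set X) (f : α → κ → X → ℂ), (∀ a, IsOpen (W a)) →
    (∀ x ∈ K, ∃ a, x ∈ W a) → (∀ a, SecOn M (W a) (f a)) →
    (∀ a b, ∀ x ∈ K, x ∈ W a → x ∈ W b → LocL2 ν M ρ (fun i y => f a i y - f b i y) x) →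
    ∃ F, SecOn M Ω F ∧ ∀ a, ∀ x ∈ Ω, x ∈ W a → LocL2 ν M ρ (fun i y => F i y - f a i y) x

/-- (NADEL) sections modulo the multiplier ideal lift to sections -/
def NadelStmt : Prop :=
  ∀ (d : ℕ) (X : Type) [TopologicalSpace X] [ChartedSpace (Cm d) X] [IsManifold 𝓘(ℂ, Cm d) ω X]
    [T2Space X] [SigmaCompactSpace X] (h : Fm d X), IsHermitian h → ∀ Ω K : Set X, Dom d Ω K →
    ∀ (κ : Type) (M : LineBundle d X κ) (ρ : κ → X → ℝ), IsMetric M ρ →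
    ∀ (m : ℕ) (S : Fin m → Sys d X) (c : Fin m → ℝ), (∀ j, 0 ≤ c j) →
    (PDOn K fun e z => curvature M ρ e z - kc h e z - sc S c e z) →
    ∀ (α : Type) (W : α → Set X) (f : α → κ → X → ℂ), (∀ a, IsOpen (W a)) →
    (∀ x ∈ K, ∃ a, x ∈ W a) → (∀ a, SecOn M (W a) (f a)) →
    (∀ a b, ∀ x ∈ K, x ∈ W a → x ∈ W b → InJ M S c (fun i y => f a i y - f b i y) x) →
    ∃ F, SecOn M Ω F ∧ ∀ a, ∀ x ∈ Ω, x ∈ W a → InJ' M S c (fun i y => F i y - f a i y) x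

/-- (EXT) extension from the smooth hypersurface `σ = 0`; the hypothesis is local extension with
the weight `|σ|^{-2(1-δ)}` for all `δ > 0` -/
def ExtStmt : Prop :=
  ∀ (d : ℕ) (X : Type) [TopologicalSpace X] [ChartedSpace (Cm d) X] [IsManifold 𝓘(ℂ, Cm d) ω X]
    [T2Space X] [SigmaCompactSpace X] (h : Fm d X), IsHermitian h → ∀ Ω K : Set X, Dom d Ω K →
    ∀ (κ : Type) (M : LineBundle d X κ) (ρ : κ → X → ℝ), IsMetric M ρ →
    ∀ (ι : Type) (L : LineBundle d X ι) (ρL : ι → X → ℝ) (σ : ι → X → ℂ) (hL : IsMetric L ρL)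
      (hσ : IsSection L σ), SmZ K L σ →
    ∀ (m : ℕ) (S : Fin m → Sys d X) (c : Fin m → ℝ), (∀ j, 0 ≤ c j) →
    (PDOn K fun e z => curvature M ρ e z - kc h e z - curvature L ρL e z - sc S c e z) →
    ∀ u : κ → X → ℂ,
    (∀ δ : ℝ, 0 < δ → δ < 1 → ∀ k, ∀ x ∈ K, x ∈ L.U k → σ k x = 0 → ∃ W f, IsOpen W ∧ x ∈ W ∧
      SecOn M W f ∧ AgreeOn W L σ M f u ∧
      InJ M (Fin.cons (Sys.one L ρL σ hL hσ) S) (Fin.cons (1 - δ) c) f x) →
    ∃ F, SecOn M Ω F ∧ AgreeOn Ω L σ M F u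

/-- (VANP) a pole of order `d + k` forces vanishing to order `> k` -/
def VanpStmt : Prop :=
  ∀ (d : ℕ) (X : Type) [TopologicalSpace X] [ChartedSpace (Cm d) X] [IsManifold 𝓘(ℂ, Cm d) ω X]
    (κ : Type) (M : LineBundle d X κ) (m : ℕ) (S : Fin m → Sys d X) (c : Fin m → ℝ),
    1 ≤ d → (∀ j, 0 ≤ c j) → ∀ (e : Chart d X) (i : κ) (k : ∀ j, (S j).ι) (y : X) (s : κ → X → ℂ),
    Fr M S e i k y → AnalyticAt ℂ (fun z => s i (e.symm z)) (e y) →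
    (∃ V ∈ 𝓝 (e y), ∫⁻ z in V, jf S c s i k (e.symm z) ≠ ⊤) →
    ∀ (j : Fin m) (r : ℕ), (d + r : ℝ) ≤ c j → (∀ a, (S j).σ a (k j) y = 0) →
    (fun z => s i (e.symm z)) =o[𝓝 (e y)] fun z => ‖z - e y‖ ^ r

/-- (SKL) the zero set of `g` is smooth: `|g|^{-2β}` is integrable for `β < 1` -/
def SklStmt : Prop :=
  ∀ (d : ℕ) (g : Cm d → ℂ) (y : Cm d), AnalyticAt ℂ g y → fderiv ℂ g y ≠ 0 → ∀ β : ℝ, β < 1 →
    ∃ V ∈ 𝓝 y, ∫⁻ z in V, ENNReal.ofReal (‖g z‖ ^ 2) ^ (-β) ≠ ⊤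

/-- (VANS) `|f|² / |g|²` is integrable near a zero of `g`: then `f` vanishes there -/
def VansStmt : Prop :=
  ∀ (d : ℕ) (f g : Cm d → ℂ) (y : Cm d), AnalyticAt ℂ f y → AnalyticAt ℂ g y → g y = 0 →
    (∃ V ∈ 𝓝 y, ∫⁻ z in V, ENNReal.ofReal (‖f z‖ ^ 2) * ENNReal.ofReal (‖g z‖ ^ 2) ^ (-1 : ℝ) ≠ ⊤) →
    f y = 0

/-- (PT) sections with prescribed germs modulo the multiplier ideal at finitely many points -/
def PtStmt : Prop :=
  ∀ (d : ℕ) (X : Type) [TopologicalSpace X] [ChartedSpace (Cm d) X] [IsManifold 𝓘(ℂ, Cm d) ω X]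
    [T2Space X] [SigmaCompactSpace X] (h : Fm d X), IsHermitian h → ∀ Ω K : Set X, Dom d Ω K →
    ∀ (κ : Type) (M : LineBundle d X κ) (ρ : κ → X → ℝ), IsMetric M ρ →
    ∀ (m : ℕ) (S : Fin m → Sys d X) (c : Fin m → ℝ), (∀ j, 0 ≤ c j) →
    (PDOn K fun e z => curvature M ρ e z - kc h e z - sc S c e z) →
    ∀ (n : ℕ) (y : Fin n → X) (W : Fin n → Set X) (f : Fin n → κ → X → ℂ), Function.Injective y →
    (∀ a, IsOpen (W a) ∧ y a ∈ W a ∧ SecOn M (W a) (f a) ∧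
      ∀ x ∈ W a, x ≠ y a → InJ M S c (f a) x) →
    ∃ F, SecOn M Ω F ∧ (∀ a, y a ∈ Ω → InJ' M S c (fun i x => F i x - f a i x) (y a)) ∧
      ∀ x ∈ Ω, (∀ a, x ≠ y a) → InJ' M S c F x

end Vale.Agent.P277Z.Van
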