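import Vale.Agent.P277Z.Van.Sk
import Vale.Agent.P285Z.Res

/-!
# P277Z, block VAN: a pole of order `d + r` forces vanishing to order `> r`
-/

open scoped Topology ENNReal
open MeasureTheory Filter Set Metric Asymptotics

noncomputable section

namespace Vale.Agent.P277Z.Van

open Vale.Agent.P272.K Vale.Agent.P285Z

namespace Vanp

theorem ball_ev {E : Type} [PseudoMetricSpace E] {a : E} {p : E → Prop} (h : ∀ᶠ z in 𝓝 a, p z) :
    ∀ᶠ t in 𝓝[>] (0 : ℝ), ∀ z ∈ ball a (2 * t), p z := by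
  obtain ⟨R, hR, h⟩ := Metric.eventually_nhds_iff_ball.1 h
  filter_upwards [Ioo_mem_nhdsGT (half_pos hR)] with t ht z hz
  exact h z (ball_subset_ball (by linarith [ht.2]) hz)

theorem core {d : ℕ} (hd : 1 ≤ d) {a : Cm d} {g : Cm d → ℂ} (hg : AnalyticAt ℂ g a)
    {F : Cm d → ℝ≥0∞} {V : Set (Cm d)} (hV : V ∈ 𝓝 a) (hF : ∫⁻ z in V, F z ≠ ⊤) {r : ℕ} {C : ℝ}
    (hC : 0 < C) (h : ∀ᶠ t in 𝓝[>] (0 : ℝ), ∀ z ∈ ball a (2 * t),
      ENNReal.ofReal (‖g z‖ ^ 2) ≤ ENNReal.ofReal (C * (t ^ 2) ^ (d + r)) * F z) :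
    g =o[𝓝 a] fun z => ‖z - a‖ ^ r := by
  refine isLittleO_iff.2 fun ε hε => ?_
  obtain ⟨b, hb, hvol⟩ : ∃ b : ℝ, 0 < b ∧ ∀ (z : Cm d) (t : ℝ), 0 < t →
      volume (ball z t) = ENNReal.ofReal ((t ^ 2) ^ d * b) := by
    refine ⟨(volume (ball (0 : Cm d) 1)).toReal, ENNReal.toReal_pos
      (measure_ball_pos _ _ one_pos).ne' measure_ball_lt_top.ne, fun z t ht => ?_⟩
    rw [Measure.addHaar_ball_of_pos _ z ht, ENNReal.ofReal_mul (by positivity),
      ENNReal.ofReal_toReal measure_ball_lt_top.ne, ← pow_mul]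
    simp [Module.finrank_pi_fintype, mul_comm]
  obtain ⟨δ, hδ, h1⟩ := exists_pos_setLIntegral_lt_of_measure_lt hF
    (ε := ENNReal.ofReal (ε ^ 2 * b / C)) (ENNReal.ofReal_pos.2 (by positivity)).ne'
  have h2 : ∀ᶠ t in 𝓝[>] (0 : ℝ), ENNReal.ofReal ((t ^ 2) ^ d * b) < δ := by
    have : Tendsto (fun t : ℝ => ENNReal.ofReal ((t ^ 2) ^ d * b)) (𝓝 0)
        (𝓝 (ENNReal.ofReal ((0 ^ 2) ^ d * b))) :=
      ENNReal.tendsto_ofReal (Continuous.tendsto (by fun_prop) 0)
    rw [zero_pow two_ne_zero, zero_pow (by omega), zero_mul, ENNReal.ofReal_zero] at this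
    exact (this.eventually (gt_mem_nhds hδ)).filter_mono nhdsWithin_le_nhds
  have h3 : ∀ᶠ t in 𝓝[>] (0 : ℝ), ∀ z ∈ ball a t, ‖g z‖ ≤ ε * t ^ r := by
    filter_upwards [h, h2, ball_ev hV, ball_ev hg.eventually_analyticAt, self_mem_nhdsWithin]
      with t e1 e2 e3 e4 (ht : 0 < t) z hz
    have hs : ball z t ⊆ ball a (2 * t) := ball_subset_ball' (by linarith [mem_ball.1 hz])
    have e5 := Res.submean (f := fun w => g w ^ 2) (z := z) (r := t) (ρ := fun _ => 1)
      (fun w hw => ((e4 w (hs hw)).differentiableAt.pow 2).differentiableWithinAt)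
      measurable_const fun _ _ _ => rfl
    have e6 : ∫⁻ v in ball (0 : Cm d) t, ‖g (z + v) ^ 2‖ₑ * 1 =
        ∫⁻ w in ball z t, ENNReal.ofReal (‖g w‖ ^ 2) := by
      rw [← (measurePreserving_add_left volume z).setLIntegral_comp_preimage_emb
        (measurableEmbedding_addLeft z) _ (ball z t),
        show (fun x => z + x) ⁻¹' ball z t = ball (0 : Cm d) t from by ext x; simp]
      exact lintegral_congr fun v => by rw [mul_one, ← ofReal_norm, norm_pow]
    have e7 := h1 (ball z t) ((Measure.restrict_apply_le _ _).trans_lt (by rwa [hvol z t ht]))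
    rw [Measure.restrict_restrict_of_subset fun w hw => e3 w (hs hw)] at e7
    rw [e6, setLIntegral_one, hvol 0 t ht, ← ofReal_norm, norm_pow] at e5
    have e8 := (e5.trans (setLIntegral_mono' measurableSet_ball fun w hw => e1 w (hs hw))).trans
      ((lintegral_const_mul' _ _ ENNReal.ofReal_ne_top).le.trans (mul_le_mul_right e7.le _))
    rw [← ENNReal.ofReal_mul (by positivity), ← ENNReal.ofReal_mul (by positivity),
      ENNReal.ofReal_le_ofReal_iff (by positivity)] at e8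
    refine (pow_le_pow_iff_left₀ (norm_nonneg _) (by positivity) two_ne_zero).1
      (le_of_mul_le_mul_right (e8.trans_eq ?_) (by positivity : 0 < (t ^ 2) ^ d * b))
    field_simp
    ring
  obtain ⟨R, hR, h4⟩ := (mem_nhdsGT_iff_exists_Ioo_subset).1 h3
  filter_upwards [ball_mem_nhds a hR] with z hz
  rw [mem_ball_iff_norm] at hz
  rw [norm_pow, norm_norm]
  refine ge_of_tendsto (f := fun t => ε * t ^ r) (x := 𝓝[>] ‖z - a‖)
    (((by fun_prop : Continuous fun t : ℝ => ε * t ^ r).tendsto _).mono_left nhdsWithin_le_nhds) ?_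
  filter_upwards [Ioo_mem_nhdsGT hz] with t ht
  exact h4 ⟨(norm_nonneg _).trans_lt ht.1, ht.2⟩ z (mem_ball_iff_norm.2 ht.1)

theorem one_le {x A c b : ℝ} (hc : 0 ≤ c) (hA : 0 < A) (hx : x ≤ A) (h : A ^ c ≤ b) :
    1 ≤ ENNReal.ofReal b * ENNReal.ofReal x ^ (-c) := by
  have hb : 0 < b := (Real.rpow_pos_of_pos hA c).trans_le h
  rw [ENNReal.rpow_neg, ← ENNReal.mul_inv_cancel (ENNReal.ofReal_pos.2 hb).ne' ENNReal.ofReal_ne_top]
  refine mul_le_mul_right (ENNReal.inv_le_inv.2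
    ((ENNReal.rpow_le_rpow (ENNReal.ofReal_le_ofReal hx) hc).trans ?_)) _
  rw [ENNReal.ofReal_rpow_of_pos hA]
  exact ENNReal.ofReal_le_ofReal h

end Vanp

open Vanp

/-- (VANP) -/
theorem vanp : VanpStmt := by
  intro d X _ _ _ κ M m S c hd hc e i k y s hFr hs ⟨V, hV, hF⟩ j r hj h0
  let N : Fin m → Cm d → ℝ := fun l z => ∑ a, ‖(S l).σ a (k l) (e.symm z)‖ ^ 2
  have ha := fun l a => ((S l).sec a).holo (k l) e y hFr.1 (hFr.2.2 l)
  have h1 : ∀ l, ∀ᶠ z in 𝓝 (e y), N l z ≤ N l (e y) + 1 := fun l =>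
    (show ContinuousAt (N l) (e y) from tendsto_finsetSum _ fun a _ =>
      (ha l a).continuousAt.norm.pow 2).eventually (ge_mem_nhds (lt_add_one _))
  have h2 : N j =O[𝓝 (e y)] fun z => ‖z - e y‖ ^ 2 := IsBigO.fun_sum fun a _ => by
    have := (ha j a).differentiableAt.isBigO_sub
    rw [e.left_inv hFr.1.2, h0] at this
    simpa only [sub_zero] using this.norm_norm.pow 2
  obtain ⟨C, hC, h3⟩ := h2.exists_pos
  have hN : ∀ l, 0 < N l (e y) + 1 := fun l => by positivity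
  have hP : 0 < ∏ l ∈ Finset.univ \ {j}, (N l (e y) + 1) ^ c l :=
    Finset.prod_pos fun l _ => Real.rpow_pos_of_pos (hN l) _
  refine core hd hs hV hF (mul_pos (pow_pos (mul_pos hC four_pos) (d + r)) hP) ?_
  have h4 : ∀ᶠ t in 𝓝[>] (0 : ℝ), C * 4 * t ^ 2 ≤ 1 :=
    (((by fun_prop : Continuous fun t : ℝ => C * 4 * t ^ 2).tendsto 0).eventually
      (ge_mem_nhds (by simp))).filter_mono nhdsWithin_le_nhds
  filter_upwards [ball_ev (eventually_all.2 h1), ball_ev h3.bound, h4, self_mem_nhdsWithin]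
    with t e1 e2 e3 (ht : 0 < t) z hz
  have e4 : ∀ l, 1 ≤ ENNReal.ofReal (Function.update (fun l => (N l (e y) + 1) ^ c l) j
      ((C * 4 * t ^ 2) ^ (d + r)) l) * ENNReal.ofReal (N l z) ^ (-c l) := fun l => by
    rcases eq_or_ne l j with rfl | hl
    · refine one_le (hc l) (by positivity : 0 < C * 4 * t ^ 2) ?_ ?_
      · have e5 := (le_abs_self _).trans (e2 z hz)
        have e6 := pow_le_pow_left₀ (norm_nonneg _) (mem_ball_iff_norm.1 hz).le 2
        rw [norm_pow, norm_norm] at e5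
        nlinarith
      · rw [Function.update_self, ← Real.rpow_natCast _ (d + r)]
        exact Real.rpow_le_rpow_of_exponent_ge (by positivity) e3 (by exact_mod_cast hj)
    · exact one_le (hc l) (hN l) (e1 z hz l) (by rw [Function.update_of_ne hl])
  have e5 := Finset.one_le_prod' (s := Finset.univ) fun l _ => e4 l
  rw [Finset.prod_mul_distrib, ← ENNReal.ofReal_prod_of_nonneg fun l _ => by
    rw [Function.update_apply]
    split_ifs
    exacts [by positivity, (Real.rpow_pos_of_pos (hN l) _).le],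
    Finset.prod_update_of_mem (Finset.mem_univ j), mul_pow, mul_right_comm (_ ^ (d + r))] at e5
  rw [jf, mul_left_comm]
  exact le_mul_of_one_le_right' e5

end Vale.Agent.P277Z.Van
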